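import Crest.Prelude.Def_KServer

/-! Row 314 (randomized `k`-server, `O(log² k)` on every metric space): shared definitions. -/

set_option autoImplicit false

open Finset Crest.LogicCS.KServer

namespace Crest.Agent.R314

noncomputable section
open Classical

/-! ## Deterministic online algorithms and time-indexed request sequences -/

section det
variable {X : Type*} {k : ℕ}

/-- choices of the deterministic online algorithm `A` (a function of the revealed prefix) -/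
def dch (A : List X → Fin k) : List X → List X → List (X × Fin k)
  | _, [] => []
  | pre, r :: rest => (r, A (pre ++ [r])) :: dch A (pre ++ [r]) rest

theorem dch_nil (A : List X → Fin k) (pre : List X) : dch A pre [] = [] := rfl
theorem dch_cons (A : List X → Fin k) (pre : List X) (r : X) (rest : List X) :
    dch A pre (r :: rest) = (r, A (pre ++ [r])) :: dch A (pre ++ [r]) rest := rfl

def dcost [MetricSpace X] (A : List X → Fin k) (s : Fin k → X) (σ : List X) : ℝ :=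
  pathCost s (dch A [] σ)

/-- the requests at the times `1, …, T` -/
def reqs (x : ℕ → X) (T : ℕ) : List X := (List.range T).map fun t => x (t + 1)

/-- the requests at the times `1, …, T` with the serving servers -/
def path (x : ℕ → X) (j : ℕ → Fin k) (T : ℕ) : List (X × Fin k) :=
  (List.range T).map fun t => (x (t + 1), j (t + 1))

/-- configuration at time `t` -/
def cfg (s : Fin k → X) (x : ℕ → X) (j : ℕ → Fin k) : ℕ → Fin k → X
  | 0 => s
  | t + 1 => Function.update (cfg s x j t) (j (t + 1)) (x (t + 1))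

theorem cfg_zero (s : Fin k → X) (x : ℕ → X) (j : ℕ → Fin k) : cfg s x j 0 = s := rfl
theorem cfg_succ (s : Fin k → X) (x : ℕ → X) (j : ℕ → Fin k) (t : ℕ) :
    cfg s x j (t + 1) = Function.update (cfg s x j t) (j (t + 1)) (x (t + 1)) := rfl

end det

/-- The Bayesian form of the theorem: against a known finite distribution of request sequences
and of ways to serve them, some deterministic online algorithm is `C log² (k+1)`-competitive up to
an additive constant depending on the space only. -/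
def Bayes (C : ℝ) : Prop :=
  ∀ (k : ℕ), 2 ≤ k → ∀ (X : Type) [Fintype X] [MetricSpace X],
    (∀ a b : X, a ≠ b → 1 ≤ dist a b) → ∀ s : Fin k → X, ∃ B : ℝ,
      ∀ (T : ℕ) (Ω : Type) [Fintype Ω] (P : Ω → ℝ), (∀ ω, 0 < P ω) → ∑ ω, P ω = 1 →
        ∀ (x : ℕ → Ω → X) (j : ℕ → Ω → Fin k), ∃ A : List X → Fin k,
          ∑ ω, P ω * dcost A s (reqs (fun t => x t ω) T) ≤
            C * Real.log (k + 1) ^ 2 *
              ∑ ω, P ω * pathCost s (path (fun t => x t ω) (fun t => j t ω) T) + B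

/-! ## The filtration generated by the requests -/

section filt
variable {X Ω : Type*}

/-- same requests at the times `1, …, t` -/
def Same (x : ℕ → Ω → X) (t : ℕ) (ω ω' : Ω) : Prop := ∀ s, 1 ≤ s → s ≤ t → x s ω = x s ω'

def Adapted {α : Type*} (x : ℕ → Ω → X) (t : ℕ) (f : Ω → α) : Prop :=
  ∀ ω ω', Same x t ω ω' → f ω = f ω'

/-- conditional expectation given the first `t` requests -/
def cE [Fintype Ω] (P : Ω → ℝ) (x : ℕ → Ω → X) (t : ℕ) (f : Ω → ℝ) (ω : Ω) : ℝ :=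
  (∑ ω' with Same x t ω ω', P ω' * f ω') / ∑ ω' with Same x t ω ω', P ω'

end filt

/-! ## Levelled trees -/

/-- a rooted tree whose leaves are all at level `0` -/
structure Tr (V : Type) where
  par : V → V
  root : V
  lvl : V → ℕ
  par_root : par root = root
  lvl_par : ∀ v, v ≠ root → lvl (par v) = lvl v + 1
  lvl_lt : ∀ v, v ≠ root → lvl v < lvl root
  exists_child : ∀ v, 0 < lvl v → ∃ c, c ≠ root ∧ par c = v

section tree
variable {V : Type} (T : Tr V)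

/-- weight of a node (length of the edge to its parent) -/
def Tr.w (v : V) : ℝ := 16 ^ T.lvl v

/-- `u` lies in the subtree of `v` -/
def Tr.Sub (u v : V) : Prop := ∃ n : ℕ, T.par^[n] u = v

variable [Fintype V]

def Tr.ch (v : V) : Finset V := univ.filter fun c => c ≠ T.root ∧ T.par c = v

/-- tree distance -/
def Tr.td (u u' : V) : ℝ := ∑ v, if (T.Sub u v ↔ T.Sub u' v) then 0 else T.w v

/-- superadditive along the tree -/
def Tr.SA (f : V → ℝ) : Prop := ∀ v, ∑ c ∈ T.ch v, f c ≤ f v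

/-- mass parked at a node -/
def Tr.park (f : V → ℝ) (v : V) : ℝ := f v - ∑ c ∈ T.ch v, f c

/-- number of tokens in the subtree of `v` -/
def Tr.cnt {k : ℕ} (loc : Fin k → V) (v : V) : ℕ := #{i | T.Sub (loc i) v}

/-- `N` configurations of `k` tokens with prescribed total counts -/
def Tr.Cons {N k : ℕ} (loc : Fin N → Fin k → V) (a : V → ℕ) : Prop :=
  ∀ v, ∑ n, T.cnt (loc n) v = a v

def Tr.Bal {N k : ℕ} (loc : Fin N → Fin k → V) : Prop :=
  ∀ v n n', T.cnt (loc n) v ≤ T.cnt (loc n') v + 1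

def m2 {k : ℕ} (p : V → Fin k → ℝ) (v : V) : ℝ := ∑ i, p v i ^ 2
def m3 {k : ℕ} (p : V → Fin k → ℝ) (v : V) : ℝ := ∑ i, p v i ^ 3

/-- `p v i` stands for the posterior probability that `v` holds more than `i` servers -/
structure Tr.Good {k : ℕ} (p : V → Fin k → ℝ) : Prop where
  nonneg : ∀ v i, 0 ≤ p v i
  le_one : ∀ v i, p v i ≤ 1
  sa2 : T.SA (m2 p)
  sa3 : T.SA (m3 p)
  root : m2 p T.root = k

/-- A fractional Bayesian algorithm on the tree with Lipschitz constant `Λ`. -/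
structure HSTAlg (k : ℕ) (Λ : ℝ) where
  S : Type
  init : S
  step : S → (V → Fin k → ℝ) → S
  ν : S → V → ℝ
  Pot : S → (V → Fin k → ℝ) → ℝ
  G : S → (V → Fin k → ℝ) → V → Fin k → ℝ
  Valid : S → Prop
  valid_init : Valid init
  ν_init : ∀ v, ν init v = if v = T.root then (k : ℝ) else 0
  pot_init : ∀ p, T.Good p → Pot init p ≤ 0
  valid_step : ∀ s p, Valid s → T.Good p → Valid (step s p)
  ν_root : ∀ s p, Valid s → T.Good p → ν (step s p) T.root = k
  ν_nonneg : ∀ s p, Valid s → T.Good p → ∀ v, 0 ≤ ν (step s p) v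
  ν_sa : ∀ s p, Valid s → T.Good p → T.SA (ν (step s p))
  ν_le : ∀ s p, Valid s → T.Good p → ∀ v, v ≠ T.root → ν (step s p) v ≤ 3 * m2 p v
  ν_ge : ∀ s p, Valid s → T.Good p → ∀ v, 1 ≤ m3 p v → 1 ≤ ν (step s p) v
  amort : ∀ s p, Valid s → T.Good p →
    ∑ v, T.w v * |ν (step s p) v - ν s v| + Pot (step s p) p ≤ Pot s p
  pot_ge : ∀ s p, Valid s → T.Good p → -(Λ * ∑ v, T.w v * m2 p v) ≤ Pot (step s p) p
  G_le : ∀ s p, Valid s → T.Good p → ∀ v i, |G s p v i| ≤ Λ * T.w v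
  concave : ∀ s p p', Valid s → T.Good p → T.Good p' →
    Pot s p' ≤ Pot s p + ∑ v, ∑ i, G s p v i * (p' v i - p v i)

/-- An online map of the space to the leaves of the tree, with moving positions of the nodes. -/
structure Virt {X Ω : Type} [MetricSpace X] (x : ℕ → Ω → X) (Tm : ℕ) where
  node : ℕ → Ω → X → V
  pos : ℕ → Ω → V → X
  κ : ℕ → Ω → V → ℝ
  inc : ℕ → Ω → V → ℝ
  node_ad : ∀ t, Adapted x t (node t)
  pos_ad : ∀ t, Adapted x t (pos t)
  leaf : ∀ t ω y, T.lvl (node t ω y) = 0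
  pos_leaf : ∀ t ω y, pos t ω (node t ω y) = y
  near : ∀ t ≤ Tm, ∀ ω y v, T.Sub (node t ω y) v → dist (pos t ω v) y ≤ 11 * T.w v
  pos_root : ∀ t ω, pos t ω T.root = pos 0 ω T.root
  κ_nonneg : ∀ t ≤ Tm, ∀ ω v, 0 ≤ κ t ω v
  κ_le_one : ∀ t ≤ Tm, ∀ ω v, κ t ω v ≤ 1
  inc_nonneg : ∀ t ω v, 0 ≤ inc t ω v
  κ_succ : ∀ t < Tm, ∀ ω v, κ (t + 1) ω v ≤ κ t ω v + inc (t + 1) ω v
  drift : ∀ t < Tm, ∀ ω y y' v, T.Sub (node t ω y) v → T.Sub (node (t + 1) ω y') v →
    dist (pos t ω v) (pos (t + 1) ω v) ≤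
      T.w v * min 1 (κ t ω v + inc (t + 1) ω v - κ (t + 1) ω v)

end tree

/-! ## One scale of the embedding -/

/-- What is known at a request time: the request, the posterior mean `μm` of the previous
configuration and the posterior law `ρ` of the previous position of the serving server. -/
structure Dat (X : Type) where
  x : X
  μm : X → ℝ
  ρ : X → ℝ

section emb
variable {X : Type} [Fintype X] [MetricSpace X]

/-- posterior mean of the new configuration -/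
def Dat.μ (D : Dat X) (y : X) : ℝ := D.μm y - D.ρ y + if y = D.x then 1 else 0

structure Dat.OK (D : Dat X) (k : ℕ) : Prop where
  ρ_nonneg : ∀ y, 0 ≤ D.ρ y
  ρ_le : ∀ y, D.ρ y ≤ D.μm y
  sum_ρ : ∑ y, D.ρ y = 1
  sum_μm : ∑ y, D.μm y = k

/-- mass of a closed ball -/
def bm (μ : X → ℝ) (x : X) (s : ℝ) : ℝ := ∑ y with dist y x ≤ s, μ y

def Dat.V (D : Dat X) (r : ℕ) : ℝ := bm D.μ D.x (40 * r)

/-- local growth at scale `r` -/
def Dat.Γ (D : Dat X) (r : ℕ) : ℝ := (∑ j ∈ range r, Real.log (D.V r / bm D.μ D.x j)) / r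

def Dat.e1 (D : Dat X) (r : ℕ) : ℝ := ∑ y, D.ρ y * min 1 (dist y D.x / r)
def Dat.e2 (D : Dat X) (r : ℕ) : ℝ := ∑ y, D.ρ y * min 1 ((dist y D.x / r) ^ 2)

/-- A random online labelling at scale `r` up to time `Tm`. -/
structure Emb1 (X : Type) [Fintype X] [MetricSpace X] (k r Tm : ℕ) (C ε : ℝ) where
  Ξ : Type
  fin : Fintype Ξ
  Q : Ξ → ℝ
  Q_nonneg : ∀ ξ, 0 ≤ Q ξ
  Q_sum : ∑ ξ ∈ @univ Ξ fin, Q ξ = 1
  lab : Ξ → (ℕ → Dat X) → ℕ → X → X ⊕ Fin (Tm + 1)
  cpos : Ξ → (ℕ → Dat X) → ℕ → X ⊕ Fin (Tm + 1) → X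
  κ : Ξ → (ℕ → Dat X) → ℕ → X ⊕ Fin (Tm + 1) → ℝ
  inc : Ξ → (ℕ → Dat X) → ℕ → X ⊕ Fin (Tm + 1) → ℝ
  Pi : Ξ → (ℕ → Dat X) → ℕ → X → ℝ
  loc : ∀ ξ dat dat' t, (∀ s, 1 ≤ s → s ≤ t → dat s = dat' s) →
    lab ξ dat t = lab ξ dat' t ∧ cpos ξ dat t = cpos ξ dat' t ∧ Pi ξ dat t = Pi ξ dat' t
  inc_nonneg : ∀ ξ dat t l, 0 ≤ inc ξ dat t l
  pi_zero : ∀ ξ dat y, Pi ξ dat 0 y ≤ C * (1 + Real.log (Fintype.card X))
  near : ∀ ξ dat, (∀ s, (dat s).OK k) → ∀ t ≤ Tm, ∀ y,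
    dist (cpos ξ dat t (lab ξ dat t y)) y ≤ 11 * r
  κ_nonneg : ∀ ξ dat, (∀ s, (dat s).OK k) → ∀ t ≤ Tm, ∀ l, 0 ≤ κ ξ dat t l
  κ_le_one : ∀ ξ dat, (∀ s, (dat s).OK k) → ∀ t ≤ Tm, ∀ l, κ ξ dat t l ≤ 1
  κ_succ : ∀ ξ dat, (∀ s, (dat s).OK k) → ∀ t < Tm, ∀ l,
    κ ξ dat (t + 1) l ≤ κ ξ dat t l + inc ξ dat (t + 1) l
  drift : ∀ ξ dat, (∀ s, (dat s).OK k) → ∀ t < Tm, ∀ y l, lab ξ dat t y = l →
    dist (cpos ξ dat t l) (cpos ξ dat (t + 1) l) ≤
      r * min 1 (κ ξ dat t l + inc ξ dat (t + 1) l - κ ξ dat (t + 1) l)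
  inc_le : ∀ ξ dat, (∀ s, (dat s).OK k) → ∀ t < Tm, ∀ l,
    inc ξ dat (t + 1) l ≤ C * (dat (t + 1)).e1 r / (dat (t + 1)).V r
  inc_supp : ∀ ξ dat, (∀ s, (dat s).OK k) → ∀ t < Tm, ∀ y,
    inc ξ dat (t + 1) (lab ξ dat (t + 1) y) ≠ 0 → dist y (dat (t + 1)).x ≤ 40 * r
  pi_nonneg : ∀ ξ dat, (∀ s, (dat s).OK k) → ∀ t ≤ Tm, ∀ y, 0 ≤ Pi ξ dat t y
  main : ∀ dat, (∀ s, (dat s).OK k) → ∀ t < Tm,
    ∑ ξ ∈ @univ Ξ fin, Q ξ *
      (∑ y, (dat (t + 1)).μm y * (if lab ξ dat (t + 1) y = lab ξ dat t y then 0 else 1) +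
        ∑ y, (dat (t + 1)).ρ y *
          (if lab ξ dat (t + 1) y = lab ξ dat (t + 1) (dat (t + 1)).x then 0 else 1) +
        ∑ y, (dat (t + 1)).μ y * Pi ξ dat (t + 1) y - ∑ y, (dat (t + 1)).μm y * Pi ξ dat t y) ≤
      C * ((dat (t + 1)).Γ r * (dat (t + 1)).e1 r + (dat (t + 1)).e2 r) + ε

end emb

end

end Crest.Agent.R314
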