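import Crest.Agent.R314.Defs

/-! Row 314: elementary facts on path costs and deterministic algorithms. -/

set_option autoImplicit false

open Finset Crest.LogicCS.KServer

namespace Crest.Agent.R314

noncomputable section
open Classical

variable {X : Type*} [MetricSpace X] {k : ℕ}

/-- configuration after serving a list -/
def endCfg : (Fin k → X) → List (X × Fin k) → Fin k → X
  | c, [] => c
  | c, (r, i) :: rest => endCfg (Function.update c i r) rest

theorem pathCost_nonneg (c : Fin k → X) (l : List (X × Fin k)) : 0 ≤ pathCost c l := by
  induction l generalizing c with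
  | nil => exact le_rfl
  | cons a l ih => exact add_nonneg dist_nonneg (ih _)

theorem pathCost_append (c : Fin k → X) (l l' : List (X × Fin k)) :
    pathCost c (l ++ l') = pathCost c l + pathCost (endCfg c l) l' := by
  induction l generalizing c with
  | nil => exact (zero_add _).symm
  | cons a l ih =>
    obtain ⟨r, i⟩ := a
    simp only [List.cons_append, pathCost, endCfg, ih, add_assoc]

omit [MetricSpace X] in
theorem det_sum_update (f : Fin k → X → ℝ) (c : Fin k → X) (i : Fin k) (r : X) :
    ∑ a, f a (Function.update c i r a) = ∑ a, f a (c a) - f i (c i) + f i r := by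
  rw [← Finset.add_sum_erase _ _ (mem_univ i), ← Finset.add_sum_erase _ _ (mem_univ i),
    Function.update_self,
    Finset.sum_congr rfl fun a ha => by rw [Function.update_of_ne (ne_of_mem_erase ha)]]
  ring

/-- changing the start costs at most the labelled distance -/
theorem pathCost_le_add (c c' : Fin k → X) (l : List (X × Fin k)) :
    pathCost c l ≤ pathCost c' l + ∑ i, dist (c i) (c' i) := by
  induction l generalizing c c' with
  | nil => simpa [pathCost] using sum_nonneg fun i _ => dist_nonneg
  | cons a l ih =>
    obtain ⟨r, i⟩ := a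
    have h1 := ih (Function.update c i r) (Function.update c' i r)
    have h2 : ∑ a, dist (Function.update c i r a) (Function.update c' i r a) =
        ∑ a, dist (c a) (c' a) - dist (c i) (c' i) := by
      rw [← Finset.add_sum_erase _ _ (mem_univ i), ← Finset.add_sum_erase _ _ (mem_univ i),
        Function.update_self, Function.update_self, dist_self,
        Finset.sum_congr rfl fun a ha => by
          rw [Function.update_of_ne (ne_of_mem_erase ha), Function.update_of_ne (ne_of_mem_erase ha)]]
      ring
    simp only [pathCost]
    linarith [dist_triangle (c i) (c' i) r]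

theorem sum_dist_endCfg_le (c : Fin k → X) (l : List (X × Fin k)) :
    ∑ i, dist (c i) (endCfg c l i) ≤ pathCost c l := by
  induction l generalizing c with
  | nil => simp [endCfg, pathCost]
  | cons a l ih =>
    obtain ⟨r, i⟩ := a
    have h1 := ih (Function.update c i r)
    rw [det_sum_update (fun a y => dist y (endCfg (Function.update c i r) l a))] at h1
    simp only [pathCost, endCfg]
    linarith [dist_triangle (c i) r (endCfg (Function.update c i r) l i)]

/-- relabelling the servers -/
theorem pathCost_perm (c : Fin k → X) (π : Equiv.Perm (Fin k)) (l : List (X × Fin k)) :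
    pathCost (c ∘ π) l = pathCost c (l.map fun a => (a.1, π a.2)) := by
  induction l generalizing c with
  | nil => rfl
  | cons a l ih =>
    obtain ⟨r, i⟩ := a
    simp only [List.map_cons, pathCost, ← ih, Function.comp_apply]
    rw [Function.update_comp_equiv, Equiv.symm_apply_apply]

omit [MetricSpace X] in
theorem dch_append (A : List X → Fin k) (pre σ σ' : List X) :
    dch A pre (σ ++ σ') = dch A pre σ ++ dch A (pre ++ σ) σ' := by
  induction σ generalizing pre with
  | nil => simp [dch_nil]
  | cons r σ ih => simp [dch_cons, ih]

omit [MetricSpace X] in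
theorem dch_shift (A : List X → Fin k) (pre pre' σ : List X) :
    dch A (pre ++ pre') σ = dch (fun l => A (pre ++ l)) pre' σ := by
  induction σ generalizing pre' with
  | nil => rfl
  | cons r σ ih => rw [dch_cons, dch_cons, List.append_assoc, ih]

omit [MetricSpace X] in
theorem map_fst_dch (A : List X → Fin k) (pre σ : List X) : (dch A pre σ).map Prod.fst = σ := by
  induction σ generalizing pre with
  | nil => rfl
  | cons r σ ih => rw [dch_cons, List.map_cons, ih]

omit [MetricSpace X] in
theorem det_endCfg_append (c : Fin k → X) (l l' : List (X × Fin k)) :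
    endCfg c (l ++ l') = endCfg (endCfg c l) l' := by
  induction l generalizing c with
  | nil => rfl
  | cons a l ih => exact ih _

omit [MetricSpace X] in
theorem det_path_succ (x : ℕ → X) (j : ℕ → Fin k) (T : ℕ) :
    path x j (T + 1) = path x j T ++ [(x (T + 1), j (T + 1))] := by
  simp [path, List.range_succ]

omit [MetricSpace X] in
theorem det_reqs_succ (x : ℕ → X) (T : ℕ) : reqs x (T + 1) = reqs x T ++ [x (T + 1)] := by
  simp [reqs, List.range_succ]

omit [MetricSpace X] in
theorem endCfg_path (s : Fin k → X) (x : ℕ → X) (j : ℕ → Fin k) (T : ℕ) :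
    endCfg s (path x j T) = cfg s x j T := by
  induction T with
  | zero => rfl
  | succ T ih => rw [det_path_succ, det_endCfg_append, ih]; rfl

theorem pathCost_path (s : Fin k → X) (x : ℕ → X) (j : ℕ → Fin k) (T : ℕ) :
    pathCost s (path x j T) = ∑ t ∈ range T, dist (cfg s x j t (j (t + 1))) (x (t + 1)) := by
  induction T with
  | zero => rfl
  | succ T ih =>
    rw [det_path_succ, pathCost_append, ih, endCfg_path, sum_range_succ]
    simp [pathCost]

omit [MetricSpace X] in
theorem dch_reqs (A : List X → Fin k) (x : ℕ → X) (T : ℕ) :
    dch A [] (reqs x T) = path x (fun t => A (reqs x t)) T := by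
  induction T with
  | zero => rfl
  | succ T ih =>
    rw [det_path_succ, ← ih, det_reqs_succ, dch_append, dch_cons, dch_nil, List.nil_append]

/-- lazy servers following shadow positions: potential `∑ i, dist (cfg t i) (z t i)` -/
theorem pathCost_le_shadow (s : Fin k → X) (x : ℕ → X) (j : ℕ → Fin k) (T : ℕ)
    (z : ℕ → Fin k → X) (hz : ∀ t < T, z (t + 1) (j (t + 1)) = x (t + 1)) :
    pathCost s (path x j T) ≤
      ∑ i, dist (s i) (z 0 i) + ∑ t ∈ range T, ∑ i, dist (z t i) (z (t + 1) i) := by
  have key : ∀ T' ≤ T, pathCost s (path x j T') + ∑ i, dist (cfg s x j T' i) (z T' i) ≤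
      ∑ i, dist (s i) (z 0 i) + ∑ t ∈ range T', ∑ i, dist (z t i) (z (t + 1) i) := by
    intro T' hT
    rw [pathCost_path]
    induction T' with
    | zero => simp [cfg_zero]
    | succ t ih =>
      have h1 := ih (by omega)
      rw [sum_range_succ, sum_range_succ, cfg_succ,
        det_sum_update (fun a y => dist y (z (t + 1) a)), hz t (by omega), dist_self]
      have h2 : ∑ a, dist (cfg s x j t a) (z (t + 1) a) ≤
          ∑ a, dist (cfg s x j t a) (z t a) + ∑ a, dist (z t a) (z (t + 1) a) := by
        rw [← sum_add_distrib]
        exact sum_le_sum fun a _ => dist_triangle _ _ _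
      linarith
  have h1 := key T le_rfl
  have h2 : 0 ≤ ∑ i, dist (cfg s x j T i) (z T i) := sum_nonneg fun i _ => dist_nonneg
  linarith

omit [MetricSpace X] in
/-- an adapted choice of servers comes from a deterministic online algorithm
(`Same x t ω ω' ↔ reqs (x · ω) t = reqs (x · ω') t`; choose an `ω` with the given prefix) -/
theorem exists_alg_of_adapted {Ω : Type*} (hk : 0 < k) (x : ℕ → Ω → X) (j : ℕ → Ω → Fin k)
    (hj : ∀ t, Adapted x t (j t)) :
    ∃ A : List X → Fin k, ∀ ω T, dch A [] (reqs (fun t => x t ω) T) =
      path (fun t => x t ω) (fun t => j t ω) T := by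
  refine ⟨fun l => if h : ∃ ω, reqs (fun t => x t ω) l.length = l then j l.length h.choose
    else ⟨0, hk⟩, fun ω T => ?_⟩
  rw [dch_reqs]
  congr 1
  funext t
  have hl : (reqs (fun t => x t ω) t).length = t := by simp [reqs]
  have h : ∃ ω', reqs (fun t => x t ω') (reqs (fun t => x t ω) t).length =
      reqs (fun t => x t ω) t := ⟨ω, by rw [hl]⟩
  rw [dif_pos h]
  have h2 := h.choose_spec
  generalize h.choose = ω' at h2
  rw [hl] at h2 ⊢
  refine hj t ω' ω fun u h1 hu => ?_
  obtain ⟨u, rfl⟩ : ∃ v, u = v + 1 := ⟨u - 1, by omega⟩
  exact List.map_inj_left.1 h2 u (List.mem_range.2 (by omega))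

end

end Crest.Agent.R314
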