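import Crest.Agent.R314.EmbInv

/-! Row 314: the one-scale embedding, cost of a step with small growth. -/

set_option autoImplicit false

open Finset Crest.LogicCS.KServer

namespace Crest.Agent.R314

noncomputable section
open Classical

variable {X : Type} [Fintype X] [MetricSpace X] {S : ES X} {r k : ℕ} {η η₀ ε : ℝ} {D : Dat X}

theorem embN_fold_congr {A A' : Finset ℕ} {f g : ℕ → ℝ}
    (h1 : ∀ l ∈ A, 1 ≤ f l ∨ (l ∈ A' ∧ g l = f l))
    (h2 : ∀ l ∈ A', 1 ≤ g l ∨ (l ∈ A ∧ g l = f l)) : A'.fold min 1 g = A.fold min 1 f := by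
  apply le_antisymm
  · rw [Finset.le_fold_min]
    refine ⟨Finset.fold_min_le _ |>.2 (Or.inl le_rfl), fun l hl => ?_⟩
    rcases h1 l hl with h | ⟨h, e⟩
    · exact Finset.fold_min_le _ |>.2 (Or.inl h)
    · exact Finset.fold_min_le _ |>.2 (Or.inr ⟨l, h, e.le⟩)
  · rw [Finset.le_fold_min]
    refine ⟨Finset.fold_min_le _ |>.2 (Or.inl le_rfl), fun l hl => ?_⟩
    rcases h2 l hl with h | ⟨h, e⟩
    · exact Finset.fold_min_le _ |>.2 (Or.inl h)
    · exact Finset.fold_min_le _ |>.2 (Or.inr ⟨l, h, e.ge⟩)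

theorem embN_clamp_one {t : ℝ} (h : 1 ≤ t) : clamp t = 1 := by
  unfold clamp
  rw [min_eq_left h, max_eq_right zero_le_one]

theorem embN_clamp_zero {t : ℝ} (h : t ≤ 0) : clamp t = 0 := by
  unfold clamp
  exact max_eq_left ((min_le_right _ _).trans h)

omit [Fintype X] in
theorem embN_chi_one (hr : 0 < r) {p y : X} (h : dist y p ≤ r) : chi r p y = 1 := by
  have hr' : (0 : ℝ) < r := by exact_mod_cast hr
  have : dist y p / r ≤ 1 := (div_le_one hr').2 h
  exact embN_clamp_one (by linarith)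

omit [Fintype X] in
theorem embN_chi_zero (hr : 0 < r) {p y : X} (h : 2 * (r : ℝ) ≤ dist y p) : chi r p y = 0 := by
  have hr' : (0 : ℝ) < r := by exact_mod_cast hr
  have : 2 ≤ dist y p / r := (le_div_iff₀ hr').2 h
  exact embN_clamp_zero (by linarith)

omit [Fintype X] in
theorem embN_θterm_one (hr : 0 < r) {p y : X} (h : 2 * (r : ℝ) ≤ dist y p) :
    clamp (4 * (dist y p / r) - 2) = 1 := by
  have hr' : (0 : ℝ) < r := by exact_mod_cast hr
  have : 2 ≤ dist y p / r := (le_div_iff₀ hr').2 h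
  exact embN_clamp_one (by linarith)

omit [Fintype X] in
theorem embN_ψ_le (S : ES X) (r : ℕ) (y : X) {l : ℕ} (hl : l ∈ S.A) :
    S.ψ r y ≤ chi r (S.pos l) y * (hfun r (S.pos l) y - S.b l) ^ 2 + 1 - chi r (S.pos l) y :=
  Finset.fold_min_le _ |>.2 (Or.inr ⟨l, hl, le_rfl⟩)

omit [Fintype X] in
theorem embN_hfun_nonneg (r : ℕ) (p y : X) : 0 ≤ hfun r p y :=
  le_min (by norm_num) (by positivity)

omit [Fintype X] in
theorem embN_hfun_le (r : ℕ) (p y : X) : hfun r p y ≤ 1 / 2 := min_le_left _ _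

omit [Fintype X] in
theorem embN_abs_hfun_sub (r : ℕ) (p x y : X) :
    |hfun r p x - hfun r p y| ≤ min 1 (dist y x / r) := by
  refine le_min ?_ ?_
  · have := embN_hfun_nonneg r p x
    have := embN_hfun_nonneg r p y
    have := embN_hfun_le r p x
    have := embN_hfun_le r p y
    rw [abs_le]; constructor <;> linarith
  · unfold hfun
    refine (abs_min_sub_min_le_max _ _ _ _).trans ?_
    rw [sub_self, abs_zero, max_le_iff]
    refine ⟨by positivity, ?_⟩
    rw [← sub_div, abs_div, Nat.abs_cast, dist_comm y x]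
    exact div_le_div_of_nonneg_right (abs_dist_sub_le _ _ _) r.cast_nonneg

omit [Fintype X] in
theorem embN_one_le_sq (hr : 0 < r) {x y : X} (h : 3 * (r : ℝ) / 4 ≤ dist y x) :
    1 ≤ 2 * min 1 ((dist y x / r) ^ 2) := by
  have hr' : (0 : ℝ) < r := by exact_mod_cast hr
  have h1 : 3 / 4 ≤ dist y x / r := by rw [le_div_iff₀ hr']; linarith
  have : 1 / 2 ≤ min 1 ((dist y x / r) ^ 2) := le_min (by norm_num) (by nlinarith)
  linarith

omit [Fintype X] in
theorem embN_le_min (hr : 0 < r) {x y : X} {c : ℝ} (hc : c ≤ 1) (h : c * r ≤ dist y x) :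
    c ≤ min 1 (dist y x / r) := by
  have hr' : (0 : ℝ) < r := by exact_mod_cast hr
  exact le_min hc ((le_div_iff₀ hr').2 h)

omit [Fintype X] in
theorem embN_rec_mem {x : X} {l₀ t l : ℕ} :
    l ∈ (S.rec' r x l₀ t).A ↔ l = l₀ ∨ (l ∈ S.A ∧ 8 * (r : ℝ) < dist x (S.pos l)) := by
  simp [ES.rec']

omit [Fintype X] in
theorem embN_rec_pos_self (x : X) (l₀ t : ℕ) : (S.rec' r x l₀ t).pos l₀ = x := by
  simp [ES.rec']

omit [Fintype X] in
theorem embN_rec_b_self (x : X) (l₀ t : ℕ) : (S.rec' r x l₀ t).b l₀ = 0 := by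
  simp [ES.rec']

omit [Fintype X] in
theorem embN_rec_pos {x : X} {l₀ t l : ℕ} (h : l ≠ l₀) : (S.rec' r x l₀ t).pos l = S.pos l := by
  simp [ES.rec', h]

omit [Fintype X] in
theorem embN_rec_b {x : X} {l₀ t l : ℕ} (h : l ≠ l₀) : (S.rec' r x l₀ t).b l = S.b l := by
  simp [ES.rec', h]

omit [Fintype X] in
theorem embN_rec_u (x : X) (l₀ t : ℕ) : (S.rec' r x l₀ t).u = ustep S.u r x (1 / 2) := rfl

omit [Fintype X] in
theorem embN_rec_near (x : X) (l₀ t : ℕ) : (S.rec' r x l₀ t).Near r x l₀ := by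
  refine ⟨embN_rec_mem.2 (Or.inl rfl), ?_⟩
  rw [embN_rec_pos_self, dist_self]; positivity

omit [Fintype X] in
/-- the centres within `2 r` of a point beyond `10 r` are the same -/
theorem embN_rec_old {x y : X} {l₀ : ℕ} (t : ℕ) (hl : l₀ ∈ S.A → dist x (S.pos l₀) ≤ 8 * r)
    (hy : 10 * (r : ℝ) < dist y x) {l : ℕ} (hA : l ∈ S.A) :
    2 * (r : ℝ) ≤ dist y (S.pos l) ∨ (l ∈ (S.rec' r x l₀ t).A ∧ l ≠ l₀) := by
  by_cases h8 : 8 * (r : ℝ) < dist x (S.pos l)
  · refine Or.inr ⟨embN_rec_mem.2 (Or.inr ⟨hA, h8⟩), ?_⟩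
    rintro rfl
    exact absurd (hl hA) (not_le.2 h8)
  · left
    have := dist_triangle_right y x (S.pos l)
    linarith [not_lt.1 h8]

omit [Fintype X] in
theorem embN_rec_new {x y : X} {l₀ : ℕ} (t : ℕ) (hy : 10 * (r : ℝ) < dist y x) {l : ℕ}
    (hA : l ∈ (S.rec' r x l₀ t).A) :
    2 * (r : ℝ) ≤ dist y ((S.rec' r x l₀ t).pos l) ∨ (l ∈ S.A ∧ l ≠ l₀) := by
  by_cases h : l = l₀
  · subst h
    left
    rw [embN_rec_pos_self]
    linarith [r.cast_nonneg (α := ℝ)]
  · exact Or.inr ⟨((embN_rec_mem.1 hA).resolve_left h).1, h⟩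

omit [Fintype X] in
theorem embN_rec_θ (hr : 0 < r) {x y : X} {l₀ : ℕ} (t : ℕ)
    (hl : l₀ ∈ S.A → dist x (S.pos l₀) ≤ 8 * r) (hy : 10 * (r : ℝ) < dist y x) :
    (S.rec' r x l₀ t).θ r y = S.θ r y := by
  refine embN_fold_congr (fun l hA => ?_) (fun l hA => ?_)
  · rcases embN_rec_old t hl hy hA with h | ⟨h, hne⟩
    · exact Or.inl (embN_θterm_one hr h).ge
    · exact Or.inr ⟨h, by rw [embN_rec_pos hne]⟩
  · rcases embN_rec_new t hy hA with h | ⟨h, hne⟩
    · exact Or.inl (embN_θterm_one hr h).ge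
    · exact Or.inr ⟨h, by rw [embN_rec_pos hne]⟩

omit [Fintype X] in
theorem embN_rec_ψ (hr : 0 < r) {x y : X} {l₀ : ℕ} (t : ℕ)
    (hl : l₀ ∈ S.A → dist x (S.pos l₀) ≤ 8 * r) (hy : 10 * (r : ℝ) < dist y x) :
    (S.rec' r x l₀ t).ψ r y = S.ψ r y := by
  refine embN_fold_congr (fun l hA => ?_) (fun l hA => ?_)
  · rcases embN_rec_old t hl hy hA with h | ⟨h, hne⟩
    · left; rw [embN_chi_zero hr h]; norm_num
    · exact Or.inr ⟨h, by rw [embN_rec_pos hne, embN_rec_b hne]⟩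
  · rcases embN_rec_new t hy hA with h | ⟨h, hne⟩
    · left; rw [embN_chi_zero hr h]; norm_num
    · exact Or.inr ⟨h, by rw [embN_rec_pos hne, embN_rec_b hne]⟩

theorem embN_pr_eq_zero {S' : ES X} (M : MH X η₀ ε) {y y' : X}
    (h : ∀ i < r, ∀ j < r, ∀ sel, S'.lab r i j sel y' = S.lab r i j sel y) :
    M.pr r S S' y y' = 0 := by
  refine sum_eq_zero fun i hi => sum_eq_zero fun j hj => sum_eq_zero fun ξ _ => ?_
  rw [if_pos (h i (mem_range.1 hi) j (mem_range.1 hj) _), mul_zero]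

/-- the amortised cost, when the new state has a centre at the request -/
theorem embN_cost_rec (h : S.Inv r η) (hη : 0 < η) (M : MH X η₀ ε) (hr : 0 < r) (hD : D.OK k)
    (l t : ℕ) (hsep : ∑ y, D.ρ y * M.pr r (S.rec' r D.x l t) (S.rec' r D.x l t) D.x y ≤ 2 * D.e2 r)
    (hself : (S.rec' r D.x l t).Pi r D.x = 0) :
    M.cost r S (S.rec' r D.x l t) D ≤ ∑ y, D.μm y * (M.pr r S (S.rec' r D.x l t) y y +
      ((S.rec' r D.x l t).Pi r y - S.Pi r y)) + 2 * D.e2 r := by
  have h' := h.rec' hη D.x l t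
  have h1 : ∑ y, D.ρ y * ((S.rec' r D.x l t).Pi r D.x - (S.rec' r D.x l t).Pi r y) ≤ 0 := by
    refine sum_nonpos fun y _ => mul_nonpos_of_nonneg_of_nonpos (hD.ρ_nonneg y) ?_
    rw [hself]
    linarith [h'.pi_nonneg (half_pos hη) y]
  unfold MH.cost
  rw [hD.sum_μ_mul]
  simp only [mul_add, mul_sub, sum_add_distrib, sum_sub_distrib] at h1 ⊢
  linarith

/-- a point within `r` of a centre always carries its label -/
theorem pr_eq_zero_of_near {S' : ES X} {η' : ℝ} (h : S.Inv r η) (h' : S'.Inv r η')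
    (M : MH X η₀ ε) {y y' : X} {l : ℕ} (hl : l ∈ S.A) (hl' : l ∈ S'.A)
    (hy : dist y (S.pos l) ≤ r) (hy' : dist y' (S'.pos l) ≤ r) : M.pr r S S' y y' = 0 := by
  refine embN_pr_eq_zero M fun i hi j _ sel => ?_
  have hi0 : (0 : ℝ) ≤ i := i.cast_nonneg
  rw [(h.lab_eq_inr hi j sel).2 ⟨hl, by linarith⟩, (h'.lab_eq_inr hi j sel).2 ⟨hl', by linarith⟩]

/-- separation when the request is within `r / 4` of a centre -/
theorem sum_pr_sep_near (h : S.Inv r η) (M : MH X η₀ ε) (hr : 0 < r) (hD : D.OK k) {l : ℕ}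
    (hl : S.Near r D.x l) : ∑ y, D.ρ y * M.pr r S S D.x y ≤ 2 * D.e2 r := by
  have hr' : (0 : ℝ) < r := by exact_mod_cast hr
  rw [Dat.e2, mul_sum]
  refine sum_le_sum fun y _ => ?_
  rw [mul_left_comm]
  refine mul_le_mul_of_nonneg_left ?_ (hD.ρ_nonneg y)
  rcases le_total (dist y D.x) (3 * (r : ℝ) / 4) with hy | hy
  · rw [pr_eq_zero_of_near h h M hl.1 hl.1 (by linarith [hl.2])
      (by linarith [hl.2, dist_triangle y D.x (S.pos l)])]
    positivity
  · exact (M.pr_le_one _ _ _ _ _).trans (embN_one_le_sq hr hy)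

/-- Labels, `θ`, `φ` do not change and `θ x = 0`. Use
`∑ μ Pi' - ∑ μm Pi = ∑ μ (Pi' - Pi) + ∑ ρ (Pi x - Pi y)`. With `p = pos l`, `h = hfun r p`,
`Δ = ∑ ρ (h x - h y)`, `T = ∑ μ χ ≥ V / 2`, `b' = b + Δ / T`:
`ψ x - ψ y ≤ (h x - b)² - (h y - b)² + [dist y p > r] ≤ 2 (h x - h y) (h x - b) + [dist y x > 3r/4]`,
`ψ' y - ψ y ≤ χ y ((h y - b')² - (h y - b)²)` (`ψ_eq`; outside `B(p, 2r)` the term of `l` is `1`),
and the sum is `(2 Δ / T) ∑ μ χ (h x - h y) + Δ² / T ≤ 2 e1 W / T + e1² / T ≤ 4 Γ e1 + 2 e2`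
(`W_le`, `e1_sq_le`, `1 ≤ V`). -/
theorem cost_tick (h : S.Inv r η) (hη : 0 < η) (M : MH X η₀ ε) (hr : 0 < r) (hD : D.OK k)
    (hΓ : D.Γ r ≤ 1 / 640) {l : ℕ} (hl : S.Near r D.x l) (lam : ℝ) :
    M.cost r S (S.tick r D l lam) D ≤ 1024 * (D.Γ r * D.e1 r) + 1100 * D.e2 r := by
  have hr' : (0 : ℝ) < r := by exact_mod_cast hr
  set p := S.pos l with hp
  set b := S.b l with hb
  set Δ := ∑ y, D.ρ y * (hfun r p D.x - hfun r p y) with hΔ
  set T := ∑ y, D.μ y * chi r p y with hT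
  have hV := hD.one_le_V r
  have hTV : D.V r / 2 ≤ T := V_le_chi hr hD hΓ hl.2
  have hT0 : 0 < T := by linarith
  have hΔe : |Δ| ≤ D.e1 r := abs_sum_hfun_le hD r p
  have hbl : |b| ≤ 1 / 16 := h.abs_b_le l
  have e0 : ∑ y, D.μm y * M.pr r S (S.tick r D l lam) y y = 0 :=
    sum_eq_zero fun y _ => by
      rw [embN_pr_eq_zero (S := S) (S' := S.tick r D l lam) M fun i _ j _ sel => rfl, mul_zero]
  have e1 : ∑ y, D.ρ y * M.pr r (S.tick r D l lam) (S.tick r D l lam) D.x y ≤ 2 * D.e2 r :=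
    sum_pr_sep_near h M hr hD hl
  -- change of the potential at a fixed point
  have hb' : (S.tick r D l lam).b l = b + Δ / T := by simp [ES.tick, hb, hΔ, hT, hp]
  have e2 : ∀ y, (S.tick r D l lam).Pi r y - S.Pi r y ≤
      256 * (chi r p y * ((hfun r p y - (b + Δ / T)) ^ 2 - (hfun r p y - b) ^ 2)) := by
    intro y
    have hθ : (S.tick r D l lam).θ r y = S.θ r y := rfl
    have hu : (S.tick r D l lam).u = S.u := rfl
    have hψ : (S.tick r D l lam).ψ r y - S.ψ r y ≤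
        chi r p y * ((hfun r p y - (b + Δ / T)) ^ 2 - (hfun r p y - b) ^ 2) := by
      rcases le_total (dist y p) (2 * r) with hy | hy
      · have h1 := embN_ψ_le (S.tick r D l lam) r y (l := l) hl.1
        rw [hb'] at h1
        have h2 := h.ψ_eq hr hl.1 hy
        change _ ≤ chi r p y * (hfun r p y - _) ^ 2 + 1 - chi r p y at h1
        rw [← hp, ← hb] at h2
        rw [h2]; linarith
      · have h1 : (S.tick r D l lam).ψ r y = S.ψ r y := by
          refine Finset.fold_congr fun l' _ => ?_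
          by_cases hll : l' = l
          · subst hll
            change chi r p y * _ + 1 - chi r p y = chi r p y * _ + 1 - chi r p y
            rw [embN_chi_zero hr hy, zero_mul, zero_mul]
          · simp [ES.tick, hll]
        rw [h1, embN_chi_zero hr hy]; simp
    unfold ES.Pi
    rw [hθ, hu]; linarith
  have hx1 : chi r p D.x = 1 := embN_chi_one hr (by linarith [hl.2])
  have e3 : ∀ y, S.Pi r D.x - S.Pi r y ≤ 256 * (2 * (hfun r p D.x - b) *
      (hfun r p D.x - hfun r p y) + 2 * min 1 ((dist y D.x / r) ^ 2)) := by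
    intro y
    have hθ : S.θ r D.x = 0 := ES.θ_eq_zero hr hl.1 (by linarith [hl.2])
    have hφ : 0 ≤ S.θ r y ^ 2 * φ S.u r y := mul_nonneg (sq_nonneg _) (h.φ_nonneg hη y)
    have h1 := embN_ψ_le S r D.x hl.1
    rw [← hp, ← hb, hx1] at h1
    have h2 : (hfun r p y - b) ^ 2 - 2 * min 1 ((dist y D.x / r) ^ 2) ≤ S.ψ r y := by
      rcases le_total (dist y D.x) (3 * (r : ℝ) / 4) with hy | hy
      · have hy' : dist y p ≤ r := by linarith [hl.2, dist_triangle y D.x p]
        have h3 := h.ψ_eq hr hl.1 (y := y) (by rw [← hp]; linarith)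
        rw [← hp, ← hb, embN_chi_one hr hy'] at h3
        have : 0 ≤ min 1 ((dist y D.x / r) ^ 2) := by positivity
        linarith
      · have h3 := embN_one_le_sq hr hy
        have h4 := S.ψ_nonneg r y
        have h5 := embN_hfun_nonneg r p y
        have h6 := embN_hfun_le r p y
        rw [abs_le] at hbl
        nlinarith [hbl.1, hbl.2]
    unfold ES.Pi
    rw [hθ]
    nlinarith [sq_nonneg (hfun r p D.x - hfun r p y)]
  have e4 : ∑ y, D.μ y * ((S.tick r D l lam).Pi r y - S.Pi r y) ≤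
      256 * (-2 * (Δ / T) * ∑ y, D.μ y * chi r p y * (hfun r p y - b) + Δ ^ 2 / T) := by
    refine (sum_le_sum fun y _ => mul_le_mul_of_nonneg_left (e2 y) (hD.μ_nonneg y)).trans_eq ?_
    have : Δ ^ 2 / T = (Δ / T) ^ 2 * T := by field_simp
    rw [this]
    generalize Δ / T = c
    rw [hT, mul_sum, mul_sum, ← sum_add_distrib, mul_sum]
    exact sum_congr rfl fun y _ => by ring
  have e5 : ∑ y, D.ρ y * (S.Pi r D.x - S.Pi r y) ≤
      256 * (2 * (hfun r p D.x - b) * Δ + 2 * D.e2 r) := by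
    refine (sum_le_sum fun y _ => mul_le_mul_of_nonneg_left (e3 y) (hD.ρ_nonneg y)).trans_eq ?_
    rw [hΔ, Dat.e2, mul_sum, mul_sum, ← sum_add_distrib, mul_sum]
    exact sum_congr rfl fun y _ => by ring
  set U := ∑ y, D.μ y * chi r p y * (hfun r p D.x - hfun r p y) with hU
  have e6 : ∑ y, D.μ y * chi r p y * (hfun r p y - b) = (hfun r p D.x - b) * T - U := by
    rw [hT, hU, mul_sum, ← sum_sub_distrib]
    exact sum_congr rfl fun y _ => by ring
  have e7 : |U| ≤ D.V r * D.Γ r := by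
    refine (abs_sum_le_sum_abs _ _).trans (le_trans ?_ (hD.W_le hr))
    rw [sum_filter]
    refine sum_le_sum fun y _ => ?_
    have hμ := hD.μ_nonneg y
    have hc0 : 0 ≤ chi r p y := clamp_nonneg _
    have hc1 : chi r p y ≤ 1 := clamp_le_one _
    split_ifs with hy
    · rw [abs_mul, abs_of_nonneg (mul_nonneg hμ hc0), mul_assoc]
      refine mul_le_mul_of_nonneg_left ?_ hμ
      exact (mul_le_of_le_one_left (abs_nonneg _) hc1).trans (embN_abs_hfun_sub r p D.x y)
    · rw [embN_chi_zero hr (by linarith [hl.2, dist_triangle_right y D.x p, not_le.1 hy])]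
      simp
  have hΓ0 := hD.Γ_nonneg r
  have he1 := hD.e1_nonneg r
  have he2 := hD.e2_nonneg r
  have e8 : 2 * (Δ / T) * U ≤ 4 * (D.Γ r * D.e1 r) := by
    have h1 : Δ * U ≤ D.e1 r * (D.V r * D.Γ r) := by
      refine (le_abs_self _).trans ?_
      rw [abs_mul]
      exact mul_le_mul hΔe e7 (abs_nonneg _) he1
    rw [show 2 * (Δ / T) * U = 2 * (Δ * U) / T by ring, div_le_iff₀ hT0]
    nlinarith [mul_nonneg hΓ0 he1]
  have e9 : Δ ^ 2 / T ≤ 2 * D.e2 r := by
    have h1 : Δ ^ 2 ≤ D.e2 r := (sq_le_sq' (abs_le.1 hΔe).1 (abs_le.1 hΔe).2).trans (hD.e1_sq_le r)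
    rw [div_le_iff₀ hT0]
    nlinarith
  have e10 : -2 * (Δ / T) * ((hfun r p D.x - b) * T - U) =
      -(2 * (hfun r p D.x - b) * Δ) + 2 * (Δ / T) * U := by
    field_simp; ring
  rw [e6, e10] at e4
  have e11 := hD.sum_μ_mul (S.Pi r)
  unfold MH.cost
  simp only [mul_sub, sum_sub_distrib] at e4 e5 e11
  linarith

theorem pi_rec_self (S : ES X) (hr : 0 < r) (x : X) (l₀ t : ℕ) :
    (S.rec' r x l₀ t).Pi r x = 0 := by
  have hr' : (0 : ℝ) < r := by exact_mod_cast hr
  have hm : l₀ ∈ (S.rec' r x l₀ t).A := embN_rec_mem.2 (Or.inl rfl)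
  have hθ : (S.rec' r x l₀ t).θ r x = 0 :=
    ES.θ_eq_zero hr hm (by rw [embN_rec_pos_self, dist_self]; positivity)
  have h1 := embN_ψ_le (S.rec' r x l₀ t) r x hm
  rw [embN_rec_pos_self, embN_rec_b_self, embN_chi_one hr (by rw [dist_self]; positivity)] at h1
  have h2 : hfun r x x = 0 := by simp [hfun]
  rw [h2] at h1
  have h3 := (S.rec' r x l₀ t).ψ_nonneg r x
  unfold ES.Pi
  rw [hθ]; linarith

/-- beyond `35 r` nothing changes -/
theorem rec_far (h : S.Inv r η) (M : MH X η₀ ε) (hη : 0 < η) (hr : 0 < r) {x y : X} {l₀ : ℕ}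
    (t : ℕ) (hl : l₀ ∈ S.A → dist x (S.pos l₀) ≤ 8 * r) (hy : 35 * (r : ℝ) < dist y x) :
    M.pr r S (S.rec' r x l₀ t) y y = 0 ∧ (S.rec' r x l₀ t).Pi r y = S.Pi r y := by
  have hr' : (0 : ℝ) < r := by exact_mod_cast hr
  have h' := h.rec' hη x l₀ t
  have hy10 : 10 * (r : ℝ) < dist y x := by linarith
  have hres : ∀ j < r, restr (S.rec' r x l₀ t).u y (10 * r + j) = restr S.u y (10 * r + j) := by
    intro j hj
    have : (j : ℝ) < r := by exact_mod_cast hj
    exact restr_ustep_far _ _ (by linarith)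
  constructor
  · refine embN_pr_eq_zero M fun i hi j hj sel => ?_
    have hi' : (i : ℝ) < r := by exact_mod_cast hi
    by_cases hex : ∃ l ∈ S.A, dist y (S.pos l) ≤ r + i
    · obtain ⟨l, hA, hd⟩ := hex
      obtain ⟨h1, h2⟩ := (embN_rec_old t hl hy10 hA).resolve_left (by linarith)
      rw [(h.lab_eq_inr hi j sel).2 ⟨hA, hd⟩,
        (h'.lab_eq_inr hi j sel).2 ⟨h1, by rwa [embN_rec_pos h2]⟩]
    · have hex' : ¬∃ l ∈ (S.rec' r x l₀ t).A, dist y ((S.rec' r x l₀ t).pos l) ≤ r + i := by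
        rintro ⟨l, hA, hd⟩
        obtain ⟨h1, h2⟩ := (embN_rec_new t hy10 hA).resolve_left (by linarith)
        exact hex ⟨l, h1, by rwa [embN_rec_pos h2] at hd⟩
      unfold ES.lab
      rw [dif_neg hex, dif_neg hex', hres j hj]
  · have hφ : φ (S.rec' r x l₀ t).u r y = φ S.u r y := by
      refine sum_congr rfl fun j hj => ?_
      unfold flog
      rw [← sum_restr, ← sum_restr, hres j (mem_range.1 hj)]
    unfold ES.Pi
    rw [embN_rec_θ hr t hl hy10, embN_rec_ψ hr t hl hy10, hφ]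

/-- For `dist y x ≤ 10 r`: every ball `B(y, 10 r + j)` contains `x`, so `φ' y ≤ log 2`; `θ' y = 0`
within `r / 2`; `ψ' y ≤ min 1 (dist y x / r)`. Beyond `10 r`: `θ' = θ`, `ψ' = ψ`,
`φ' ≤ φ + log 2` (`bm_ustep_ge`). -/
theorem pi_rec_sub_le (h : S.Inv r η) (hη : 0 < η) (hr : 0 < r) {x : X} (y : X) {l₀ : ℕ} (t : ℕ)
    (hl : l₀ ∈ S.A → dist x (S.pos l₀) ≤ 8 * r) :
    (S.rec' r x l₀ t).Pi r y - S.Pi r y ≤
      (if dist y x ≤ r / 2 then 0 else 1.4) +
        if dist y x ≤ 10 * r then 256 * (min 1 (dist y x / r) - S.ψ r y) else 0 := by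
  have hr' : (0 : ℝ) < r := by exact_mod_cast hr
  have hu : ∀ z, 0 ≤ S.u z := fun z => hη.le.trans (h.low z)
  have hlog : Real.log 2 ≤ 0.7 := by linarith [Real.log_two_lt_d9]
  have hθ : ∀ S' : ES X, S'.θ r y ^ 2 ≤ 1 := fun S' =>
    pow_le_one₀ (S'.θ_nonneg r y) (S'.θ_le_one r y)
  by_cases hy : dist y x ≤ 10 * r
  · rw [if_pos hy]
    have hm : l₀ ∈ (S.rec' r x l₀ t).A := embN_rec_mem.2 (Or.inl rfl)
    have hφ : φ (S.rec' r x l₀ t).u r y ≤ 0.7 := by
      calc φ (S.rec' r x l₀ t).u r y ≤ ∑ j ∈ range r, pj r j * 0.7 := by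
            refine sum_le_sum fun j hj => mul_le_mul_of_nonneg_left ?_ (pj_nonneg r j)
            have hj' : (j : ℝ) < r := by exact_mod_cast mem_range.1 hj
            have hj0 : (0 : ℝ) ≤ j := j.cast_nonneg
            unfold flog
            rw [embN_rec_u, bm_ustep_of_mem _ _ (by rw [dist_comm]; linarith) (by linarith)]
            have h1 := bm_nonneg hu y (10 * r + j)
            have h2 := Real.log_le_log (x := 2⁻¹)
              (y := (1 - 1 / 2) * bm S.u y (10 * r + j) + 1 / 2) (by norm_num) (by linarith)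
            rw [Real.log_inv] at h2
            linarith
        _ = 0.7 := by rw [← sum_mul, sum_pj_self hr, one_mul]
    have h1 : 2 * ((S.rec' r x l₀ t).θ r y ^ 2 * φ (S.rec' r x l₀ t).u r y) ≤
        if dist y x ≤ r / 2 then 0 else 1.4 := by
      split_ifs with h2
      · rw [ES.θ_eq_zero hr hm (by rwa [embN_rec_pos_self])]; simp
      · have := mul_le_mul_of_nonneg_left hφ (sq_nonneg ((S.rec' r x l₀ t).θ r y))
        linarith [hθ (S.rec' r x l₀ t)]
    have h2 : (S.rec' r x l₀ t).ψ r y ≤ min 1 (dist y x / r) := by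
      refine le_min (ES.ψ_le_one _ _ _) ?_
      rcases le_total (dist y x) r with h3 | h3
      · have h4 := embN_ψ_le (S.rec' r x l₀ t) r y hm
        rw [embN_rec_pos_self, embN_rec_b_self, embN_chi_one hr h3] at h4
        have h5 := embN_hfun_nonneg r x y
        have h6 := embN_hfun_le r x y
        have h7 : hfun r x y ≤ dist y x / r := min_le_right _ _
        nlinarith
      · exact (ES.ψ_le_one _ _ _).trans ((one_le_div hr').2 h3)
    have h3 : 0 ≤ S.θ r y ^ 2 * φ S.u r y := mul_nonneg (sq_nonneg _) (h.φ_nonneg hη y)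
    unfold ES.Pi
    linarith
  · have hy' := not_le.1 hy
    rw [if_neg hy, if_neg (by linarith)]
    have hφ : φ (S.rec' r x l₀ t).u r y ≤ φ S.u r y + 0.7 := by
      calc φ (S.rec' r x l₀ t).u r y ≤ ∑ j ∈ range r, pj r j * (flog S.u r y j + 0.7) := by
            refine sum_le_sum fun j _ => mul_le_mul_of_nonneg_left ?_ (pj_nonneg r j)
            unfold flog
            have h1 := h.bm_pos hη y (s := 10 * r + j) (by positivity)
            have h2 := bm_ustep_ge (r := r) hu x y (δ := 1 / 2) (by norm_num) (10 * r + j)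
            have h3 := Real.log_le_log (x := bm S.u y (10 * r + j) / 2)
              (y := bm (ustep S.u r x (1 / 2)) y (10 * r + j)) (by linarith) (by linarith)
            rw [Real.log_div (by linarith) (by norm_num)] at h3
            rw [embN_rec_u]
            linarith
        _ = φ S.u r y + 0.7 := by
            simp only [mul_add, sum_add_distrib]
            rw [← sum_mul, sum_pj_self hr, one_mul]; rfl
    have h1 := mul_le_mul_of_nonneg_left hφ (sq_nonneg (S.θ r y))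
    unfold ES.Pi
    rw [embN_rec_θ hr t hl hy', embN_rec_ψ hr t hl hy']
    linarith [hθ S]

/-- `μm ≤ μ + ρ` away from `x` and `W_le` -/
theorem sum_μm_min_le (hr : 0 < r) (hD : D.OK k) :
    ∑ y with dist y D.x ≤ 40 * r, D.μm y * min 1 (dist y D.x / r) ≤ D.V r * D.Γ r + D.e1 r := by
  have h1 : ∑ y with dist y D.x ≤ 40 * r, D.ρ y * min 1 (dist y D.x / r) ≤ D.e1 r :=
    sum_le_sum_of_subset_of_nonneg (filter_subset _ _) fun y _ _ =>
      mul_nonneg (hD.ρ_nonneg y) (by positivity)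
  refine le_trans (le_of_eq ?_) (add_le_add (hD.W_le hr) h1)
  rw [← sum_add_distrib]
  refine sum_congr rfl fun y _ => ?_
  unfold Dat.μ
  split_ifs with hy
  · subst hy; simp
  · ring

/-- Use `∑ μ Pi' - ∑ μm Pi = ∑ μm (Pi' - Pi) + ∑ ρ (Pi' x - Pi' y)`, `Pi' x = 0 ≤ Pi' y`. Points
within `3 r / 4` of `x` keep the label `l`. -/
theorem cost_fire (h : S.Inv r η) (hη : 0 < η) (M : MH X η₀ ε) (hr : 0 < r) (hD : D.OK k)
    {l : ℕ} (hl : S.Near r D.x l) (t : ℕ) :
    M.cost r S (S.rec' r D.x l t) D ≤ 300 * (D.V r * D.Γ r + D.e1 r) := by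
  have hr' : (0 : ℝ) < r := by exact_mod_cast hr
  have h' := h.rec' hη D.x l t
  have hl8 : l ∈ S.A → dist D.x (S.pos l) ≤ 8 * r := fun _ => by linarith [hl.2]
  have h1 := embN_cost_rec h hη M hr hD l t
    (sum_pr_sep_near h' M hr hD (embN_rec_near D.x l t)) (pi_rec_self S hr D.x l t)
  have h2 : ∑ y, D.μm y * (M.pr r S (S.rec' r D.x l t) y y +
      ((S.rec' r D.x l t).Pi r y - S.Pi r y)) ≤
      261 * ∑ y with dist y D.x ≤ 40 * r, D.μm y * min 1 (dist y D.x / r) := by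
    rw [sum_filter, mul_sum]
    refine sum_le_sum fun y _ => ?_
    have hμ := hD.μm_nonneg y
    have hm0 : 0 ≤ min 1 (dist y D.x / r) := by positivity
    by_cases hy : 35 * (r : ℝ) < dist y D.x
    · obtain ⟨h3, h4⟩ := rec_far h M hη hr t hl8 hy
      rw [h3, h4, sub_self, add_zero, mul_zero]
      positivity
    · rw [if_pos (by linarith [not_lt.1 hy]), mul_left_comm]
      refine mul_le_mul_of_nonneg_left ?_ hμ
      have h3 := pi_rec_sub_le h hη hr y t hl8
      have h4 := S.ψ_nonneg r y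
      have h5 : (if dist y D.x ≤ 10 * r then 256 * (min 1 (dist y D.x / r) - S.ψ r y) else 0) ≤
          256 * min 1 (dist y D.x / r) := by split_ifs <;> linarith
      by_cases h6 : dist y D.x ≤ r / 2
      · rw [if_pos h6] at h3
        rw [pr_eq_zero_of_near h h' M hl.1 (embN_rec_near D.x l t).1
          (by linarith [hl.2, dist_triangle y D.x (S.pos l)])
          (by rw [embN_rec_pos_self]; linarith)]
        linarith
      · rw [if_neg h6] at h3
        have h7 := embN_le_min hr (x := D.x) (y := y) (c := 1 / 2) (by norm_num)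
          (by linarith [not_le.1 h6])
        linarith [M.pr_le_one r S (S.rec' r D.x l t) y y]
  have h3 := sum_μm_min_le hr hD
  have h4 := hD.e2_le_e1 r
  have h5 := hD.e1_nonneg r
  have h6 : 0 ≤ D.V r * D.Γ r := mul_nonneg (by linarith [hD.one_le_V r]) (hD.Γ_nonneg r)
  linarith

theorem ψ_ge_of_not_near (h : S.Inv r η) (hr : 0 < r) {x y : X} (hn : ∀ l, ¬S.Near r x l)
    (hy : dist y x ≤ r / 16) : 1 / 64 ≤ S.ψ r y := by
  have hr' : (0 : ℝ) < r := by exact_mod_cast hr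
  unfold ES.ψ
  rw [Finset.le_fold_min]
  refine ⟨by norm_num, fun l hl => ?_⟩
  have h1 : (r : ℝ) / 4 < dist x (S.pos l) := not_le.1 fun h2 => hn l ⟨hl, h2⟩
  have h2 : 3 / 16 ≤ hfun r (S.pos l) y := by
    refine le_min (by norm_num) ?_
    rw [le_div_iff₀ hr']
    linarith [dist_triangle_left x (S.pos l) y]
  have h3 := (abs_le.1 (h.abs_b_le l)).2
  have h4 : 1 / 64 ≤ (hfun r (S.pos l) y - S.b l) ^ 2 := by nlinarith
  have h5 : 0 ≤ chi r (S.pos l) y := clamp_nonneg _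
  have h6 : chi r (S.pos l) y ≤ 1 := clamp_le_one _
  nlinarith

/-- Labels cost at most `V`, the `φ` part `1.4 V` (`bm_μm_le`), the `ψ` part
`256 (W' - μm(B(x, r/16)) / 64)` with `W' ≤ V Γ + e1` and `μm(B(x, r/16)) ≥ V - 16 V Γ - 16 e1`;
altogether at most `-1.1 V + 320 e1 + 2 e2`, and `320 e - 1 ≤ 25600 e²`. -/
theorem cost_new (h : S.Inv r η) (hη : 0 < η) (M : MH X η₀ ε) (hr : 0 < r) (hD : D.OK k)
    (hΓ : D.Γ r ≤ 1 / 640) (hn : ∀ l, ¬S.Near r D.x l) {t : ℕ} (ht : t ∉ S.A) :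
    M.cost r S (S.rec' r D.x t t) D ≤ 26000 * D.e2 r := by
  have hr' : (0 : ℝ) < r := by exact_mod_cast hr
  have h' := h.rec' hη D.x t t
  have hl8 : t ∈ S.A → dist D.x (S.pos t) ≤ 8 * r := fun h1 => absurd h1 ht
  have h1 := embN_cost_rec h hη M hr hD t t
    (sum_pr_sep_near h' M hr hD (embN_rec_near D.x t t)) (pi_rec_self S hr D.x t t)
  have h2 : ∑ y, D.μm y * (M.pr r S (S.rec' r D.x t t) y y +
      ((S.rec' r D.x t t).Pi r y - S.Pi r y)) ≤
      320 * ∑ y with dist y D.x ≤ 40 * r, D.μm y * min 1 (dist y D.x / r) -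
        1.6 * ∑ y, D.μm y * if dist y D.x ≤ 40 * r then 1 else 0 := by
    rw [sum_filter, mul_sum, mul_sum, ← sum_sub_distrib]
    refine sum_le_sum fun y _ => ?_
    have hμ := hD.μm_nonneg y
    have hm0 : 0 ≤ min 1 (dist y D.x / r) := by positivity
    by_cases hy : 35 * (r : ℝ) < dist y D.x
    · obtain ⟨h3, h4⟩ := rec_far h M hη hr t hl8 hy
      rw [h3, h4, sub_self, add_zero, mul_zero]
      have h7 := embN_le_min hr (x := D.x) (y := y) (c := 1) le_rfl (by linarith)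
      split_ifs
      · nlinarith
      · simp
    · rw [if_pos (by linarith [not_lt.1 hy]), if_pos (by linarith [not_lt.1 hy])]
      have key : M.pr r S (S.rec' r D.x t t) y y + ((S.rec' r D.x t t).Pi r y - S.Pi r y) ≤
          320 * min 1 (dist y D.x / r) - 1.6 := by
        have h3 := pi_rec_sub_le h hη hr y t hl8
        have h4 := S.ψ_nonneg r y
        have h8 := M.pr_le_one r S (S.rec' r D.x t t) y y
        by_cases h6 : dist y D.x ≤ r / 16
        · rw [if_pos (by linarith), if_pos (by linarith)] at h3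
          linarith [ψ_ge_of_not_near h hr hn h6]
        · have h7 := embN_le_min hr (x := D.x) (y := y) (c := 1 / 16) (by norm_num)
            (by linarith [not_le.1 h6])
          have h5 : (if dist y D.x ≤ 10 * r then 256 * (min 1 (dist y D.x / r) - S.ψ r y)
              else 0) ≤ 256 * min 1 (dist y D.x / r) := by split_ifs <;> linarith
          have h9 : (if dist y D.x ≤ r / 2 then (0 : ℝ) else 1.4) ≤ 1.4 := by
            split_ifs <;> norm_num
          linarith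
      nlinarith [mul_le_mul_of_nonneg_left key hμ]
  have h3 := sum_μm_min_le hr hD
  have h4 : D.V r ≤ (∑ y, D.μm y * if dist y D.x ≤ 40 * r then 1 else 0) + D.e1 r := by
    have h5 := hD.sum_μ_mul fun y => if dist y D.x ≤ 40 * r then 1 else 0
    have h6 : D.V r = ∑ y, D.μ y * if dist y D.x ≤ 40 * r then 1 else 0 := by
      simp [Dat.V, bm, sum_filter]
    rw [h6, h5]
    refine add_le_add le_rfl (sum_le_sum fun y _ => mul_le_mul_of_nonneg_left ?_ (hD.ρ_nonneg y))
    rw [if_pos (by rw [dist_self]; positivity)]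
    split_ifs with hy
    · rw [sub_self]; positivity
    · rw [sub_zero]
      exact embN_le_min hr le_rfl (by linarith [not_le.1 hy])
  have h5 := hD.e1_sq_le r
  have h6 := hD.e2_nonneg r
  have h7 := hD.one_le_V r
  have h8 : D.V r * D.Γ r ≤ D.V r * (1 / 640) := mul_le_mul_of_nonneg_left hΓ (by linarith)
  nlinarith [sq_nonneg (160 * D.e1 r - 1.01)]

end

end Crest.Agent.R314
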