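import Crest.Agent.R314.EmbInv

/-! Row 314: the one-scale embedding, probability that a clock fires. -/

set_option autoImplicit false

open Finset Crest.LogicCS.KServer

namespace Crest.Agent.R314

noncomputable section
open Classical

variable {X : Type} [Fintype X] [MetricSpace X] [Nonempty X] {r k : ℕ} {dat : ℕ → Dat X}

/-- the clock at time `t` of a centre placed at time `u` -/
def clock (r : ℕ) (dat : ℕ → Dat X) (u t : ℕ) : ℝ :=
  ∑ s ∈ Ioc u t,
    if (dat s).Γ r ≤ 1 / 640 ∧ dist (dat s).x (dat u).x ≤ r / 4 then (dat s).dY r else 0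

/-- a centre placed at time `u` is still there at time `t` -/
def Alive (r : ℕ) (dat : ℕ → Dat X) (lam : ℕ → ℝ) (u t : ℕ) : Prop :=
  ∃ l ∈ (erun r dat lam t).A, (erun r dat lam t).st l = u

omit [Nonempty X] in
theorem trig_dY_nonneg (hD : ∀ t, (dat t).OK k) (r s : ℕ) : 0 ≤ (dat s).dY r :=
  div_nonneg (mul_nonneg zero_le_two ((hD s).e1_nonneg r))
    (zero_le_one.trans ((hD s).one_le_V r))

omit [Nonempty X] in
theorem clock_succ (r : ℕ) (dat : ℕ → Dat X) {u t : ℕ} (h : u ≤ t) :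
    clock r dat u (t + 1) = clock r dat u t +
      if (dat (t + 1)).Γ r ≤ 1 / 640 ∧ dist (dat (t + 1)).x (dat u).x ≤ r / 4
        then (dat (t + 1)).dY r else 0 := by
  rw [clock, clock, sum_Ioc_succ_top h]

omit [Nonempty X] in
theorem clock_of_le (r : ℕ) (dat : ℕ → Dat X) {u t : ℕ} (h : t ≤ u) : clock r dat u t = 0 := by
  rw [clock, Ioc_eq_empty (by omega), sum_empty]

omit [Nonempty X] in
theorem clock_mono (hD : ∀ t, (dat t).OK k) (r u : ℕ) {s t : ℕ} (h : s ≤ t) :
    clock r dat u s ≤ clock r dat u t := by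
  refine sum_le_sum_of_subset_of_nonneg (Ioc_subset_Ioc_right h) fun i _ _ => ?_
  split_ifs
  · exact trig_dY_nonneg hD r i
  · exact le_rfl

/-- the conclusion of `erun_hist` -/
def Hist (r : ℕ) (dat : ℕ → Dat X) (lam : ℕ → ℝ) (t l u : ℕ) : Prop :=
  1 ≤ u ∧ u ≤ t ∧ (erun r dat lam t).pos l = (dat u).x ∧
    (erun r dat lam t).clk l = clock r dat u t ∧
    (∀ s, u < s → s ≤ t → (dat s).Γ r ≤ 1 / 640 → dist (dat s).x (dat u).x ≤ r →
      dist (dat s).x (dat u).x ≤ r / 4) ∧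
    (∀ s, u ≤ s → s ≤ t → l ∈ (erun r dat lam s).A ∧ (erun r dat lam s).st l = u) ∧
    ∀ s, u < s → s ≤ t → clock r dat u (s - 1) < 1 / 32 → 1 / 32 ≤ clock r dat u s →
      (erun r dat lam t).th l = (1 + lam s) / 32

/-- a centre that is not touched by the step -/
theorem Hist.keep (hr : 0 < r) {lam : ℕ → ℝ} {t l u : ℕ} (H : Hist r dat lam t l u)
    (hA : l ∈ (erun r dat lam (t + 1)).A) (hst : (erun r dat lam (t + 1)).st l = u)
    (hpos : (erun r dat lam (t + 1)).pos l = (erun r dat lam t).pos l)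
    (hclk : (erun r dat lam (t + 1)).clk l = (erun r dat lam t).clk l)
    (hth : (erun r dat lam (t + 1)).th l = (erun r dat lam t).th l)
    (hfar : (dat (t + 1)).Γ r ≤ 1 / 640 → r < dist (dat (t + 1)).x (dat u).x) :
    Hist r dat lam (t + 1) l u := by
  obtain ⟨a, b, c, d, e, f, g⟩ := H
  have hr' : (0 : ℝ) < r := by exact_mod_cast hr
  have hc : clock r dat u (t + 1) = clock r dat u t := by
    rw [clock_succ r dat b, if_neg, add_zero]
    rintro ⟨h1, h2⟩
    linarith [hfar h1]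
  refine ⟨a, by omega, hpos.trans c, by rw [hclk, d, hc], fun s h1 h2 h3 h4 => ?_,
    fun s h1 h2 => ?_, fun s h1 h2 h3 h4 => ?_⟩
  · rcases Nat.lt_or_ge s (t + 1) with h | h
    · exact e s h1 (by omega) h3 h4
    · obtain rfl : s = t + 1 := by omega
      linarith [hfar h3]
  · rcases Nat.lt_or_ge s (t + 1) with h | h
    · exact f s h1 (by omega)
    · obtain rfl : s = t + 1 := by omega
      exact ⟨hA, hst⟩
  · rcases Nat.lt_or_ge s (t + 1) with h | h
    · rw [hth]; exact g s h1 (by omega) h3 h4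
    · obtain rfl : s = t + 1 := by omega
      rw [Nat.add_sub_cancel] at h3
      linarith

theorem hist_rec (hr : 0 < r) {lam : ℕ → ℝ} {t l₀ : ℕ}
    (ih : ∀ l ∈ (erun r dat lam t).A, Hist r dat lam t l ((erun r dat lam t).st l))
    (hS : erun r dat lam (t + 1) = (erun r dat lam t).rec' r (dat (t + 1)).x l₀ (t + 1)) :
    ∀ l ∈ (erun r dat lam (t + 1)).A,
      Hist r dat lam (t + 1) l ((erun r dat lam (t + 1)).st l) := by
  intro l hl
  have hr' : (0 : ℝ) < r := by exact_mod_cast hr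
  by_cases h : l = l₀
  · subst h
    have hst : (erun r dat lam (t + 1)).st l = t + 1 := by rw [hS]; simp [ES.rec']
    rw [hst]
    refine ⟨by omega, le_rfl, by rw [hS]; simp [ES.rec'], ?_, fun s h1 h2 => by omega,
      fun s h1 h2 => ?_, fun s h1 h2 => by omega⟩
    · rw [hS, clock_of_le r dat le_rfl]; simp [ES.rec']
    · obtain rfl : s = t + 1 := by omega
      exact ⟨hl, hst⟩
  · have hl' := hl
    rw [hS] at hl'
    simp only [ES.rec', mem_insert, h, false_or, mem_filter] at hl'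
    have hst : (erun r dat lam (t + 1)).st l = (erun r dat lam t).st l := by
      rw [hS]; simp [ES.rec', h]
    have H := ih l hl'.1
    rw [hst]
    refine H.keep hr hl hst (by rw [hS]; simp [ES.rec', h]) (by rw [hS]; simp [ES.rec', h])
      (by rw [hS]; simp [ES.rec']) fun _ => ?_
    rw [← H.2.2.1]
    linarith [hl'.2]

theorem hist_all (hr : 0 < r) (hD : ∀ t, (dat t).OK k) {lam : ℕ → ℝ} (h0 : ∀ t, 0 ≤ lam t)
    (h1 : ∀ t, lam t ≤ 1) (t : ℕ) :
    ∀ l ∈ (erun r dat lam t).A, Hist r dat lam t l ((erun r dat lam t).st l) := by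
  have hr' : (0 : ℝ) < r := by exact_mod_cast hr
  induction t with
  | zero => intro l hl; simp [erun] at hl
  | succ t ih =>
    have hS : erun r dat lam (t + 1) =
      (erun r dat lam t).step r (t + 1) (dat (t + 1)) (lam (t + 1)) := rfl
    rw [ES.step] at hS
    split_ifs at hS with hΓ hN hF
    · exact hist_rec hr ih hS
    · intro l hl
      have hN' := hN.choose_spec
      set l₀ := hN.choose
      have hl' : l ∈ (erun r dat lam t).A := by rw [hS] at hl; exact hl
      have hst : (erun r dat lam (t + 1)).st l = (erun r dat lam t).st l := by rw [hS]; rfl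
      have hpos : (erun r dat lam (t + 1)).pos l = (erun r dat lam t).pos l := by rw [hS]; rfl
      have H := ih l hl'
      rw [hst]
      by_cases h : l = l₀
      · subst h
        obtain ⟨a, b, c, d, e, f, g⟩ := H
        have hd := hN'.2
        rw [c] at hd
        have hc := clock_succ r dat b
        rw [if_pos ⟨hΓ, hd⟩] at hc
        refine ⟨a, by omega, hpos.trans c, ?_, fun s h1 h2 h3 h4 => ?_,
          fun s h1 h2 => ?_, fun s h1 h2 h3 h4 => ?_⟩
        · rw [hc, hS, ← d]; simp [ES.tick]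
        · rcases Nat.lt_or_ge s (t + 1) with h | h
          · exact e s h1 (by omega) h3 h4
          · obtain rfl : s = t + 1 := by omega
            exact hd
        · rcases Nat.lt_or_ge s (t + 1) with h | h
          · exact f s h1 (by omega)
          · obtain rfl : s = t + 1 := by omega
            exact ⟨hl, hst⟩
        · rw [hS]
          simp only [ES.tick, Function.update_self]
          rcases Nat.lt_or_ge s (t + 1) with h | h
          · have := clock_mono hD r ((erun r dat lam t).st l₀) (show s ≤ t by omega)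
            rw [if_neg (by rw [d]; linarith)]
            exact g s h1 (by omega) h3 h4
          · obtain rfl : s = t + 1 := by omega
            rw [Nat.add_sub_cancel] at h3
            rw [if_pos (by rw [d]; exact h3)]
      · refine H.keep hr hl hst hpos (by rw [hS]; simp [ES.tick, h])
          (by rw [hS]; simp [ES.tick, h]) fun _ => ?_
        rw [← H.2.2.1]
        by_contra hn
        exact h ((erun_inv hr hD h0 h1 t).near_unique (y := (dat (t + 1)).x) hl' hN'.1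
          (by linarith) (by linarith [hN'.2]))
    · exact hist_rec hr ih hS
    · intro l hl
      have hl' : l ∈ (erun r dat lam t).A := by rw [hS] at hl; exact hl
      have hst : (erun r dat lam (t + 1)).st l = (erun r dat lam t).st l := by rw [hS]; rfl
      rw [hst]
      exact (ih l hl').keep hr hl hst (by rw [hS]; rfl) (by rw [hS]; rfl) (by rw [hS]; rfl)
        fun h => absurd h hΓ

/-- History of an alive centre, by induction on `t`. At a time `s` of small growth with the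
request within `r` of the centre, any centre near the request is this one (`near_unique`), and if
there is none the centre is deleted. -/
theorem erun_hist (hr : 0 < r) (hD : ∀ t, (dat t).OK k) {lam : ℕ → ℝ} (h0 : ∀ t, 0 ≤ lam t)
    (h1 : ∀ t, lam t ≤ 1) (t : ℕ) {l u : ℕ} (hl : l ∈ (erun r dat lam t).A)
    (hu : (erun r dat lam t).st l = u) :
    1 ≤ u ∧ u ≤ t ∧ (erun r dat lam t).pos l = (dat u).x ∧
      (erun r dat lam t).clk l = clock r dat u t ∧
      (∀ s, u < s → s ≤ t → (dat s).Γ r ≤ 1 / 640 → dist (dat s).x (dat u).x ≤ r →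
        dist (dat s).x (dat u).x ≤ r / 4) ∧
      (∀ s, u ≤ s → s ≤ t → l ∈ (erun r dat lam s).A ∧ (erun r dat lam s).st l = u) ∧
      ∀ s, u < s → s ≤ t → clock r dat u (s - 1) < 1 / 32 → 1 / 32 ≤ clock r dat u s →
        (erun r dat lam t).th l = (1 + lam s) / 32 := by
  subst hu
  exact hist_all hr hD h0 h1 t l hl

/-- both would be alive at time `u₂`, with different labels and close positions -/
theorem lt_of_alive (hr : 0 < r) (hD : ∀ t, (dat t).OK k) {lam : ℕ → ℝ} (h0 : ∀ t, 0 ≤ lam t)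
    (h1 : ∀ t, lam t ≤ 1) {u₁ u₂ s₁ s₂ : ℕ} (hu : u₁ < u₂) (h₁ : Alive r dat lam u₁ s₁)
    (h₂ : Alive r dat lam u₂ s₂) (hd : dist (dat u₁).x (dat u₂).x ≤ r) : s₁ < u₂ := by
  have hr' : (0 : ℝ) < r := by exact_mod_cast hr
  by_contra hn
  obtain ⟨l₁, hl₁, e₁⟩ := h₁
  obtain ⟨l₂, hl₂, e₂⟩ := h₂
  have H₁ := erun_hist hr hD h0 h1 s₁ hl₁ e₁
  have H₂ := erun_hist hr hD h0 h1 s₂ hl₂ e₂
  obtain ⟨a₁, b₁⟩ := H₁.2.2.2.2.2.1 u₂ hu.le (by omega)
  obtain ⟨a₂, b₂⟩ := H₂.2.2.2.2.2.1 u₂ le_rfl H₂.2.1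
  have hne : l₁ ≠ l₂ := by
    rintro rfl
    omega
  have := (erun_inv hr hD h0 h1 u₂).sep l₁ a₁ l₂ a₂ hne
  rw [(erun_hist hr hD h0 h1 u₂ a₁ b₁).2.2.1, (erun_hist hr hD h0 h1 u₂ a₂ b₂).2.2.1] at this
  linarith

/-- `u` can fire at time `t + 1` -/
def Rel (r : ℕ) (dat : ℕ → Dat X) (u t : ℕ) : Prop :=
  u ≤ t ∧ dist (dat (t + 1)).x (dat u).x ≤ r / 4 ∧ clock r dat u t < 1 / 16 ∧
    1 / 32 ≤ clock r dat u (t + 1) ∧
    ∀ s, u < s → s ≤ t → (dat s).Γ r ≤ 1 / 640 → dist (dat s).x (dat u).x ≤ r →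
      dist (dat s).x (dat u).x ≤ r / 4

/-- first time at which the clock started at `u` reaches `1 / 32` -/
def tau (r : ℕ) (dat : ℕ → Dat X) (u : ℕ) : ℕ := sInf {s | 1 / 32 ≤ clock r dat u s}

omit [Nonempty X] in
theorem le_clock_tau {u s : ℕ} (h : 1 / 32 ≤ clock r dat u s) :
    1 / 32 ≤ clock r dat u (tau r dat u) :=
  Nat.sInf_mem (s := {s | 1 / 32 ≤ clock r dat u s}) ⟨s, h⟩

omit [Nonempty X] in
theorem tau_le {u s : ℕ} (h : 1 / 32 ≤ clock r dat u s) : tau r dat u ≤ s :=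
  Nat.sInf_le (s := {s | 1 / 32 ≤ clock r dat u s}) h

omit [Nonempty X] in
theorem clock_lt_of_lt_tau {u s : ℕ} (h : s < tau r dat u) : clock r dat u s < 1 / 32 :=
  not_le.1 fun h' => absurd (tau_le h') (by omega)

theorem not_three (hr : 0 < r) (hD : ∀ t, (dat t).OK k) {lam : ℕ → ℝ} (h0 : ∀ t, 0 ≤ lam t)
    (h1 : ∀ t, lam t ≤ 1) {t u₁ u₂ u₃ : ℕ}
    (H₁ : Rel r dat u₁ t ∧ Alive r dat lam u₁ (tau r dat u₁ - 1))
    (H₂ : Rel r dat u₂ t ∧ Alive r dat lam u₂ (tau r dat u₂ - 1))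
    (H₃ : Rel r dat u₃ t ∧ Alive r dat lam u₃ (tau r dat u₃ - 1))
    (h12 : u₁ < u₂) (h23 : u₂ < u₃) : False := by
  have hr' : (0 : ℝ) < r := by exact_mod_cast hr
  obtain ⟨⟨a₁, b₁, c₁, d₁, e₁⟩, A₁⟩ := H₁
  obtain ⟨⟨a₂, b₂, c₂, d₂, e₂⟩, A₂⟩ := H₂
  obtain ⟨⟨a₃, b₃, c₃, d₃, e₃⟩, A₃⟩ := H₃
  have d12 : dist (dat u₁).x (dat u₂).x ≤ r / 2 := by
    linarith [dist_triangle_left (dat u₁).x (dat u₂).x (dat (t + 1)).x]
  have d23 : dist (dat u₂).x (dat u₃).x ≤ r / 2 := by
    linarith [dist_triangle_left (dat u₂).x (dat u₃).x (dat (t + 1)).x]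
  have t1 := lt_of_alive hr hD h0 h1 h12 A₁ A₂ (by linarith)
  have t2 := lt_of_alive hr hD h0 h1 h23 A₂ A₃ (by linarith)
  have k1 : 1 / 32 ≤ clock r dat u₁ u₂ :=
    (le_clock_tau d₁).trans (clock_mono hD r u₁ (by omega))
  have k2 : 1 / 32 ≤ clock r dat u₂ u₃ :=
    (le_clock_tau d₂).trans (clock_mono hD r u₂ (by omega))
  have k3 : clock r dat u₁ u₂ + clock r dat u₂ u₃ ≤ clock r dat u₁ u₃ := by
    rw [clock, clock, clock, ← sum_Ioc_consecutive _ h12.le h23.le]
    refine add_le_add le_rfl (sum_le_sum fun s hs => ?_)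
    rw [mem_Ioc] at hs
    split_ifs with h h'
    · exact le_rfl
    · refine absurd ⟨h.1, e₁ s (by omega) (by omega) h.1 ?_⟩ h'
      linarith [dist_triangle_right (dat s).x (dat u₁).x (dat u₂).x, h.2]
    · exact trig_dY_nonneg hD r s
    · exact le_rfl
  linarith [clock_mono hD r u₁ a₃]

/-- If `u₁ < u₂ < u₃` are three such times then `tau u₁ ≤ u₂`, `tau u₂ ≤ u₃` (`lt_of_alive`), the
times counted by the clock of `u₂` in `(u₂, u₃]` are counted by the clock of `u₁`, hence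
`clock u₁ t ≥ clock u₁ u₂ + clock u₂ u₃ ≥ 1 / 16`. -/
theorem card_rel_le (hr : 0 < r) (hD : ∀ t, (dat t).OK k) {lam : ℕ → ℝ} (h0 : ∀ t, 0 ≤ lam t)
    (h1 : ∀ t, lam t ≤ 1) (t : ℕ) :
    #{u ∈ range (t + 1) | Rel r dat u t ∧ Alive r dat lam u (tau r dat u - 1)} ≤ 2 := by
  by_contra hn
  obtain ⟨a, ha, b, hb, c, hc, hab, hac, hbc⟩ := two_lt_card.1 (not_le.1 hn)
  have ha := (mem_filter.1 ha).2
  have hb := (mem_filter.1 hb).2
  have hc := (mem_filter.1 hc).2
  rcases lt_or_gt_of_ne hab with h₁ | h₁ <;> rcases lt_or_gt_of_ne hac with h₂ | h₂ <;>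
    rcases lt_or_gt_of_ne hbc with h₃ | h₃
  · exact not_three hr hD h0 h1 ha hb hc h₁ h₃
  · exact not_three hr hD h0 h1 ha hc hb h₂ h₃
  · omega
  · exact not_three hr hD h0 h1 hc ha hb h₂ h₁
  · exact not_three hr hD h0 h1 hb ha hc h₁ h₂
  · omega
  · exact not_three hr hD h0 h1 hb hc ha h₃ h₂
  · exact not_three hr hD h0 h1 hc hb ha h₃ h₁

theorem exists_rel_of_trig (hr : 0 < r) (hD : ∀ t, (dat t).OK k) {lam : ℕ → ℝ}
    (h0 : ∀ t, 0 ≤ lam t) (h1 : ∀ t, lam t ≤ 1) {t : ℕ}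
    (h : (erun r dat lam t).Trig r (dat (t + 1)) (lam (t + 1))) :
    ∃ u, Rel r dat u t ∧ Alive r dat lam u (tau r dat u - 1) ∧ 1 ≤ tau r dat u ∧
      tau r dat u ≤ t + 1 ∧ 32 * clock r dat u t - 1 < lam (tau r dat u) ∧
      lam (tau r dat u) ≤ 32 * clock r dat u t - 1 + 32 * (dat (t + 1)).dY r := by
  obtain ⟨hΓ, l, ⟨hl, hd⟩, hF⟩ := h
  obtain ⟨a, b, c, d, e, f, g⟩ := erun_hist hr hD h0 h1 t hl rfl
  have I := erun_inv hr hD h0 h1 t
  set u := (erun r dat lam t).st l with hu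
  rw [c] at hd
  have hc := clock_succ r dat b
  rw [if_pos ⟨hΓ, hd⟩] at hc
  simp only [ES.Fire, ES.tick, Function.update_self, d] at hF
  have hlt := I.clk_lt l
  rw [d] at hlt
  have hge : 1 / 32 ≤ clock r dat u (t + 1) := by
    rw [hc]
    refine le_trans ?_ hF
    split_ifs
    · linarith [h0 (t + 1)]
    · exact I.th_ge l
  refine ⟨u, ⟨b, hd, hlt.trans_le (I.th_le l), hge, e⟩, ?_⟩
  split_ifs at hF with hk
  · have ht : tau r dat u = t + 1 := by
      refine le_antisymm (tau_le hge) (not_lt.1 fun hn => ?_)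
      linarith [le_clock_tau hge, clock_mono hD r u (show tau r dat u ≤ t by omega)]
    rw [ht]
    refine ⟨⟨l, hl, rfl⟩, by omega, le_rfl, by linarith [h0 (t + 1)], by linarith⟩
  · have ht : tau r dat u ≤ t := tau_le (not_lt.1 hk)
    have hu' : u < tau r dat u := by
      by_contra hn
      have := le_clock_tau hge
      rw [clock_of_le r dat (not_lt.1 hn)] at this
      norm_num at this
    have hth := g _ hu' ht (clock_lt_of_lt_tau (by omega)) (le_clock_tau hge)
    rw [hth] at hF hlt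
    exact ⟨⟨l, f _ (by omega) (by omega)⟩, by omega, by omega, by linarith, by linarith⟩

theorem trig_indep {ι α : Type} [Fintype ι] [DecidableEq ι] [Fintype α] (i : ι)
    (P : (ι → α) → Prop) [DecidablePred P] (hP : ∀ g a, P g → P (Function.update g i a))
    (Q : α → Prop) [DecidablePred Q] :
    #{g : ι → α | P g ∧ Q (g i)} * Fintype.card α ≤ #{a : α | Q a} * #{g : ι → α | P g} := by
  rw [← card_univ, ← card_product, ← card_product]
  refine card_le_card_of_injOn (fun p => (p.1 i, Function.update p.1 i p.2)) ?_ ?_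
  · rintro ⟨g, a⟩ h
    simp only [coe_product, Set.mem_prod, mem_coe, mem_filter, mem_univ, true_and, and_true] at h ⊢
    exact ⟨h.2, hP g a h.1⟩
  · rintro ⟨g, a⟩ - ⟨g', a'⟩ - h
    simp only [Prod.mk.injEq] at h ⊢
    obtain ⟨h1, h2⟩ := h
    have h3 : a = a' := by simpa using congrFun h2 i
    refine ⟨funext fun j => ?_, h3⟩
    by_cases hj : j = i
    · rw [hj, h1]
    · simpa [hj] using congrFun h2 j

theorem trig_count (m : ℕ) (c : ℝ) {L : ℝ} (hL : 0 ≤ L) :
    (#{a : Fin (m + 1) | c < (a : ℝ) / (m + 1) ∧ (a : ℝ) / (m + 1) ≤ c + L} : ℝ) ≤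
      L * (m + 1) + 1 := by
  have hm : (0 : ℝ) < m + 1 := by positivity
  have h1 : #{a : Fin (m + 1) | c < (a : ℝ) / (m + 1) ∧ (a : ℝ) / (m + 1) ≤ c + L} ≤
      #(Ioc ⌊c * (m + 1)⌋ ⌊(c + L) * (m + 1)⌋) := by
    refine card_le_card_of_injOn (fun a => ((a : ℕ) : ℤ)) ?_ ?_
    · intro a ha
      simp only [mem_coe, mem_filter, mem_univ, true_and, mem_Ioc] at ha ⊢
      rw [lt_div_iff₀ hm, div_le_iff₀ hm] at ha
      rw [Int.floor_lt, Int.le_floor]
      exact_mod_cast ha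
    · intro a _ b _ h
      exact Fin.ext (by simpa using h)
  rw [Int.card_Ioc] at h1
  have h2 : ⌊c * (m + 1)⌋ ≤ ⌊(c + L) * (m + 1)⌋ := Int.floor_mono (by nlinarith)
  have h3 : (((⌊(c + L) * (m + 1)⌋ - ⌊c * (m + 1)⌋).toNat : ℕ) : ℝ) =
      ⌊(c + L) * (m + 1)⌋ - ⌊c * (m + 1)⌋ := by
    rw [← Int.cast_natCast, Int.toNat_of_nonneg (by omega), Int.cast_sub]
  have h4 : (#{a : Fin (m + 1) | c < (a : ℝ) / (m + 1) ∧ (a : ℝ) / (m + 1) ≤ c + L} : ℝ) ≤
      (((⌊(c + L) * (m + 1)⌋ - ⌊c * (m + 1)⌋).toNat : ℕ) : ℝ) := by exact_mod_cast h1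
  rw [h3] at h4
  linarith [Int.floor_le ((c + L) * (m + 1)), Int.lt_floor_add_one (c * (m + 1))]

theorem trig_one (hD : ∀ t, (dat t).OK k) {Tm m t : ℕ} (ht : t < Tm) (u : ℕ) :
    (#{g : Fin (Tm + 1) → Fin (m + 1) | Rel r dat u t ∧
        Alive r dat (lamOf g) u (tau r dat u - 1) ∧ 1 ≤ tau r dat u ∧
        tau r dat u ≤ t + 1 ∧ 32 * clock r dat u t - 1 < lamOf g (tau r dat u) ∧
        lamOf g (tau r dat u) ≤ 32 * clock r dat u t - 1 + 32 * (dat (t + 1)).dY r} : ℝ) ≤
      (32 * (dat (t + 1)).dY r + 1 / (m + 1)) * #{g : Fin (Tm + 1) → Fin (m + 1) |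
        Rel r dat u t ∧ Alive r dat (lamOf g) u (tau r dat u - 1)} := by
  have hm : (0 : ℝ) < m + 1 := by positivity
  have hL : 0 ≤ 32 * (dat (t + 1)).dY r := by linarith [trig_dY_nonneg hD r (t + 1)]
  by_cases hτ : 1 ≤ tau r dat u ∧ tau r dat u ≤ t + 1
  swap
  · rw [filter_false_of_mem fun g _ h => hτ ⟨h.2.2.1, h.2.2.2.1⟩, card_empty, Nat.cast_zero]
    positivity
  have hi : tau r dat u < Tm + 1 := by omega
  have h1 := trig_indep (⟨tau r dat u, hi⟩ : Fin (Tm + 1))
    (fun g : Fin (Tm + 1) → Fin (m + 1) =>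
      Rel r dat u t ∧ Alive r dat (lamOf g) u (tau r dat u - 1))
    (fun g a h => ⟨h.1, by
      have e := erun_congr r (dat := dat) (dat' := dat)
        (lam := lamOf (Function.update g ⟨tau r dat u, hi⟩ a)) (lam' := lamOf g)
        (t := tau r dat u - 1) (fun _ _ _ => rfl) fun s _ hs => by
          unfold lamOf
          split_ifs with hs'
          · rw [Function.update_of_ne]
            intro h
            have := congrArg Fin.val h
            simp only at this
            omega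
          · rfl
      unfold Alive
      rw [e]
      exact h.2⟩)
    (fun a : Fin (m + 1) => 32 * clock r dat u t - 1 < (a : ℝ) / (m + 1) ∧
      (a : ℝ) / (m + 1) ≤ 32 * clock r dat u t - 1 + 32 * (dat (t + 1)).dY r)
  have h2 := trig_count m (32 * clock r dat u t - 1) hL
  have h3 : (#{g : Fin (Tm + 1) → Fin (m + 1) | Rel r dat u t ∧
        Alive r dat (lamOf g) u (tau r dat u - 1) ∧ 1 ≤ tau r dat u ∧
        tau r dat u ≤ t + 1 ∧ 32 * clock r dat u t - 1 < lamOf g (tau r dat u) ∧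
        lamOf g (tau r dat u) ≤ 32 * clock r dat u t - 1 + 32 * (dat (t + 1)).dY r} : ℝ) *
        (m + 1) ≤ #{a : Fin (m + 1) | 32 * clock r dat u t - 1 < (a : ℝ) / (m + 1) ∧
      (a : ℝ) / (m + 1) ≤ 32 * clock r dat u t - 1 + 32 * (dat (t + 1)).dY r} *
      #{g : Fin (Tm + 1) → Fin (m + 1) |
        Rel r dat u t ∧ Alive r dat (lamOf g) u (tau r dat u - 1)} := by
    rw [Fintype.card_fin] at h1
    have h4 : #{g : Fin (Tm + 1) → Fin (m + 1) | Rel r dat u t ∧
        Alive r dat (lamOf g) u (tau r dat u - 1) ∧ 1 ≤ tau r dat u ∧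
        tau r dat u ≤ t + 1 ∧ 32 * clock r dat u t - 1 < lamOf g (tau r dat u) ∧
        lamOf g (tau r dat u) ≤ 32 * clock r dat u t - 1 + 32 * (dat (t + 1)).dY r} * (m + 1) ≤ _ :=
      le_trans (Nat.mul_le_mul_right _ (card_le_card fun g hg => by
        simp only [mem_filter, mem_univ, true_and] at hg ⊢
        obtain ⟨a, b, -, -, c, d⟩ := hg
        rw [lamOf, dif_pos hi] at c d
        exact ⟨⟨a, b⟩, c, d⟩)) h1
    exact_mod_cast h4
  rw [← le_div_iff₀ hm] at h3
  refine h3.trans ?_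
  rw [div_le_iff₀ hm]
  refine (mul_le_mul_of_nonneg_right h2 (Nat.cast_nonneg _)).trans_eq ?_
  field_simp

/-- The event `Alive u (tau u - 1)` does not depend on the coordinate `tau u` of `g`
(`erun_congr`), and at most `L (m+1) + 1` values `i / (m+1)` lie in a half-open interval of length
`L`; sum over `u` and use `card_rel_le`. -/
theorem trig_prob (hr : 0 < r) (hD : ∀ t, (dat t).OK k) {Tm m t : ℕ} (ht : t < Tm) :
    (#{g : Fin (Tm + 1) → Fin (m + 1) |
        (erun r dat (lamOf g) t).Trig r (dat (t + 1)) (lamOf g (t + 1))} : ℝ) ≤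
      2 * (32 * (dat (t + 1)).dY r + 1 / (m + 1)) * ((m : ℝ) + 1) ^ (Tm + 1) := by
  have hL : 0 ≤ 32 * (dat (t + 1)).dY r + 1 / (m + 1) := by
    have := trig_dY_nonneg hD r (t + 1)
    positivity
  have h1 : #{g : Fin (Tm + 1) → Fin (m + 1) |
        (erun r dat (lamOf g) t).Trig r (dat (t + 1)) (lamOf g (t + 1))} ≤
      ∑ u ∈ range (t + 1), #{g : Fin (Tm + 1) → Fin (m + 1) | Rel r dat u t ∧
        Alive r dat (lamOf g) u (tau r dat u - 1) ∧ 1 ≤ tau r dat u ∧
        tau r dat u ≤ t + 1 ∧ 32 * clock r dat u t - 1 < lamOf g (tau r dat u) ∧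
        lamOf g (tau r dat u) ≤ 32 * clock r dat u t - 1 + 32 * (dat (t + 1)).dY r} := by
    refine le_trans (card_le_card fun g hg => ?_) card_biUnion_le
    obtain ⟨u, hu⟩ := exists_rel_of_trig hr hD (lamOf_nonneg g) (lamOf_le_one g)
      (mem_filter.1 hg).2
    exact mem_biUnion.2 ⟨u, mem_range.2 (Nat.lt_succ_of_le hu.1.1), mem_filter.2 ⟨mem_univ _, hu⟩⟩
  have h2 : ∑ u ∈ range (t + 1), #{g : Fin (Tm + 1) → Fin (m + 1) |
        Rel r dat u t ∧ Alive r dat (lamOf g) u (tau r dat u - 1)} ≤ 2 * (m + 1) ^ (Tm + 1) := by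
    simp only [card_filter]
    rw [sum_comm]
    refine (sum_le_card_nsmul _ _ 2 fun g _ => ?_).trans_eq ?_
    · rw [← card_filter]
      exact card_rel_le hr hD (lamOf_nonneg g) (lamOf_le_one g) t
    · simp [mul_comm]
  have h1' := (Nat.cast_le (α := ℝ)).2 h1
  have h2' := (Nat.cast_le (α := ℝ)).2 h2
  push_cast at h1' h2'
  refine h1'.trans ((sum_le_sum fun u _ => trig_one hD ht u).trans ?_)
  rw [← mul_sum]
  refine (mul_le_mul_of_nonneg_left h2' hL).trans_eq ?_
  ring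

end

end Crest.Agent.R314
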