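import Crest.Agent.R314.EmbG3
import Crest.Agent.R314.EmbN
import Crest.Agent.R314.EmbTrig

/-! Row 314: the one-scale embedding. -/

set_option autoImplicit false

open Finset Crest.LogicCS.KServer

namespace Crest.Agent.R314

noncomputable section
open Classical

variable {X : Type} [Fintype X] [MetricSpace X] {S : ES X} {r k : ℕ} {η η₀ ε : ℝ} {D : Dat X}

/-- the four cases of `ES.step` -/
theorem cost_step (hX : ∀ a b : X, a ≠ b → 1 ≤ dist a b) (h : S.Inv r η) (M : MH X η₀ ε)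
    (h0 : 0 < η₀) (hη : η₀ ≤ η / 2) (hε : 0 ≤ ε) (hr : 16 ≤ r) (hD : D.OK k) {t : ℕ}
    (ht : t ∉ S.A) (lam : ℝ) :
    M.cost r S (S.step r t D lam) D ≤ 1000000 * (D.Γ r * D.e1 r + D.e2 r) + (k + 1) * ε +
      if S.Trig r D lam then 300 * (D.V r * D.Γ r + D.e1 r) else 0 := by
  have hη0 : 0 < η := by linarith
  have hr0 : 0 < r := by omega
  have hΓ := hD.Γ_nonneg r
  have he1 := hD.e1_nonneg r
  have he2 := hD.e2_nonneg r
  have hV := hD.one_le_V r
  have hΓe : 0 ≤ D.Γ r * D.e1 r := mul_nonneg hΓ he1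
  have hkε : 0 ≤ ((k : ℝ) + 1) * ε := by positivity
  have hif : (0 : ℝ) ≤ if S.Trig r D lam then 300 * (D.V r * D.Γ r + D.e1 r) else 0 := by
    split_ifs
    · have : 0 ≤ D.V r * D.Γ r := mul_nonneg (by linarith) hΓ
      linarith
    · exact le_rfl
  unfold ES.step
  by_cases h1 : D.Γ r ≤ 1 / 640
  · rw [if_pos h1]
    by_cases h2 : ∃ l, S.Near r D.x l
    · rw [dif_pos h2]
      by_cases h3 : S.Fire r D h2.choose lam
      · rw [if_pos h3, if_pos (show S.Trig r D lam from ⟨h1, h2.choose, h2.choose_spec, h3⟩)]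
        have := cost_fire h hη0 M hr0 hD h2.choose_spec t
        linarith
      · rw [if_neg h3]
        have := cost_tick h hη0 M hr0 hD h1 h2.choose_spec lam
        linarith
    · rw [dif_neg h2]
      have := cost_new h hη0 M hr0 hD h1 (fun l hl => h2 ⟨l, hl⟩) ht
      linarith
  · rw [if_neg h1]
    have := cost_bstep hX h M h0 hη hε hr hD (not_le.1 h1)
    linarith

theorem emb1_dY_mul (hD : D.OK k) (r : ℕ) :
    D.dY r * (D.V r * D.Γ r + D.e1 r) ≤ 2 * (D.Γ r * D.e1 r + D.e2 r) := by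
  have hV := hD.one_le_V r
  have hV0 : 0 < D.V r := by linarith
  have h1 : D.dY r * (D.V r * D.Γ r + D.e1 r) = 2 * (D.Γ r * D.e1 r + D.e1 r ^ 2 / D.V r) := by
    unfold Dat.dY; field_simp
  have h2 : D.e1 r ^ 2 / D.V r ≤ D.e1 r ^ 2 := div_le_self (sq_nonneg _) hV
  have h3 := hD.e1_sq_le r
  rw [h1]; linarith

theorem emb1_dY_nonneg (hD : D.OK k) (r : ℕ) : 0 ≤ D.dY r :=
  div_nonneg (mul_nonneg (by norm_num) (hD.e1_nonneg r)) (by linarith [hD.one_le_V r])

omit [MetricSpace X] in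
theorem emb1_eta_le [Nonempty X] {s t : ℕ} (h : s ≤ t) :
    (1 / Fintype.card X / 2 ^ t : ℝ) ≤ 1 / Fintype.card X / 2 ^ s :=
  div_le_div_of_nonneg_left (by positivity) (by positivity) (pow_le_pow_right₀ one_le_two h)

/-- average over the thresholds: `trig_prob`, `dY * (V Γ + e1) ≤ 2 Γ e1 + 2 e2`, and on the event
`V Γ + e1 ≤ k + 1` -/
theorem avg_cost_le [Nonempty X] (hX : ∀ a b : X, a ≠ b → 1 ≤ dist a b) {Tm : ℕ} (M : MH X η₀ ε)
    (h0 : 0 < η₀) (hη : η₀ ≤ 1 / Fintype.card X / 2 ^ Tm) (hε : 0 ≤ ε) (hr : 16 ≤ r)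
    {dat : ℕ → Dat X} (hD : ∀ t, (dat t).OK k) (m : ℕ) {t : ℕ} (ht : t < Tm) :
    ∑ g : Fin (Tm + 1) → Fin (m + 1), 1 / ((m : ℝ) + 1) ^ (Tm + 1) *
        M.cost r (erun r dat (lamOf g) t) (erun r dat (lamOf g) (t + 1)) (dat (t + 1)) ≤
      2000000 * ((dat (t + 1)).Γ r * (dat (t + 1)).e1 r + (dat (t + 1)).e2 r) + (k + 1) * ε +
        600 * (k + 1) / (m + 1) := by
  have hr0 : 0 < r := by omega
  set D := dat (t + 1) with hDdef
  have hDk : D.OK k := hD (t + 1)
  have hm : (0 : ℝ) < ((m : ℝ) + 1) ^ (Tm + 1) := by positivity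
  have hstep : ∀ g : Fin (Tm + 1) → Fin (m + 1),
      M.cost r (erun r dat (lamOf g) t) (erun r dat (lamOf g) (t + 1)) D ≤
        (1000000 * (D.Γ r * D.e1 r + D.e2 r) + (k + 1) * ε) +
          if (erun r dat (lamOf g) t).Trig r D (lamOf g (t + 1)) then
            300 * (D.V r * D.Γ r + D.e1 r) else 0 := fun g => by
    have hinv := erun_inv hr0 hD (lamOf_nonneg g) (lamOf_le_one g) t
    refine cost_step hX hinv M h0 (hη.trans ?_) hε hr hDk (fun h => ?_) _
    · rw [div_div _ (2 ^ t : ℝ), ← pow_succ]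
      exact emb1_eta_le ht
    · have := erun_label_le r dat (lamOf g) t _ h
      omega
  have hcard : (Fintype.card (Fin (Tm + 1) → Fin (m + 1)) : ℝ) = ((m : ℝ) + 1) ^ (Tm + 1) := by
    simp
  have hΓ := hDk.Γ_nonneg r
  have he1 := hDk.e1_nonneg r
  have he2 := hDk.e2_nonneg r
  have hV := hDk.one_le_V r
  have hΓe : 0 ≤ D.Γ r * D.e1 r := mul_nonneg hΓ he1
  have hW : 0 ≤ D.V r * D.Γ r + D.e1 r := by
    have : 0 ≤ D.V r * D.Γ r := mul_nonneg (by linarith) hΓ
    linarith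
  have htrig : 1 / ((m : ℝ) + 1) ^ (Tm + 1) *
      ((#{g : Fin (Tm + 1) → Fin (m + 1) |
        (erun r dat (lamOf g) t).Trig r D (lamOf g (t + 1))} : ℝ) *
          (300 * (D.V r * D.Γ r + D.e1 r))) ≤
      1000000 * (D.Γ r * D.e1 r + D.e2 r) + 600 * (k + 1) / (m + 1) := by
    by_cases h1 : D.Γ r ≤ 1 / 640
    · have hp := trig_prob hr0 hD (m := m) ht
      rw [← hDdef] at hp
      have hVk : D.V r ≤ k := hDk.bm_le _ _
      have hWk : D.V r * D.Γ r + D.e1 r ≤ k + 1 := by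
        have : D.V r * D.Γ r ≤ D.V r := mul_le_of_le_one_right (by linarith) (by linarith)
        linarith [hDk.e1_le_one r]
      have hd := emb1_dY_mul hDk r
      have hm1 : (0 : ℝ) < (m : ℝ) + 1 := by positivity
      calc _ ≤ 1 / ((m : ℝ) + 1) ^ (Tm + 1) *
            ((2 * (32 * D.dY r + 1 / (m + 1)) * ((m : ℝ) + 1) ^ (Tm + 1)) *
              (300 * (D.V r * D.Γ r + D.e1 r))) := by gcongr
        _ = 19200 * (D.dY r * (D.V r * D.Γ r + D.e1 r)) +
            600 * (D.V r * D.Γ r + D.e1 r) / (m + 1) := by field_simp; ring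
        _ ≤ 19200 * (2 * (D.Γ r * D.e1 r + D.e2 r)) + 600 * (k + 1) / (m + 1) := by gcongr
        _ ≤ _ := by linarith
    · have : (#{g : Fin (Tm + 1) → Fin (m + 1) |
        (erun r dat (lamOf g) t).Trig r D (lamOf g (t + 1))} : ℝ) = 0 := by
        rw [Nat.cast_eq_zero, card_eq_zero, filter_eq_empty_iff]
        exact fun g _ hg => h1 hg.1
      rw [this, zero_mul, mul_zero]
      positivity
  calc _ ≤ ∑ g : Fin (Tm + 1) → Fin (m + 1), 1 / ((m : ℝ) + 1) ^ (Tm + 1) *
        ((1000000 * (D.Γ r * D.e1 r + D.e2 r) + (k + 1) * ε) +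
          if (erun r dat (lamOf g) t).Trig r D (lamOf g (t + 1)) then
            300 * (D.V r * D.Γ r + D.e1 r) else 0) :=
        sum_le_sum fun g _ => mul_le_mul_of_nonneg_left (hstep g) (by positivity)
    _ = (1000000 * (D.Γ r * D.e1 r + D.e2 r) + (k + 1) * ε) +
        1 / ((m : ℝ) + 1) ^ (Tm + 1) *
          ((#{g : Fin (Tm + 1) → Fin (m + 1) |
            (erun r dat (lamOf g) t).Trig r D (lamOf g (t + 1))} : ℝ) *
              (300 * (D.V r * D.Γ r + D.e1 r))) := by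
        rw [← mul_sum, sum_add_distrib, sum_const, card_univ, nsmul_eq_mul, hcard, ← sum_filter,
          sum_const, nsmul_eq_mul, mul_add]
        congr 1
        field_simp
    _ ≤ _ := by linarith

/-- what one step does to the position and to the clock of a label -/
theorem emb1_step_cases (S : ES X) (r t : ℕ) (D : Dat X) (lam : ℝ) (l : ℕ) :
    ((S.step r t D lam).pos l = S.pos l ∧ ((S.step r t D lam).clk l = S.clk l ∨
      (D.Γ r ≤ 1 / 640 ∧ S.Near r D.x l ∧ (S.step r t D lam).clk l = S.clk l + D.dY r))) ∨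
    ((S.step r t D lam).pos l = D.x ∧ (S.step r t D lam).clk l = 0 ∧
      (l = t ∨ (D.Γ r ≤ 1 / 640 ∧ S.Near r D.x l ∧ S.Fire r D l lam))) := by
  unfold ES.step
  by_cases h1 : D.Γ r ≤ 1 / 640
  · rw [if_pos h1]
    by_cases h2 : ∃ l, S.Near r D.x l
    · rw [dif_pos h2]
      by_cases h3 : S.Fire r D h2.choose lam
      · rw [if_pos h3]
        by_cases hl : l = h2.choose
        · right
          refine ⟨?_, ?_, Or.inr ⟨h1, hl ▸ h2.choose_spec, hl ▸ h3⟩⟩
          · rw [hl]; exact Function.update_self ..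
          · rw [hl]; exact Function.update_self ..
        · left
          exact ⟨Function.update_of_ne hl .., Or.inl (Function.update_of_ne hl ..)⟩
      · rw [if_neg h3]
        left
        refine ⟨rfl, ?_⟩
        by_cases hl : l = h2.choose
        · right
          refine ⟨h1, hl ▸ h2.choose_spec, ?_⟩
          rw [hl]; exact Function.update_self ..
        · exact Or.inl (Function.update_of_ne hl ..)
    · rw [dif_neg h2]
      by_cases hl : l = t
      · right
        refine ⟨?_, ?_, Or.inl hl⟩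
        · rw [hl]; exact Function.update_self ..
        · rw [hl]; exact Function.update_self ..
      · left
        exact ⟨Function.update_of_ne hl .., Or.inl (Function.update_of_ne hl ..)⟩
  · rw [if_neg h1]
    exact Or.inl ⟨rfl, Or.inl rfl⟩

def emb1κ (S : ES X) (l : ℕ) : ℝ := min 1 (32 * S.clk l)

def emb1inc (S : ES X) (r : ℕ) (D : Dat X) (l : ℕ) : ℝ :=
  if D.Γ r ≤ 1 / 640 ∧ S.Near r D.x l then max 0 (32 * D.dY r) else 0

theorem emb1inc_nonneg (S : ES X) (r : ℕ) (D : Dat X) (l : ℕ) : 0 ≤ emb1inc S r D l := by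
  unfold emb1inc; split_ifs
  · exact le_max_left _ _
  · exact le_rfl

theorem emb1κ_nonneg (h : S.Inv r η) (l : ℕ) : 0 ≤ emb1κ S l :=
  le_min zero_le_one (mul_nonneg (by norm_num) (h.clk_nonneg l))

theorem emb1κ_succ (h : S.Inv r η) (t : ℕ) (D : Dat X) (lam : ℝ) (l : ℕ) :
    emb1κ (S.step r t D lam) l ≤ emb1κ S l + emb1inc S r D l := by
  have h1 := emb1inc_nonneg S r D l
  have h2 := emb1κ_nonneg h l
  rcases emb1_step_cases S r t D lam l with ⟨-, h3 | ⟨h3, h4, h5⟩⟩ | ⟨-, h3, -⟩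
  · rw [emb1κ, h3, ← emb1κ]; linarith
  · rw [emb1κ, h5, emb1inc, if_pos ⟨h3, h4⟩, emb1κ]
    have := le_max_left 0 (32 * D.dY r)
    have := le_max_right 0 (32 * D.dY r)
    rcases le_total 1 (32 * S.clk l) with h6 | h6
    · rw [min_eq_left h6]; linarith [min_le_left 1 (32 * (S.clk l + D.dY r))]
    · rw [min_eq_right h6]; linarith [min_le_right 1 (32 * (S.clk l + D.dY r))]
  · rw [emb1κ, h3, mul_zero, min_eq_right zero_le_one]; linarith

theorem emb1_drift (h : S.Inv r η) {t : ℕ} (D : Dat X) {lam : ℝ} (hlam : 0 ≤ lam) {l : ℕ}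
    (hl : l ≠ t) : dist (S.pos l) ((S.step r t D lam).pos l) ≤
      r * min 1 (emb1κ S l + emb1inc S r D l - emb1κ (S.step r t D lam) l) := by
  rcases emb1_step_cases S r t D lam l with ⟨h3, -⟩ | ⟨h3, h4, h5 | ⟨h5, h6, h7⟩⟩
  · rw [h3, dist_self]
    exact mul_nonneg r.cast_nonneg (le_min zero_le_one (by linarith [emb1κ_succ h t D lam l]))
  · exact absurd h5 hl
  · have h8 : 1 / 32 ≤ S.clk l + D.dY r := by
      have h9 : (S.tick r D l lam).clk l = S.clk l + D.dY r := Function.update_self ..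
      have h10 : (S.tick r D l lam).th l =
          if S.clk l < 1 / 32 then (1 + lam) / 32 else S.th l := Function.update_self ..
      rw [ES.Fire, h9, h10] at h7
      refine le_trans ?_ h7
      split_ifs
      · linarith
      · exact h.th_ge l
    have h11 : 1 ≤ emb1κ S l + emb1inc S r D l - emb1κ (S.step r t D lam) l := by
      rw [emb1κ.eq_1 (S.step r t D lam), h4, mul_zero, min_eq_right zero_le_one, sub_zero, emb1inc,
        if_pos ⟨h5, h6⟩, emb1κ]
      have := le_max_left 0 (32 * D.dY r)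
      have := le_max_right 0 (32 * D.dY r)
      rcases le_total 1 (32 * S.clk l) with h6 | h6
      · rw [min_eq_left h6]; linarith
      · rw [min_eq_right h6]; linarith
    rw [min_eq_left h11, h3, dist_comm]
    linarith [h6.2, r.cast_nonneg (α := ℝ)]

theorem emb1inc_le (hD : D.OK k) (S : ES X) (r l : ℕ) :
    emb1inc S r D l ≤ 2000000 * D.e1 r / D.V r := by
  have he1 := hD.e1_nonneg r
  have hV : 0 < D.V r := by linarith [hD.one_le_V r]
  unfold emb1inc; split_ifs
  · refine max_le (by positivity) ?_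
    rw [Dat.dY, ← mul_div_assoc]
    exact div_le_div_of_nonneg_right (by linarith) hV.le
  · positivity

theorem emb1_inc_supp {t : ℕ} {lam : ℝ} {l : ℕ} {y : X}
    (hy : dist y ((S.step r t D lam).pos l) ≤ 2 * r) (hi : emb1inc S r D l ≠ 0) :
    dist y D.x ≤ 40 * r := by
  have hn : S.Near r D.x l := by
    by_contra hn
    exact hi (if_neg fun h => hn h.2)
  have hr := r.cast_nonneg (α := ℝ)
  rcases emb1_step_cases S r t D lam l with ⟨h3, -⟩ | ⟨h3, -⟩
  · rw [h3] at hy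
    linarith [dist_triangle_right y D.x (S.pos l), hn.2]
  · rw [h3] at hy; linarith

omit [Fintype X] in
theorem emb1_lab_cases (S : ES X) (r i j : ℕ) (sel : (X → ℝ) → X) (y : X) :
    (∃ l ∈ S.A, dist y (S.pos l) ≤ r + i ∧ S.lab r i j sel y = Sum.inr l) ∨
      S.lab r i j sel y = Sum.inl (sel (restr S.u y (10 * r + j))) := by
  unfold ES.lab
  split_ifs with h
  · exact Or.inl ⟨h.choose, h.choose_spec.1, h.choose_spec.2, rfl⟩
  · exact Or.inr rfl

theorem emb1_sel_near (h : S.Inv r η) (M : MH X η₀ ε) (h0 : 0 < η₀) (hη : η₀ ≤ η) (ξ : M.Ξ)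
    (y : X) {s : ℝ} (hs : 0 ≤ s) : dist (M.sel ξ (restr S.u y s)) y ≤ s := by
  have hu : ∀ z, 0 ≤ S.u z := fun z => by linarith [h.low z]
  have h1 : ∀ z, S.u z ≤ 1 := fun z =>
    (single_le_sum (f := S.u) (fun y _ => hu y) (by simp)).trans (h.kraft z)
  have := M.sel_pos ξ (restr S.u y s) (fun z => by unfold restr; split_ifs; exacts [hu z, le_rfl])
    (fun z => by unfold restr; split_ifs; exacts [h1 z, zero_le_one])
    (by rw [sum_restr]; exact hη.trans (h.bm_pos (h0.trans_le hη) y hs))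
  by_contra hc
  rw [restr, if_neg hc] at this
  exact lt_irrefl _ this

theorem emb1_pi_zero [Nonempty X] (hr : 0 < r) (dat : ℕ → Dat X) (lam : ℕ → ℝ) (y : X) :
    (erun r dat lam 0).Pi r y ≤ 2000000 * (1 + Real.log (Fintype.card X)) := by
  have hc : (1 : ℝ) ≤ Fintype.card X := by exact_mod_cast Fintype.card_pos
  have hl : 0 ≤ Real.log (Fintype.card X) := Real.log_nonneg hc
  have hφ : φ (erun r dat lam 0).u r y ≤ Real.log (Fintype.card X) := by
    calc _ ≤ ∑ j ∈ range r, pj r j * Real.log (Fintype.card X) := by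
          refine sum_le_sum fun j _ => mul_le_mul_of_nonneg_left ?_ (pj_nonneg r j)
          rw [flog, neg_le, ← Real.log_inv, ← one_div]
          refine Real.log_le_log (by positivity) ?_
          exact single_le_sum (f := fun _ : X => (1 / Fintype.card X : ℝ)) (a := y)
            (fun _ _ => by positivity) (by simp; positivity)
      _ = _ := by rw [← sum_mul, sum_pj_self hr, one_mul]
  have hθ : (erun r dat lam 0).θ r y = 1 := rfl
  have hψ : (erun r dat lam 0).ψ r y = 1 := rfl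
  rw [ES.Pi, hθ, hψ]
  linarith

/-- labels as elements of `Fin (Tm + 1)` -/
def emb1cl (Tm l : ℕ) : Fin (Tm + 1) := ⟨min l Tm, Nat.lt_succ_of_le (min_le_right _ _)⟩

theorem emb1cl_val {Tm l : ℕ} (h : l ≤ Tm) : (emb1cl Tm l : ℕ) = l := min_eq_left h

theorem emb1_ite_le {α β : Type} (f : α → β) (a b : α) {_ : Decidable (f a = f b)}
    {_ : Decidable (a = b)} :
    (if f a = f b then (0 : ℝ) else 1) ≤ if a = b then 0 else 1 := by
  by_cases h : a = b
  · rw [if_pos h, if_pos (congrArg f h)]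
  · rw [if_neg h]; split_ifs <;> norm_num

/-- `MH.cost` as one expectation -/
theorem emb1_cost_eq (M : MH X η₀ ε) (hr : 0 < r) (S S' : ES X) (D : Dat X) :
    ∑ i : Fin r, ∑ j : Fin r, ∑ ξ ∈ @univ M.Ξ M.fin, (1 / r : ℝ) * pj r j * M.Q ξ *
      (∑ y, D.μm y * (if S'.lab r i j (M.sel ξ) y = S.lab r i j (M.sel ξ) y then 0 else 1) +
        ∑ y, D.ρ y * (if S'.lab r i j (M.sel ξ) y = S'.lab r i j (M.sel ξ) D.x then 0 else 1) +
        ∑ y, D.μ y * S'.Pi r y - ∑ y, D.μm y * S.Pi r y) = M.cost r S S' D := by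
  have hr' : (r : ℝ) ≠ 0 := by positivity
  have hone : ∀ c : ℝ, ∑ _i : Fin r, ∑ j : Fin r, ∑ ξ ∈ @univ M.Ξ M.fin,
      (1 / r : ℝ) * pj r j * M.Q ξ * c = c := fun c => by
    simp only [← sum_mul, ← mul_sum, M.Q_sum, mul_one]
    rw [Fin.sum_univ_eq_sum_range (fun j => pj r j) r, sum_pj_self hr, sum_const, card_univ,
      Fintype.card_fin, nsmul_eq_mul]
    field_simp
  have hpr : ∀ (w : X → ℝ) (S₁ S₂ : ES X) (f : X → X), ∑ y, w y * M.pr r S₁ S₂ (f y) y =
      ∑ i : Fin r, ∑ j : Fin r, ∑ ξ ∈ @univ M.Ξ M.fin, (1 / r : ℝ) * pj r j * M.Q ξ *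
        ∑ y, w y * (if S₂.lab r i j (M.sel ξ) y = S₁.lab r i j (M.sel ξ) (f y) then 0 else 1) := by
    intro w S₁ S₂ f
    simp only [MH.pr, mul_sum]
    rw [sum_comm, ← Fin.sum_univ_eq_sum_range _ r]
    refine sum_congr rfl fun i _ => ?_
    rw [sum_comm, ← Fin.sum_univ_eq_sum_range _ r]
    refine sum_congr rfl fun j _ => ?_
    rw [sum_comm]
    exact sum_congr rfl fun ξ _ => sum_congr rfl fun y _ => mul_left_comm ..
  rw [MH.cost, hpr D.μm S S' fun y => y, hpr D.ρ S' S' fun _ => D.x]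
  simp only [mul_add, mul_sub, sum_add_distrib, sum_sub_distrib, hone]

/-- `Ξ = (Fin (Tm+1) → Fin (m+1)) × Fin r × Fin r × M.Ξ` with the product weights
`1 / (m+1)^(Tm+1) * (1 / r) * pj r j * M.Q ξ`; `lab` is `ES.lab` of `erun r dat (lamOf g) t`
followed by `Sum.map id (fun l => ⟨min l Tm, _⟩)` (equal labels stay equal; `erun_label_le`);
`cpos (inl z) = z`, `cpos (inr l) = pos l`; `κ (inr l) = min 1 (32 * clk l)`;
`inc (t+1) (inr l) = max 0 (32 * dY)` if `Γ ≤ 1 / 640` and `Near (erun t) x l`, else `0`;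
`κ`, `inc` vanish on `inl`; `Pi = ES.Pi`. In `drift`, an alive centre moves only when it fires,
by at most `r / 4`, and then `κ' = 0`, `clk + dY ≥ th' ≥ 1 / 32`. `near` uses `sel_pos`. -/
theorem exists_emb1 (X : Type) [Fintype X] [MetricSpace X] [Nonempty X]
    (hX : ∀ a b : X, a ≠ b → 1 ≤ dist a b) (k r Tm : ℕ) (ε : ℝ) (hr : 16 ≤ r) (hε : 0 < ε) :
    Nonempty (Emb1 X k r Tm 2000000 ε) := by
  have hr0 : 0 < r := by omega
  have hη0 : ∀ t : ℕ, (0 : ℝ) < 1 / Fintype.card X / 2 ^ t := fun t => by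
    have : (0 : ℝ) < Fintype.card X := by exact_mod_cast Fintype.card_pos
    positivity
  have hε' : 0 < ε / (2 * ((k : ℝ) + 1)) := by positivity
  obtain ⟨M⟩ := exists_MH X (hη0 Tm) hε'
  obtain ⟨m, hm⟩ := exists_nat_ge (1200 * ((k : ℝ) + 1) / ε)
  letI := M.fin
  have hinv : ∀ (g : Fin (Tm + 1) → Fin (m + 1)) (dat : ℕ → Dat X), (∀ s, (dat s).OK k) → ∀ t,
      (erun r dat (lamOf g) t).Inv r (1 / Fintype.card X / 2 ^ t) := fun g dat hD t =>
    erun_inv hr0 hD (lamOf_nonneg g) (lamOf_le_one g) t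
  have hir : ∀ i : Fin r, ((i : ℕ) : ℝ) ≤ r := fun i => by exact_mod_cast i.2.le
  refine ⟨{
    Ξ := (Fin (Tm + 1) → Fin (m + 1)) × Fin r × Fin r × M.Ξ
    fin := inferInstance
    Q := fun ξ => 1 / ((m : ℝ) + 1) ^ (Tm + 1) * ((1 / r : ℝ) * pj r ξ.2.2.1 * M.Q ξ.2.2.2)
    Q_nonneg := fun ξ => ?_
    Q_sum := ?_
    lab := fun ξ dat t y => Sum.map id (emb1cl Tm)
      ((erun r dat (lamOf ξ.1) t).lab r ξ.2.1 ξ.2.2.1 (M.sel ξ.2.2.2) y)
    cpos := fun ξ dat t => Sum.elim id fun l => (erun r dat (lamOf ξ.1) t).pos l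
    κ := fun ξ dat t => Sum.elim (fun _ => 0) fun l => emb1κ (erun r dat (lamOf ξ.1) t) l
    inc := fun ξ dat t => Sum.elim (fun _ => 0) fun l =>
      emb1inc (erun r dat (lamOf ξ.1) (t - 1)) r (dat t) l
    Pi := fun ξ dat t => (erun r dat (lamOf ξ.1) t).Pi r
    loc := fun ξ dat dat' t h => ?_
    inc_nonneg := fun ξ dat t l => ?_
    pi_zero := fun ξ dat y => emb1_pi_zero hr0 dat _ y
    near := fun ξ dat hD t ht y => ?_
    κ_nonneg := fun ξ dat hD t ht l => ?_
    κ_le_one := fun ξ dat hD t ht l => ?_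
    κ_succ := fun ξ dat hD t ht l => ?_
    drift := fun ξ dat hD t ht y l hl => ?_
    inc_le := fun ξ dat hD t ht l => ?_
    inc_supp := fun ξ dat hD t ht y hy => ?_
    pi_nonneg := fun ξ dat hD t ht y => (hinv ξ.1 dat hD t).pi_nonneg (hη0 t) y
    main := fun dat hD t ht => ?_ }⟩
  · have := pj_nonneg r ξ.2.2.1
    have := M.Q_nonneg ξ.2.2.2
    positivity
  · have hr' : (r : ℝ) ≠ 0 := by positivity
    simp only [Fintype.sum_prod_type, ← sum_mul, ← mul_sum, M.Q_sum, mul_one]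
    rw [Fin.sum_univ_eq_sum_range (fun j => pj r j) r, sum_pj_self hr0]
    simp only [sum_const, card_univ, Fintype.card_fin, nsmul_eq_mul, Fintype.card_fun,
      Nat.cast_pow, Nat.cast_add, Nat.cast_one]
    field_simp
  · rw [erun_congr r h fun _ _ _ => rfl]
    exact ⟨rfl, rfl, rfl⟩
  · rcases l with z | l
    · exact le_rfl
    · exact emb1inc_nonneg ..
  · have hr' := r.cast_nonneg (α := ℝ)
    rcases emb1_lab_cases (erun r dat (lamOf ξ.1) t) r ξ.2.1 ξ.2.2.1 (M.sel ξ.2.2.2) y with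
      ⟨l, hl, hy, h⟩ | h
    · rw [h, Sum.map_inr, Sum.elim_inr, emb1cl_val ((erun_label_le _ _ _ _ l hl).trans ht),
        dist_comm]
      linarith [hir ξ.2.1]
    · rw [h, Sum.map_inl, Sum.elim_inl, id, id]
      refine (emb1_sel_near (hinv ξ.1 dat hD t) M (hη0 Tm) (emb1_eta_le ht) _ y
        (by positivity)).trans ?_
      linarith [hir ξ.2.2.1]
  · rcases l with z | l
    · exact le_rfl
    · exact emb1κ_nonneg (hinv ξ.1 dat hD t) l
  · rcases l with z | l
    · exact zero_le_one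
    · exact min_le_left _ _
  · rcases l with z | l
    · exact (add_zero (0 : ℝ)).ge
    · exact emb1κ_succ (hinv ξ.1 dat hD t) (t + 1) (dat (t + 1)) _ l
  · rcases l with z | l
    · simp
    · refine emb1_drift (hinv ξ.1 dat hD t) (dat (t + 1)) (lamOf_nonneg ξ.1 (t + 1)) ?_
      rcases emb1_lab_cases (erun r dat (lamOf ξ.1) t) r ξ.2.1 ξ.2.2.1 (M.sel ξ.2.2.2) y with
        ⟨l', hl', -, h⟩ | h
      · rw [h, Sum.map_inr, Sum.inr.injEq] at hl
        have h1 := erun_label_le _ _ _ _ l' hl'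
        rw [← hl, emb1cl_val (h1.trans ht.le)]
        omega
      · rw [h, Sum.map_inl] at hl
        exact absurd hl Sum.inl_ne_inr
  · rcases l with z | l
    · have he1 := (hD (t + 1)).e1_nonneg r
      have hV : 0 < (dat (t + 1)).V r := by linarith [(hD (t + 1)).one_le_V r]
      rw [Sum.elim_inl]
      positivity
    · exact emb1inc_le (hD (t + 1)) _ r l
  · rcases emb1_lab_cases (erun r dat (lamOf ξ.1) (t + 1)) r ξ.2.1 ξ.2.2.1 (M.sel ξ.2.2.2) y with
      ⟨l, hl, hy', h⟩ | h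
    · rw [h, Sum.map_inr, Sum.elim_inr, emb1cl_val ((erun_label_le _ _ _ _ l hl).trans ht)] at hy
      refine emb1_inc_supp (t := t + 1) (lam := lamOf ξ.1 (t + 1)) (hy'.trans ?_) hy
      linarith [hir ξ.2.1]
    · rw [h, Sum.map_inl, Sum.elim_inl] at hy
      exact absurd rfl hy
  · have havg := avg_cost_le hX M (hη0 Tm) le_rfl hε'.le hr hD m ht
    have h1 : ((k : ℝ) + 1) * (ε / (2 * ((k : ℝ) + 1))) = ε / 2 := by field_simp
    have h2 : 600 * ((k : ℝ) + 1) / (m + 1) ≤ ε / 2 := by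
      rw [div_le_iff₀ hε] at hm
      rw [div_le_iff₀ (by positivity)]
      nlinarith
    refine le_trans ?_ (havg.trans (by linarith))
    rw [Fintype.sum_prod_type]
    refine sum_le_sum fun g _ => ?_
    rw [← emb1_cost_eq M hr0, mul_sum, Fintype.sum_prod_type]
    refine sum_le_sum fun i _ => ?_
    rw [mul_sum, Fintype.sum_prod_type]
    refine sum_le_sum fun j _ => ?_
    rw [mul_sum]
    refine sum_le_sum fun ξ _ => ?_
    have := pj_nonneg r j
    have := M.Q_nonneg ξ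
    rw [mul_assoc]
    refine mul_le_mul_of_nonneg_left (mul_le_mul_of_nonneg_left ?_ (by positivity))
      (by positivity)
    gcongr with y _ y _
    · exact (hD (t + 1)).μm_nonneg y
    · exact emb1_ite_le (Sum.map id (emb1cl Tm)) _ _
    · exact (hD (t + 1)).ρ_nonneg y
    · exact emb1_ite_le (Sum.map id (emb1cl Tm)) _ _

end

end Crest.Agent.R314
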