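import Crest.Agent.R314.Defs

/-! Row 314: consistent sampling (min-hash). -/

set_option autoImplicit false

open Finset Crest.LogicCS.KServer

namespace Crest.Agent.R314

noncomputable section
open Classical

/-- consistent sampling from weight vectors of total mass at least `η`, up to an error `ε` -/
structure MH (X : Type) [Fintype X] (η ε : ℝ) where
  Ξ : Type
  fin : Fintype Ξ
  Q : Ξ → ℝ
  Q_nonneg : ∀ ξ, 0 ≤ Q ξ
  Q_sum : ∑ ξ ∈ @univ Ξ fin, Q ξ = 1
  sel : Ξ → (X → ℝ) → X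
  sel_pos : ∀ (ξ : Ξ) (w : X → ℝ), (∀ z, 0 ≤ w z) → (∀ z, w z ≤ 1) → η ≤ ∑ z, w z → 0 < w (sel ξ w)
  sel_ne : ∀ w w' : X → ℝ, (∀ z, 0 ≤ w z) → (∀ z, w z ≤ 1) → η ≤ ∑ z, w z →
    (∀ z, 0 ≤ w' z) → (∀ z, w' z ≤ 1) → η ≤ ∑ z, w' z →
    ∑ ξ ∈ @univ Ξ fin, Q ξ * (if sel ξ w = sel ξ w' then 0 else 1) ≤
      (∑ z, |w z - w' z|) / (∑ z, max (w z) (w' z)) + ε

/-- for a uniformly random ranking, the first element of `S ∪ S'` is uniform (symmetry under
swaps); if it lies in `S ∩ S'` it is the first element of both sets -/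
theorem card_first_mem {α : Type} [Fintype α] {n : ℕ} (U B : Finset α) (hB : B ⊆ U) :
    #{π : α ≃ Fin n | ∃ a ∈ B, ∀ c ∈ U, π a ≤ π c} * #U ≤ #B * Fintype.card (α ≃ Fin n) := by
  set F : α → Finset (α ≃ Fin n) := fun a => {π | ∀ c ∈ U, π a ≤ π c} with hF
  have h1 : ∀ a ∈ U, ∀ a' ∈ U, #(F a) ≤ #(F a') := by
    intro a ha a' ha'
    refine card_le_card_of_injOn (fun π => (Equiv.swap a a').trans π) (fun π hπ => ?_) ?_
    · simp only [hF, coe_filter, mem_univ, true_and, Set.mem_ofPred_eq, Equiv.trans_apply,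
        Equiv.swap_apply_right] at hπ ⊢
      intro c hc
      refine hπ _ ?_
      rw [Equiv.swap_apply_def]
      split_ifs <;> assumption
    · intro π _ π' _ h
      ext x
      have := congrArg (fun e : α ≃ Fin n => e (Equiv.swap a a' x)) h
      simp only [Equiv.trans_apply, Equiv.swap_apply_self] at this
      rw [this]
  have h2 : ∑ a ∈ U, #(F a) ≤ Fintype.card (α ≃ Fin n) := by
    rw [← card_biUnion]
    · exact card_le_univ _
    · intro a ha a' ha' hne
      refine disjoint_left.2 fun π h h' => hne ?_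
      simp only [hF, mem_filter, mem_univ, true_and] at h h'
      exact π.injective (le_antisymm (h _ ha') (h' _ ha))
  have h3 : ∀ a ∈ B, #(F a) * #U ≤ Fintype.card (α ≃ Fin n) := by
    intro a ha
    refine le_trans ?_ h2
    rw [mul_comm, ← smul_eq_mul, ← sum_const]
    exact sum_le_sum fun a' ha' => h1 a (hB ha) a' ha'
  have h4 : #{π : α ≃ Fin n | ∃ a ∈ B, ∀ c ∈ U, π a ≤ π c} ≤ ∑ a ∈ B, #(F a) := by
    refine le_trans (card_le_card fun π hπ => ?_) card_biUnion_le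
    simpa [hF] using hπ
  refine (Nat.mul_le_mul_right _ h4).trans ?_
  rw [sum_mul, ← smul_eq_mul, ← sum_const]
  exact sum_le_sum h3

/-- the tokens owned by a weight vector -/
def mhTok {X : Type} [Fintype X] (N : ℕ) (w : X → ℝ) : Finset (X × Fin N) :=
  {t | (t.2 : ℝ) < N * w t.1}

theorem mem_mhTok {X : Type} [Fintype X] {N : ℕ} {w : X → ℝ} {t : X × Fin N} :
    t ∈ mhTok N w ↔ (t.2 : ℝ) < N * w t.1 := by
  simp [mhTok]

theorem card_mhTok {X : Type} [Fintype X] (N : ℕ) {w : X → ℝ} (h1 : ∀ z, w z ≤ 1) :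
    (#(mhTok N w) : ℝ) = ∑ z, (⌈N * w z⌉₊ : ℝ) := by
  rw [mhTok, card_filter, Fintype.sum_prod_type, Nat.cast_sum]
  refine sum_congr rfl fun z _ => ?_
  rw [← card_filter]
  simp only [← Nat.lt_ceil]
  rw [Fin.card_filter_val_lt, min_eq_right]
  exact Nat.ceil_le.2 (mul_le_of_le_one_right (Nat.cast_nonneg _) (h1 z))

/-- the first owned token -/
def mhSel {α : Type} [Nonempty α] {n : ℕ} (π : α ≃ Fin n) (S : Finset α) : α :=
  if h : S.Nonempty then (S.exists_min_image π h).choose else Classical.arbitrary α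

theorem mhSel_spec {α : Type} [Nonempty α] {n : ℕ} (π : α ≃ Fin n) {S : Finset α}
    (h : S.Nonempty) : mhSel π S ∈ S ∧ ∀ c ∈ S, π (mhSel π S) ≤ π c := by
  rw [mhSel, dif_pos h]
  exact (S.exists_min_image π h).choose_spec

theorem mhSel_eq {α : Type} [Nonempty α] {n : ℕ} (π : α ≃ Fin n) {S : Finset α} {a : α}
    (ha : a ∈ S) (h : ∀ c ∈ S, π a ≤ π c) : mhSel π S = a :=
  π.injective (le_antisymm ((mhSel_spec π ⟨a, ha⟩).2 a ha) (h _ (mhSel_spec π ⟨a, ha⟩).1))

theorem mh_prob' {α β : Type} [Fintype α] [Nonempty α] {n : ℕ} {S S' U I : Finset α}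
    (hmU : ∀ t, t ∈ U ↔ t ∈ S ∨ t ∈ S') (hmI : ∀ t, t ∈ I ↔ t ∈ S ∧ t ∈ S') (hS : S.Nonempty)
    (f : α → β) :
    (∑ π : α ≃ Fin n, if f (mhSel π S) = f (mhSel π S') then (0 : ℝ) else 1) * #U ≤
      (#U - #I) * Fintype.card (α ≃ Fin n) := by
  have hIU : I ⊆ U := fun t ht => (hmU t).2 (Or.inl ((hmI t).1 ht).1)
  have hk := (Nat.cast_le (α := ℝ)).2 (card_first_mem (n := n) U (U \ I) sdiff_subset)
  rw [card_sdiff_of_subset hIU, Nat.cast_mul, Nat.cast_mul, Nat.cast_sub (card_le_card hIU),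
    card_filter, Nat.cast_sum] at hk
  refine le_trans (mul_le_mul_of_nonneg_right (sum_le_sum fun π _ => ?_) (Nat.cast_nonneg _)) hk
  by_cases h : ∃ a ∈ U \ I, ∀ c ∈ U, π a ≤ π c
  · rw [if_pos h]
    split_ifs <;> simp
  · obtain ⟨a, ha, hmin⟩ := U.exists_min_image π (hS.mono fun t ht => (hmU t).2 (Or.inl ht))
    have haI : a ∈ I := by
      by_contra h2
      exact h ⟨a, mem_sdiff.2 ⟨ha, h2⟩, hmin⟩
    rw [mhSel_eq π ((hmI a).1 haI).1 fun t ht => hmin t ((hmU t).2 (Or.inl ht)),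
      mhSel_eq π ((hmI a).1 haI).2 fun t ht => hmin t ((hmU t).2 (Or.inr ht)), if_pos rfl]
    positivity

theorem mh_prob {α β : Type} [Fintype α] [Nonempty α] {n : ℕ} [Fintype (α ≃ Fin n)]
    {S S' U I : Finset α}
    (hmU : ∀ t, t ∈ U ↔ t ∈ S ∨ t ∈ S') (hmI : ∀ t, t ∈ I ↔ t ∈ S ∧ t ∈ S') (hS : S.Nonempty)
    (f : α → β) :
    (∑ π : α ≃ Fin n, if f (mhSel π S) = f (mhSel π S') then (0 : ℝ) else 1) * #U ≤
      (#U - #I) * Fintype.card (α ≃ Fin n) := by
  convert mh_prob' (n := n) hmU hmI hS f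

/-- Tokens `(c, j) : X × Fin N`, the weight vector `w` owns the tokens with `j < N * w c`
(`⌈N * w c⌉₊` of them); `sel` returns the point of the first owned token of a uniformly random
ranking; `N ≥ card X / (η * ε)`. -/
theorem exists_MH (X : Type) [Fintype X] [Nonempty X] {η ε : ℝ} (hη : 0 < η) (hε : 0 < ε) :
    Nonempty (MH X η ε) := by
  obtain ⟨N, hN⟩ := exists_nat_gt ((Fintype.card X : ℝ) / (η * ε))
  have hN0 : (0 : ℝ) < N := lt_of_le_of_lt (by positivity) hN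
  have : NeZero N := ⟨by rintro rfl; simp at hN0⟩
  have hNX : (Fintype.card X : ℝ) ≤ N * (η * ε) := ((div_lt_iff₀ (by positivity)).1 hN).le
  set n := Fintype.card (X × Fin N) with hn
  have : Nonempty (X × Fin N ≃ Fin n) := ⟨Fintype.equivFin _⟩
  set c : ℝ := ((Fintype.card (X × Fin N ≃ Fin n) : ℕ) : ℝ) with hc
  have hc0 : 0 < c := by rw [hc]; exact_mod_cast Fintype.card_pos
  have hne : ∀ w : X → ℝ, η ≤ ∑ z, w z → (mhTok N w).Nonempty := by
    intro w hw
    obtain ⟨z, hz⟩ : ∃ z, 0 < w z := by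
      by_contra h
      push Not at h
      exact absurd (hη.trans_le hw) (sum_nonpos fun z _ => h z).not_gt
    exact ⟨(z, 0), mem_mhTok.2 (by simpa using mul_pos hN0 hz)⟩
  refine ⟨⟨X × Fin N ≃ Fin n, inferInstance, fun _ => c⁻¹, fun _ => by positivity, ?_,
    fun π w => (mhSel π (mhTok N w)).1, fun π w _ _ hw => ?_, fun w w' h0 h1 hw h0' h1' hw' => ?_⟩⟩
  · rw [sum_const, card_univ, nsmul_eq_mul, mul_inv_cancel₀ hc0.ne']
  · have := mem_mhTok.1 (mhSel_spec π (hne w hw)).1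
    exact (mul_pos_iff_of_pos_left hN0).1 ((Nat.cast_nonneg _).trans_lt this)
  set U := mhTok N fun z => max (w z) (w' z) with hU
  set I := mhTok N fun z => min (w z) (w' z) with hI
  have hmU : ∀ t, t ∈ U ↔ t ∈ mhTok N w ∨ t ∈ mhTok N w' := fun t => by
    simp only [hU, mem_mhTok, mul_max_of_nonneg _ _ hN0.le, lt_max_iff]
  have hmI : ∀ t, t ∈ I ↔ t ∈ mhTok N w ∧ t ∈ mhTok N w' := fun t => by
    simp only [hI, mem_mhTok, mul_min_of_nonneg _ _ hN0.le, lt_min_iff]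
  set M := ∑ z, max (w z) (w' z) with hM
  set D := ∑ z, |w z - w' z| with hD
  have hηM : η ≤ M := hw.trans (sum_le_sum fun z _ => le_max_left _ _)
  have hM0 : 0 < M := hη.trans_le hηM
  have hcU := card_mhTok N (w := fun z => max (w z) (w' z)) fun z => max_le (h1 z) (h1' z)
  have hcI := card_mhTok N (w := fun z => min (w z) (w' z)) fun z => (min_le_left _ _).trans (h1 z)
  have hU1 : N * M ≤ #U := by
    rw [hcU, hM, mul_sum]
    exact sum_le_sum fun z _ => Nat.le_ceil _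
  have hB1 : (#U - #I : ℝ) ≤ N * D + Fintype.card X := by
    rw [hcU, hcI, ← sum_sub_distrib, hD, mul_sum, ← card_univ, card_eq_sum_ones, Nat.cast_sum,
      ← sum_add_distrib]
    refine sum_le_sum fun z _ => ?_
    have e1 := Nat.ceil_lt_add_one (mul_nonneg hN0.le ((h0 z).trans (le_max_left _ (w' z))))
    have e2 := Nat.le_ceil (N * min (w z) (w' z))
    rw [← max_sub_min_eq_abs', mul_sub]
    push_cast
    linarith
  have hk := mh_prob (n := n) hmU hmI (hne w hw) Prod.fst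
  rw [← mul_sum, inv_mul_le_iff₀ hc0]
  refine le_of_mul_le_mul_right ?_ (mul_pos hN0 hM0)
  have e2 : (#U - #I : ℝ) * c ≤ (N * D + N * (M * ε)) * c := by
    refine mul_le_mul_of_nonneg_right (hB1.trans ?_) hc0.le
    have : N * (η * ε) ≤ N * (M * ε) := by gcongr
    linarith
  refine ((mul_le_mul_of_nonneg_left hU1 (sum_nonneg fun π _ => ?_)).trans (hk.trans e2)).trans_eq ?_
  · split_ifs <;> simp
  · field_simp

end

end Crest.Agent.R314
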