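import Crest.Agent.R314.Gamma
import Crest.Agent.R314.MinHash

/-! Row 314: the one-scale embedding, definitions. -/

set_option autoImplicit false

open Finset Crest.LogicCS.KServer

namespace Crest.Agent.R314

noncomputable section
open Classical

variable {X : Type} [Fintype X] [MetricSpace X]

def clamp (t : ℝ) : ℝ := max 0 (min 1 t)

/-- state: alive centres `A` with positions, clocks, offsets, thresholds and start times, and
weights `u` on the points -/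
structure ES (X : Type) where
  A : Finset ℕ
  pos : ℕ → X
  clk : ℕ → ℝ
  b : ℕ → ℝ
  th : ℕ → ℝ
  st : ℕ → ℕ
  u : X → ℝ

def hfun (r : ℕ) (p y : X) : ℝ := min (1 / 2) (dist y p / r)
def chi (r : ℕ) (p y : X) : ℝ := clamp (2 - dist y p / r)

/-- `0` within `r / 2` of a centre, `1` beyond `3 r / 4` of all centres -/
def ES.θ (S : ES X) (r : ℕ) (y : X) : ℝ :=
  S.A.fold min 1 fun l => clamp (4 * (dist y (S.pos l) / r) - 2)

def ES.ψ (S : ES X) (r : ℕ) (y : X) : ℝ :=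
  S.A.fold min 1 fun l =>
    chi r (S.pos l) y * (hfun r (S.pos l) y - S.b l) ^ 2 + 1 - chi r (S.pos l) y

def pj (r j : ℕ) : ℝ := 2 * (j + 1) / (r * (r + 1))

def flog (u : X → ℝ) (r : ℕ) (y : X) (j : ℕ) : ℝ := -Real.log (bm u y (10 * r + j))

def φ (u : X → ℝ) (r : ℕ) (y : X) : ℝ := ∑ j ∈ range r, pj r j * flog u r y j

def avgf (u : X → ℝ) (r : ℕ) (y : X) : ℝ := (∑ j ∈ range r, flog u r y j) / r

def ES.Pi (S : ES X) (r : ℕ) (y : X) : ℝ := 2 * (S.θ r y ^ 2 * φ S.u r y) + 256 * S.ψ r y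

/-- restriction of `u` to a ball -/
def restr (u : X → ℝ) (y : X) (s : ℝ) (z : X) : ℝ := if dist z y ≤ s then u z else 0

/-- label of `y`: a centre within `r + i`, otherwise a sample of `u` on the ball of radius
`10 r + j` -/
def ES.lab (S : ES X) (r i j : ℕ) (sel : (X → ℝ) → X) (y : X) : X ⊕ ℕ :=
  if h : ∃ l ∈ S.A, dist y (S.pos l) ≤ r + i then Sum.inr h.choose
  else Sum.inl (sel (restr S.u y (10 * r + j)))

/-- probability that the label of `y` in `S` differs from the label of `y'` in `S'` -/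
def MH.pr {η ε : ℝ} (M : MH X η ε) (r : ℕ) (S S' : ES X) (y y' : X) : ℝ :=
  ∑ i ∈ range r, ∑ j ∈ range r, ∑ ξ ∈ @univ M.Ξ M.fin, (1 / r : ℝ) * pj r j * M.Q ξ *
    (if S'.lab r i j (M.sel ξ) y' = S.lab r i j (M.sel ξ) y then 0 else 1)

/-- amortised cost of the step from `S` to `S'` -/
def MH.cost {η ε : ℝ} (M : MH X η ε) (r : ℕ) (S S' : ES X) (D : Dat X) : ℝ :=
  ∑ y, D.μm y * M.pr r S S' y y + ∑ y, D.ρ y * M.pr r S' S' D.x y +
    ∑ y, D.μ y * S'.Pi r y - ∑ y, D.μm y * S.Pi r y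

def ustep (u : X → ℝ) (r : ℕ) (x : X) (δ : ℝ) (z : X) : ℝ :=
  (if dist z x ≤ 24 * r then (1 - δ) * u z else u z) + if z = x then δ else 0

/-- put the centre `l₀` at `x` at time `t` -/
def ES.rec' (S : ES X) (r : ℕ) (x : X) (l₀ t : ℕ) : ES X where
  A := insert l₀ (S.A.filter fun l => 8 * (r : ℝ) < dist x (S.pos l))
  pos := Function.update S.pos l₀ x
  clk := Function.update S.clk l₀ 0
  b := Function.update S.b l₀ 0
  th := S.th
  st := Function.update S.st l₀ t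
  u := ustep S.u r x (1 / 2)

def Dat.dY (D : Dat X) (r : ℕ) : ℝ := 2 * D.e1 r / D.V r

def ES.tick (S : ES X) (r : ℕ) (D : Dat X) (l : ℕ) (lam : ℝ) : ES X where
  A := S.A
  pos := S.pos
  clk := Function.update S.clk l (S.clk l + D.dY r)
  b := Function.update S.b l (S.b l +
    (∑ y, D.ρ y * (hfun r (S.pos l) D.x - hfun r (S.pos l) y)) / ∑ y, D.μ y * chi r (S.pos l) y)
  th := Function.update S.th l (if S.clk l < 1 / 32 then (1 + lam) / 32 else S.th l)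
  st := S.st
  u := S.u

def PJ (r j : ℕ) : ℝ := ∑ j' ∈ range (j / 2 + 1), pj r j'

def ES.δj (S : ES X) (r : ℕ) (D : Dat X) (j : ℕ) : ℝ :=
  PJ r j * bm (fun y => S.θ r y ^ 2 * D.μ y) D.x (j / 2 : ℕ) / (2 * D.V r)

def ES.δ (S : ES X) (r : ℕ) (D : Dat X) : ℝ :=
  (range r).fold max 0 fun j : ℕ =>
    if bm S.u D.x (10 * r + j) < Real.exp (-3) * S.δj r D j then S.δj r D j else 0

def ES.bstep (S : ES X) (r : ℕ) (D : Dat X) : ES X :=
  { S with u := ustep S.u r D.x (S.δ r D) }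

def ES.Near (S : ES X) (r : ℕ) (x : X) (l : ℕ) : Prop := l ∈ S.A ∧ dist x (S.pos l) ≤ r / 4

def ES.Fire (S : ES X) (r : ℕ) (D : Dat X) (l : ℕ) (lam : ℝ) : Prop :=
  (S.tick r D l lam).th l ≤ (S.tick r D l lam).clk l

def ES.step (S : ES X) (r t : ℕ) (D : Dat X) (lam : ℝ) : ES X :=
  if D.Γ r ≤ 1 / 640 then
    if h : ∃ l, S.Near r D.x l then
      if S.Fire r D h.choose lam then S.rec' r D.x h.choose t else S.tick r D h.choose lam
    else S.rec' r D.x t t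
  else S.bstep r D

def ES.Trig (S : ES X) (r : ℕ) (D : Dat X) (lam : ℝ) : Prop :=
  D.Γ r ≤ 1 / 640 ∧ ∃ l, S.Near r D.x l ∧ S.Fire r D l lam

def erun [Nonempty X] (r : ℕ) (dat : ℕ → Dat X) (lam : ℕ → ℝ) : ℕ → ES X
  | 0 => ⟨∅, fun _ => Classical.arbitrary X, fun _ => 0, fun _ => 0, fun _ => 1 / 16, fun _ => 0,
      fun _ => 1 / Fintype.card X⟩
  | t + 1 => (erun r dat lam t).step r (t + 1) (dat (t + 1)) (lam (t + 1))

structure ES.Inv (S : ES X) (r : ℕ) (η : ℝ) : Prop where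
  sep : ∀ l ∈ S.A, ∀ l' ∈ S.A, l ≠ l' → 8 * (r : ℝ) < dist (S.pos l) (S.pos l')
  kraft : ∀ z, bm S.u z (12 * r) ≤ 1
  low : ∀ z, η ≤ S.u z
  clk_nonneg : ∀ l, 0 ≤ S.clk l
  clk_lt : ∀ l, S.clk l < S.th l
  b_le : ∀ l, |S.b l| ≤ S.clk l
  th_ge : ∀ l, 1 / 32 ≤ S.th l
  th_le : ∀ l, S.th l ≤ 1 / 16

/-- the thresholds read from a finite seed -/
def lamOf {Tm m : ℕ} (g : Fin (Tm + 1) → Fin (m + 1)) (t : ℕ) : ℝ :=
  if h : t < Tm + 1 then (g ⟨t, h⟩ : ℝ) / (m + 1) else 0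

end

end Crest.Agent.R314
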