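import Crest.Agent.R314.EmbInv

/-! Row 314: the one-scale embedding, effect of a change of the weights `u`. -/

set_option autoImplicit false

open Finset Crest.LogicCS.KServer

namespace Crest.Agent.R314

noncomputable section
open Classical

variable {X : Type} [Fintype X] [MetricSpace X] {S : ES X} {r k : ℕ} {η η₀ ε : ℝ} {D : Dat X}

theorem g1_bm_le (h : S.Inv r η) (hη : 0 < η) (y : X) {j : ℕ} (hj : j < r) :
    bm S.u y (10 * r + j) ≤ 1 := by
  have : (j : ℝ) ≤ r := by exact_mod_cast hj.le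
  exact (bm_mono (fun z => hη.le.trans (h.low z)) y (by linarith [j.cast_nonneg (α := ℝ)])).trans
    (h.kraft y)

theorem g1_u_le (h : S.Inv r η) (hη : 0 < η) (z : X) : S.u z ≤ 1 :=
  (single_le_sum (fun z _ => hη.le.trans (h.low z)) (by simp)).trans (h.kraft z)

theorem g1_flog_le (h : S.Inv r η) (hη : 0 < η) (x y : X) {δ : ℝ} (hδ : 0 ≤ δ)
    (hδ' : δ ≤ 1 / 2) (j : ℕ) : flog (ustep S.u r x δ) r y j ≤ flog S.u r y j + 2 * δ := by
  have h1 := hη.trans_le (h.bm_pos hη y (s := 10 * r + j) (by positivity))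
  have h2 : 0 < 1 - δ := by linarith
  have h3 := Real.log_le_log (mul_pos h2 h1)
    (bm_ustep_ge (r := r) (fun z => hη.le.trans (h.low z)) x y hδ (10 * r + j))
  rw [Real.log_mul h2.ne' h1.ne'] at h3
  have h4 := Real.one_sub_inv_le_log_of_pos h2
  have h5 : (1 - δ)⁻¹ ≤ 1 + 2 * δ := by
    rw [inv_le_iff_one_le_mul₀ h2]; nlinarith
  unfold flog; linarith

theorem g1_mem (u : X → ℝ) {x y : X} (δ : ℝ) {j : ℕ} (hj : j < r)
    (hx : dist x y ≤ 10 * r + j) :
    bm (ustep u r x δ) y (10 * r + j) = (1 - δ) * bm u y (10 * r + j) + δ := by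
  have : (j : ℝ) ≤ r := by exact_mod_cast hj.le
  exact bm_ustep_of_mem u δ hx (by linarith [j.cast_nonneg (α := ℝ)])

/-- One ball `B(y, 10 r + j)` with mass `U ≤ 1`. If it does not contain `x`, the ratio in `sel_ne`
is at most `δ` and `flog` grows by at most `-log (1 - δ) ≤ 2 δ`. If it contains `x`, the new mass
is `U (1 + z)`, `z = δ / U - δ ≥ 0`, the ratio is at most `(2 δ + z) / (1 + z) ≤ 2 δ + log (1 + z)`
and `flog` drops by `log (1 + z)`. -/
theorem sel_ne_ustep (h : S.Inv r η) (M : MH X η₀ ε) (h0 : 0 < η₀) (hη : η₀ ≤ η / 2) (x y : X)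
    {δ : ℝ} (hδ : 0 ≤ δ) (hδ' : δ ≤ 1 / 2) {j : ℕ} (hj : j < r) :
    ∑ ξ ∈ @univ M.Ξ M.fin, M.Q ξ *
        (if M.sel ξ (restr (ustep S.u r x δ) y (10 * r + j)) = M.sel ξ (restr S.u y (10 * r + j))
          then 0 else 1) + 2 * (flog (ustep S.u r x δ) r y j - flog S.u r y j) ≤
      5 * δ - (if dist x y ≤ 10 * r + j then flog S.u r y j - flog (ustep S.u r x δ) r y j else 0)
        + ε := by
  have hη0 : 0 < η := by linarith
  have hu : ∀ z, 0 ≤ S.u z := fun z => hη0.le.trans (h.low z)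
  have hu1 := g1_u_le h hη0
  have hU := h.bm_pos hη0 y (s := 10 * r + j) (by positivity)
  have hU1 := g1_bm_le h hη0 y hj
  have hU' := bm_ustep_ge (r := r) hu x y hδ (10 * r + j)
  have a1 : ∀ z, 0 ≤ ustep S.u r x δ z ∧ ustep S.u r x δ z ≤ 1 ∧
      |ustep S.u r x δ z - S.u z| ≤ δ * S.u z + if z = x then δ else 0 := fun z => by
    have b1 := hu z
    have b2 := hu1 z
    have b3 := mul_nonneg hδ b1
    have b4 := mul_le_mul_of_nonneg_right hδ' b1
    have b5 := mul_nonneg (show 0 ≤ 1 - δ by linarith) (sub_nonneg.2 b2)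
    rw [abs_le]
    unfold ustep
    by_cases hz : z = x
    · rw [if_pos hz, if_pos (by rw [hz, dist_self]; positivity)]
      refine ⟨?_, ?_, ?_, ?_⟩ <;> nlinarith
    · rw [if_neg hz]
      split_ifs <;> refine ⟨?_, ?_, ?_, ?_⟩ <;> nlinarith
  have a2 := M.sel_ne (restr (ustep S.u r x δ) y (10 * r + j)) (restr S.u y (10 * r + j))
    (fun z => by unfold restr; split_ifs; exacts [(a1 z).1, le_rfl])
    (fun z => by unfold restr; split_ifs; exacts [(a1 z).2.1, zero_le_one])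
    (by rw [sum_restr]; nlinarith)
    (fun z => by unfold restr; split_ifs; exacts [hu z, le_rfl])
    (fun z => by unfold restr; split_ifs; exacts [hu1 z, zero_le_one])
    (by rw [sum_restr]; linarith)
  have a3 : ∑ z, |restr (ustep S.u r x δ) y (10 * r + j) z - restr S.u y (10 * r + j) z| ≤
      δ * bm S.u y (10 * r + j) + if dist x y ≤ 10 * r + j then δ else 0 := by
    have e : (if dist x y ≤ 10 * r + j then δ else 0) =
        ∑ z, if z = x then (if dist z y ≤ 10 * r + j then δ else 0) else 0 := by simp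
    rw [← sum_restr, mul_sum, e, ← sum_add_distrib]
    refine sum_le_sum fun z _ => ?_
    unfold restr
    by_cases hz : dist z y ≤ 10 * r + j
    · simp only [if_pos hz]; exact (a1 z).2.2
    · simp [hz]
  have a4 := sum_le_sum fun z (_ : z ∈ univ) =>
    le_max_left (restr (ustep S.u r x δ) y (10 * r + j) z) (restr S.u y (10 * r + j) z)
  have a5 := sum_le_sum fun z (_ : z ∈ univ) =>
    le_max_right (restr (ustep S.u r x δ) y (10 * r + j) z) (restr S.u y (10 * r + j) z)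
  rw [sum_restr] at a4 a5
  have hU0 : 0 < bm S.u y (10 * r + j) := hη0.trans_le hU
  split_ifs at a3 ⊢ with hx
  · have e := g1_mem S.u δ hj hx
    have b1 : bm S.u y (10 * r + j) ≤ bm (ustep S.u r x δ) y (10 * r + j) := by nlinarith
    have b2 := hU0.trans_le b1
    have b3 := div_le_div₀ (by positivity) a3 b2 a4
    have b4 := Real.one_sub_inv_le_log_of_pos (div_pos b2 hU0)
    rw [Real.log_div b2.ne' hU0.ne', inv_div] at b4
    have b5 : (δ * bm S.u y (10 * r + j) + δ) / bm (ustep S.u r x δ) y (10 * r + j) ≤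
        2 * δ + (1 - bm S.u y (10 * r + j) / bm (ustep S.u r x δ) y (10 * r + j)) := by
      rw [one_sub_div b2.ne', add_div' _ _ _ b2.ne']
      refine div_le_div_of_nonneg_right ?_ b2.le
      nlinarith [mul_le_mul_of_nonneg_left b1 hδ]
    unfold flog
    linarith
  · have b3 := div_le_div₀ (by positivity) a3 hU0 a5
    rw [add_zero, mul_div_cancel_right₀ _ hU0.ne'] at b3
    linarith [g1_flog_le h hη0 x y hδ hδ' j]

theorem flog_ustep_le (h : S.Inv r η) (hη : 0 < η) (x y : X) {δ : ℝ} (hδ : 0 ≤ δ)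
    (hδ' : δ ≤ 1 / 2) (j : ℕ) : flog (ustep S.u r x δ) r y j ≤ flog S.u r y j + 2 * δ :=
  g1_flog_le h hη x y hδ hδ' j

theorem flog_ustep_le_of_mem (h : S.Inv r η) (hη : 0 < η) {x y : X} {δ : ℝ} (hδ : 0 ≤ δ)
    (hδ' : δ ≤ 1 / 2) {j : ℕ} (hj : j < r) (hx : dist x y ≤ 10 * r + j) :
    flog (ustep S.u r x δ) r y j ≤ flog S.u r y j := by
  have h1 := hη.trans_le (h.bm_pos hη y (s := 10 * r + j) (by positivity))
  refine neg_le_neg (Real.log_le_log h1 ?_)
  rw [g1_mem S.u δ hj hx]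
  nlinarith [g1_bm_le h hη y hj]

/-- One point. The centres do not change; if `y` is uncaptured for some `i` then `θ y = 1`
(use `sel_ne_ustep`), otherwise the label does not change. Beyond `35 r` nothing changes
(`restr_ustep_far`). -/
theorem pr_bstep (h : S.Inv r η) (M : MH X η₀ ε) (h0 : 0 < η₀) (hη : η₀ ≤ η / 2) (hε : 0 ≤ ε)
    (hr : 0 < r) (hD : D.OK k) (y : X) :
    M.pr r S (S.bstep r D) y y + ((S.bstep r D).Pi r y - S.Pi r y) ≤
      (if dist y D.x ≤ 35 * r then 5 * S.δ r D else 0) -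
        S.θ r y ^ 2 * ∑ j ∈ range r, pj r j * (if dist D.x y ≤ 10 * r + j then
          flog S.u r y j - flog (S.bstep r D).u r y j else 0) + ε := by
  have hr' : (0 : ℝ) < r := by exact_mod_cast hr
  have hδ := S.δ_nonneg r D
  let P : ℕ → ℝ := fun j => ∑ ξ ∈ @univ M.Ξ M.fin, M.Q ξ *
    (if M.sel ξ (restr (S.bstep r D).u y (10 * r + j)) = M.sel ξ (restr S.u y (10 * r + j))
      then 0 else 1)
  have hP : ∀ j, 0 ≤ P j := fun j =>
    sum_nonneg fun ξ _ => mul_nonneg (M.Q_nonneg ξ) (by split_ifs <;> norm_num)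
  have hcap : ∀ (i j : ℕ) sel, (∃ l ∈ S.A, dist y (S.pos l) ≤ r + i) →
      (S.bstep r D).lab r i j sel y = S.lab r i j sel y := fun i j sel hc => by
    unfold ES.lab
    rw [dif_pos hc, dif_pos (show ∃ l ∈ (S.bstep r D).A, dist y ((S.bstep r D).pos l) ≤ r + i
      from hc)]
    rfl
  have h1 : M.pr r S (S.bstep r D) y y ≤ S.θ r y ^ 2 * ∑ j ∈ range r, pj r j * P j := by
    by_cases hc : ∃ l ∈ S.A, dist y (S.pos l) ≤ r
    · have : ∀ (i j : ℕ) sel, (S.bstep r D).lab r i j sel y = S.lab r i j sel y := fun i j sel =>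
        hcap i j sel (hc.imp fun l hl => ⟨hl.1, hl.2.trans (by simp)⟩)
      simp only [MH.pr, this, if_true, mul_zero, sum_const_zero]
      exact mul_nonneg (sq_nonneg _) (sum_nonneg fun j _ => mul_nonneg (pj_nonneg r j) (hP j))
    · push Not at hc
      rw [ES.θ_eq_one hr fun l hl => by linarith [hc l hl], one_pow, one_mul]
      refine (sum_le_card_nsmul _ _ (1 / r * ∑ j ∈ range r, pj r j * P j) fun i _ => ?_).trans_eq
        (by rw [card_range, nsmul_eq_mul, ← mul_assoc, mul_one_div_cancel hr'.ne', one_mul])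
      rw [mul_sum]
      refine sum_le_sum fun j _ => ?_
      rw [mul_sum, mul_sum]
      refine sum_le_sum fun ξ _ => ?_
      rw [mul_assoc, mul_assoc]
      refine mul_le_mul_of_nonneg_left (mul_le_mul_of_nonneg_left
        (mul_le_mul_of_nonneg_left ?_ (M.Q_nonneg ξ)) (pj_nonneg r j)) (by positivity)
      by_cases hs : M.sel ξ (restr (S.bstep r D).u y (10 * r + j)) =
          M.sel ξ (restr S.u y (10 * r + j))
      · rw [if_pos hs, if_pos]
        by_cases hc' : ∃ l ∈ S.A, dist y (S.pos l) ≤ r + i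
        · exact hcap i j _ hc'
        · unfold ES.lab
          rw [dif_neg hc', dif_neg (show ¬∃ l ∈ (S.bstep r D).A,
            dist y ((S.bstep r D).pos l) ≤ r + i from hc'), hs]
      · rw [if_neg hs]
        split_ifs <;> norm_num
  have h2 : ∀ j ∈ range r, P j + 2 * (flog (S.bstep r D).u r y j - flog S.u r y j) +
      (if dist D.x y ≤ 10 * r + j then flog S.u r y j - flog (S.bstep r D).u r y j else 0) ≤
        (if dist y D.x ≤ 35 * r then 5 * S.δ r D else 0) + ε := by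
    intro j hj
    rw [mem_range] at hj
    by_cases hy : dist y D.x ≤ 35 * r
    · have := sel_ne_ustep h M h0 hη D.x y hδ (S.δ_le hr hD) hj
      rw [if_pos hy]
      exact le_sub_iff_add_le.1 (this.trans_eq (sub_add_eq_add_sub _ _ _))
    · have hj' : (j : ℝ) ≤ r := by exact_mod_cast hj.le
      have e : restr (S.bstep r D).u y (10 * r + j) = restr S.u y (10 * r + j) :=
        restr_ustep_far S.u _ (by linarith [not_le.1 hy])
      have e' : flog (S.bstep r D).u r y j = flog S.u r y j := by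
        rw [flog, flog, ← sum_restr, ← sum_restr, e]
      simp [P, e, e', hy, hε]
  have h3 := sum_le_sum fun j hj => mul_le_mul_of_nonneg_left (h2 j hj) (pj_nonneg r j)
  rw [← sum_mul, sum_pj_self hr, one_mul] at h3
  have h4 : (S.bstep r D).Pi r y - S.Pi r y = S.θ r y ^ 2 *
      ∑ j ∈ range r, pj r j * (2 * (flog (S.bstep r D).u r y j - flog S.u r y j)) := by
    have e1 : (S.bstep r D).θ r y = S.θ r y := rfl
    have e2 : (S.bstep r D).ψ r y = S.ψ r y := rfl
    simp only [ES.Pi, e1, e2, φ, mul_left_comm _ (2 : ℝ), mul_sub, sum_sub_distrib, ← mul_sum]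
    ring
  have h5 := mul_le_mul_of_nonneg_left h3 (sq_nonneg (S.θ r y))
  have h6 : S.θ r y ^ 2 * ((if dist y D.x ≤ 35 * r then 5 * S.δ r D else 0) + ε) ≤
      (if dist y D.x ≤ 35 * r then 5 * S.δ r D else 0) + ε :=
    mul_le_of_le_one_left (by positivity) (pow_le_one₀ (S.θ_nonneg r y) (S.θ_le_one r y))
  simp only [mul_add, sum_add_distrib] at h5 h6
  linarith

/-- If `δ > 0` it equals `δj j₀` for a violated `j₀`; let `s = j₀ / 2`. For `dist y x ≤ s` and
`j ≤ s` the ball `B(y, 10 r + j)` contains `x` and lies in `B(x, 10 r + j₀)`, so `flog` drops by at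
least `log (1 - δ + e ^ 3) ≥ 3`: the gain is at least `3 * PJ * ∑_{B(x,s)} θ² μm`. The loss is
`5 δ V = 2.5 * PJ * ∑_{B(x,s)} θ² μ`, and `∑_{B(x,s)} θ² μ ≤ ∑_{B(x,s)} θ² μm + ρ{dist > s} + 8 e1`
(`sum_μ_mul`, `θ_le_add`), `PJ ≤ 1`, `PJ * ρ{dist > s} ≤ 2 e1` because `PJ ≤ (s+1)/r` and
`dist > s` gives `min 1 (dist / r) ≥ (s+1)/(2r)` (distances are `0` or at least `1`). -/
theorem bstep_change (hX : ∀ a b : X, a ≠ b → 1 ≤ dist a b) (h : S.Inv r η) (M : MH X η₀ ε)
    (h0 : 0 < η₀) (hη : η₀ ≤ η / 2) (hε : 0 ≤ ε) (hr : 16 ≤ r) (hD : D.OK k) :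
    ∑ y, D.μm y * M.pr r S (S.bstep r D) y y +
      ∑ y, D.μm y * ((S.bstep r D).Pi r y - S.Pi r y) ≤ 25 * D.e1 r + k * ε := by
  have hr0 : 0 < r := by omega
  have hr' : (0 : ℝ) < r := by exact_mod_cast hr0
  have hη0 : 0 < η := by linarith
  have hδ := S.δ_nonneg r D
  have hδ' := S.δ_le hr0 hD
  have he := hD.e1_nonneg r
  let g : X → ℕ → ℝ := fun y j => if dist D.x y ≤ 10 * r + j then
    flog S.u r y j - flog (S.bstep r D).u r y j else 0
  have hg : ∀ y, ∀ j ∈ range r, 0 ≤ pj r j * g y j := fun y j hj => by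
    refine mul_nonneg (pj_nonneg r j) ?_
    simp only [g]
    split_ifs with hx
    · exact sub_nonneg.2 (flog_ustep_le_of_mem h hη0 hδ hδ' (mem_range.1 hj) hx)
    · exact le_rfl
  have h1 := sum_le_sum fun y (_ : y ∈ univ) =>
    mul_le_mul_of_nonneg_left (pr_bstep h M h0 hη hε hr0 hD y) (hD.μm_nonneg y)
  have h2 : ∑ y, D.μm y * (if dist y D.x ≤ 35 * r then 5 * S.δ r D else 0) ≤
      5 * (S.δ r D * D.V r) := by
    have := (hD.bm_μm_le (s := 35 * r) (by positivity)).trans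
      (bm_mono hD.μ_nonneg D.x (s' := 40 * r) (by linarith))
    simp only [mul_ite, mul_zero, ← sum_filter, ← sum_mul]
    exact (mul_le_mul_of_nonneg_right this (by positivity)).trans_eq (by rw [Dat.V]; ring)
  simp only [mul_add, mul_sub (D.μm _) (ite _ _ _), sum_add_distrib, sum_sub_distrib, ← sum_mul,
    hD.sum_μm] at h1
  suffices h3 : 5 * (S.δ r D * D.V r) ≤
      ∑ y, D.μm y * (S.θ r y ^ 2 * ∑ j ∈ range r, pj r j * g y j) + 25 * D.e1 r by linarith
  rcases (le_fold_max (S.δ r D)).1 (le_refl (S.δ r D)) with h3 | ⟨j₀, hj₀, h3⟩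
  · have := sum_nonneg fun y (_ : y ∈ univ) => mul_nonneg (hD.μm_nonneg y)
      (mul_nonneg (sq_nonneg (S.θ r y)) (sum_nonneg (hg y)))
    rw [le_antisymm h3 hδ]
    linarith
  have h4 := (le_fold_max _).2 (Or.inr ⟨j₀, hj₀, le_rfl⟩ : _ ≤ (0 : ℝ) ∨ ∃ j ∈ range r, _ ≤
    if bm S.u D.x (10 * r + j) < Real.exp (-3) * S.δj r D j then S.δj r D j else 0)
  change _ ≤ S.δ r D at h4
  split_ifs at h3 h4 with hv
  swap
  · have := sum_nonneg fun y (_ : y ∈ univ) => mul_nonneg (hD.μm_nonneg y)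
      (mul_nonneg (sq_nonneg (S.θ r y)) (sum_nonneg (hg y)))
    rw [le_antisymm h3 hδ]
    linarith
  rw [← le_antisymm h3 h4] at hv
  rw [mem_range] at hj₀
  have hs : j₀ / 2 + 1 ≤ r := by omega
  have hs' : ((j₀ / 2 : ℕ) : ℝ) + 1 ≤ r := by exact_mod_cast hs
  have hs2 : 2 * ((j₀ / 2 : ℕ) : ℝ) ≤ j₀ := by exact_mod_cast Nat.mul_div_le j₀ 2
  have hP0 : 0 ≤ PJ r j₀ := sum_nonneg fun j _ => pj_nonneg r j
  have hP : PJ r j₀ ≤ (((j₀ / 2 : ℕ) : ℝ) + 1) / r := by
    rw [PJ, sum_pj, Nat.cast_succ, mul_div_mul_comm]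
    exact mul_le_of_le_one_right (by positivity) ((div_le_one (by positivity)).2 (by linarith))
  have hP1 : PJ r j₀ ≤ 1 := hP.trans ((div_le_one hr').2 hs')
  let f : X → ℝ := fun y => if dist y D.x ≤ (j₀ / 2 : ℕ) then S.θ r y ^ 2 else 0
  have a1 : ∀ y, 3 * (PJ r j₀ * f y) ≤ S.θ r y ^ 2 * ∑ j ∈ range r, pj r j * g y j := by
    intro y
    simp only [f]
    split_ifs with hy
    swap
    · simpa using mul_nonneg (sq_nonneg (S.θ r y)) (sum_nonneg (hg y))
    rw [← mul_assoc, mul_comm]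
    refine mul_le_mul_of_nonneg_left (le_trans ?_ (sum_le_sum_of_subset_of_nonneg
      (range_subset_range.2 hs) fun j hj _ => hg y j hj)) (sq_nonneg _)
    rw [PJ, mul_sum]
    refine sum_le_sum fun j hj => ?_
    rw [mul_comm]
    refine mul_le_mul_of_nonneg_left ?_ (pj_nonneg r j)
    have hj' : (j : ℝ) ≤ (j₀ / 2 : ℕ) := by exact_mod_cast mem_range_succ_iff.1 hj
    have hx : dist D.x y ≤ 10 * r + j := by
      rw [dist_comm]; linarith [j.cast_nonneg (α := ℝ)]
    have hU0 := hη0.trans_le (h.bm_pos hη0 y (s := 10 * r + j) (by positivity))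
    have hU := (bm_le_of_dist (fun z => hη0.le.trans (h.low z)) (x := y) (x' := D.x)
      (s := 10 * r + j) (s' := 10 * r + j₀) (by linarith)).trans hv.le
    have e : bm (S.bstep r D).u y (10 * r + j) = _ :=
      g1_mem S.u (S.δ r D) (by rw [mem_range] at hj; omega) hx
    have b1 : bm S.u y (10 * r + j) ≤ Real.exp (-3) * bm (S.bstep r D).u y (10 * r + j) := by
      refine hU.trans (mul_le_mul_of_nonneg_left ?_ (Real.exp_pos _).le)
      nlinarith
    have b2 := Real.log_le_log hU0 b1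
    rw [Real.log_mul (Real.exp_pos _).ne' (pos_of_mul_pos_right (hU0.trans_le b1) (Real.exp_pos _).le).ne',
      Real.log_exp] at b2
    simp only [g, if_pos hx, flog]
    linarith
  have a2 : ∀ y, PJ r j₀ * (f D.x - f y) ≤ 8 * min 1 (dist y D.x / r) := by
    intro y
    have t0 := S.θ_nonneg r D.x
    have t1 := S.θ_le_one r D.x
    have hd : 0 ≤ dist y D.x / r := by positivity
    simp only [f]
    rw [if_pos (by rw [dist_self]; positivity), mul_min_of_nonneg _ _ (by norm_num), le_min_iff]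
    split_ifs with hy
    · have t2 := S.θ_nonneg r y
      have t3 := S.θ_le_one r y
      have t4 := S.θ_le_add r D.x y
      rw [dist_comm] at t4
      have t5 : S.θ r D.x ^ 2 - S.θ r y ^ 2 ≤ 8 * (dist y D.x / r) := by nlinarith
      have t6 : S.θ r D.x ^ 2 - S.θ r y ^ 2 ≤ 1 := by nlinarith
      constructor <;> nlinarith
    · have t2 : PJ r j₀ * (S.θ r D.x ^ 2 - 0) ≤ PJ r j₀ :=
        mul_le_of_le_one_right hP0 (by nlinarith)
      have t3 := hX y D.x fun e => hy (by rw [e, dist_self]; positivity)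
      have t4 : (((j₀ / 2 : ℕ) : ℝ) + 1) / r ≤ 2 * (dist y D.x / r) := by
        rw [← mul_div_assoc]
        exact div_le_div_of_nonneg_right (by linarith [not_le.1 hy]) hr'.le
      constructor <;> linarith
  have a3 : S.δ r D * D.V r = PJ r j₀ * (∑ y, D.μ y * f y) / 2 := by
    have := hD.one_le_V r
    rw [le_antisymm h3 h4, ES.δj, bm, sum_filter]
    simp only [f, ite_mul, zero_mul, mul_comm (D.μ _)]
    field_simp
  have a4 := sum_le_sum fun y (_ : y ∈ univ) => mul_le_mul_of_nonneg_left (a1 y) (hD.μm_nonneg y)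
  have a5 := sum_le_sum fun y (_ : y ∈ univ) => mul_le_mul_of_nonneg_left (a2 y) (hD.ρ_nonneg y)
  have a6 : 0 ≤ PJ r j₀ * ∑ y, D.μm y * f y := mul_nonneg hP0 (sum_nonneg fun y _ =>
    mul_nonneg (hD.μm_nonneg y) (by simp only [f]; positivity))
  simp only [mul_left_comm (D.μm _) 3, mul_left_comm (D.μm _) (PJ r j₀), mul_left_comm (D.ρ _) 8,
    mul_left_comm (D.ρ _) (PJ r j₀), ← mul_sum] at a4 a5
  rw [a3, hD.sum_μ_mul, mul_add]
  unfold Dat.e1 at he ⊢
  linarith

end

end Crest.Agent.R314
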