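import Crest.Agent.R314.EmbInv

/-! Row 314: the one-scale embedding, the weights near the request after a step. -/

set_option autoImplicit false

open Finset Crest.LogicCS.KServer

namespace Crest.Agent.R314

noncomputable section
open Classical

variable {X : Type} [Fintype X] [MetricSpace X] {S : ES X} {r k : ℕ} {η : ℝ} {D : Dat X}

/-- a violated `j` has `δj ≤ δ ≤` new mass; otherwise the mass does not decrease
(`bm_ustep_of_mem`, `kraft`) -/
theorem bm_bstep_ge (h : S.Inv r η) (hη : 0 < η) (hD : D.OK k) {j : ℕ} (hj : j < r) :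
    Real.exp (-3) * S.δj r D j ≤ bm (S.bstep r D).u D.x (10 * r + j) := by
  have hr : 0 < r := by omega
  have hj' : (j : ℝ) ≤ r := by exact_mod_cast hj.le
  have hr0 : (0 : ℝ) ≤ r := r.cast_nonneg
  have hj0 : (0 : ℝ) ≤ j := j.cast_nonneg
  have hu : ∀ z, 0 ≤ S.u z := fun z => hη.le.trans (h.low z)
  have e : bm (S.bstep r D).u D.x (10 * r + j) =
      (1 - S.δ r D) * bm S.u D.x (10 * r + j) + S.δ r D :=
    bm_ustep_of_mem S.u _ (by rw [dist_self]; positivity) (by linarith)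
  have b0 := bm_nonneg hu D.x (10 * r + j)
  have b1 : bm S.u D.x (10 * r + j) ≤ 1 := (bm_mono hu D.x (by linarith)).trans (h.kraft D.x)
  have d0 := S.δ_nonneg r D
  have d1 := S.δ_le hr hD
  rw [e]
  by_cases hv : bm S.u D.x (10 * r + j) < Real.exp (-3) * S.δj r D j
  · have h1 : S.δj r D j ≤ S.δ r D :=
      (le_fold_max _).2 (Or.inr ⟨j, mem_range.2 hj, by rw [if_pos hv]⟩)
    have h2 : 0 < S.δj r D j := (mul_pos_iff_of_pos_left (Real.exp_pos _)).1 (b0.trans_lt hv)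
    have h3 : Real.exp (-3) ≤ 1 := Real.exp_le_one_iff.2 (by norm_num)
    nlinarith
  · rw [not_lt] at hv
    nlinarith

/-- `1 / PJ ≤ 8 (r / (j+1))²` and `r ^ r / r ! ≤ exp r` (`Real.pow_div_factorial_le_exp`) -/
theorem sum_log_PJ_le {r : ℕ} (hr : 0 < r) :
    ∑ j ∈ range r, -Real.log (PJ r j) ≤ 4.1 * r := by
  have hr' : (1 : ℝ) ≤ r := by exact_mod_cast hr
  have h1 : ∀ j ∈ range r, -Real.log (PJ r j) ≤ Real.log 8 + 2 * Real.log (r / (j + 1)) := by
    intro j _
    have hm : (j : ℝ) + 1 ≤ 2 * ((j / 2 + 1 : ℕ) : ℝ) := by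
      exact_mod_cast (show j + 1 ≤ 2 * (j / 2 + 1) by omega)
    have hj : (0 : ℝ) < j + 1 := by positivity
    rw [PJ, sum_pj]
    generalize ((j / 2 + 1 : ℕ) : ℝ) = m at hm
    have hm0 : 0 < m := by linarith
    have e : Real.log 8 + 2 * Real.log (r / (j + 1)) = Real.log (8 * (r / (j + 1)) ^ 2) := by
      rw [Real.log_mul (by norm_num) (by positivity), Real.log_pow]
      norm_num
    rw [e, ← Real.log_inv]
    refine Real.log_le_log (by positivity) ?_
    rw [inv_div, div_pow, ← mul_div_assoc, div_le_div_iff₀ (by positivity) (by positivity)]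
    have a1 : ((j : ℝ) + 1) ^ 2 ≤ (2 * m) ^ 2 := by gcongr
    have a2 : (r : ℝ) * (r + 1) ≤ 2 * r ^ 2 := by nlinarith
    calc (r : ℝ) * (r + 1) * (j + 1) ^ 2 ≤ 2 * r ^ 2 * (2 * m) ^ 2 := by gcongr
      _ = 8 * r ^ 2 * (m * m) := by ring
      _ ≤ _ := by gcongr; linarith
  have h2 : ∑ j ∈ range r, Real.log (r / ((j : ℝ) + 1)) ≤ r := by
    rw [← Real.log_prod (fun j _ => by positivity), prod_div_distrib, prod_const, card_range,
      Real.log_le_iff_le_exp (by positivity)]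
    have e : ∏ j ∈ range r, ((j : ℝ) + 1) = (r.factorial : ℝ) := by
      rw [← prod_range_add_one_eq_factorial]
      push_cast
      rfl
    rw [e]
    exact Real.pow_div_factorial_le_exp _ r.cast_nonneg r
  have h3 : Real.log 8 ≤ 2.1 := by
    rw [show (8 : ℝ) = 2 ^ 3 by norm_num, Real.log_pow]
    have := Real.log_two_lt_d9
    push_cast
    linarith
  refine (sum_le_sum h1).trans ?_
  rw [sum_add_distrib, sum_const, card_range, nsmul_eq_mul, ← mul_sum]
  nlinarith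

theorem embG2_sum_half (g : ℕ → ℝ) (n : ℕ) :
    ∑ j ∈ range (2 * n), g (j / 2) = 2 * ∑ i ∈ range n, g i := by
  induction n with
  | zero => simp
  | succ n ih =>
    rw [show 2 * (n + 1) = 2 * n + 1 + 1 by ring, sum_range_succ, sum_range_succ, ih,
      sum_range_succ, show (2 * n + 1) / 2 = n by omega, show 2 * n / 2 = n by omega]
    ring

theorem Dat.OK.sum_log_half_le (hD : D.OK k) (hr : 0 < r) :
    ∑ j ∈ range r, Real.log (D.V r / bm D.μ D.x (j / 2 : ℕ)) ≤ 2 * D.Γ r * r := by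
  have hr' : (r : ℝ) ≠ 0 := by exact_mod_cast hr.ne'
  rw [Dat.Γ, mul_assoc, div_mul_cancel₀ _ hr',
    ← embG2_sum_half (fun i : ℕ => Real.log (D.V r / bm D.μ D.x i)) r]
  exact sum_le_sum_of_subset_of_nonneg (range_subset_range.2 (by omega))
    fun j hj _ => hD.gamma_log_nonneg (by have := mem_range.1 hj; omega)

/-- with `θ = θ x > 0`, `s₀ = ⌊θ r / 8⌋₊`: on `B(x, min s s₀)` one has `θ y ≥ θ / 2`, and
`log (V / a (min s s₀)) ≤ log (V / a s) + log (V / a s₀)`, `log (V / a s₀) ≤ 8 Γ / θ`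
(`log_le_Γ`) -/
theorem log_V_div_le (S : ES X) (hD : D.OK k) (hr : 0 < r) (hθ : 0 < S.θ r D.x) {s : ℕ}
    (hs : s < r) :
    0 < bm (fun y => S.θ r y ^ 2 * D.μ y) D.x s ∧
    Real.log (D.V r / bm (fun y => S.θ r y ^ 2 * D.μ y) D.x s) ≤
      Real.log (4 / S.θ r D.x ^ 2) + Real.log (D.V r / bm D.μ D.x s) +
        8 * D.Γ r / S.θ r D.x := by
  have hr' : (0 : ℝ) < r := by exact_mod_cast hr
  have hθ1 := S.θ_le_one r D.x
  set θ := S.θ r D.x with hθdef
  set s₀ := ⌊θ * r / 8⌋₊ with hs₀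
  have f1 : (s₀ : ℝ) ≤ θ * r / 8 := Nat.floor_le (by positivity)
  have f2 : θ * r / 8 < s₀ + 1 := Nat.lt_floor_add_one _
  have f3 : s₀ < r := by
    have : (s₀ : ℝ) < r := by nlinarith
    exact_mod_cast this
  obtain ⟨m, hm1, hm2, hm3⟩ : ∃ m : ℕ, m ≤ s ∧ m ≤ s₀ ∧ (m = s ∨ m = s₀) :=
    ⟨min s s₀, min_le_left _ _, min_le_right _ _, min_choice _ _⟩
  have hm2' : (m : ℝ) ≤ s₀ := by exact_mod_cast hm2
  have a1 := hD.one_le_bm (s := m) m.cast_nonneg
  have hV := hD.one_le_V r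
  have g1 : θ ^ 2 / 4 * bm D.μ D.x m ≤ bm (fun y => S.θ r y ^ 2 * D.μ y) D.x s := by
    refine le_trans ?_ (bm_mono (fun y => mul_nonneg (sq_nonneg _) (hD.μ_nonneg y)) D.x
      (show (m : ℝ) ≤ s by exact_mod_cast hm1))
    unfold bm
    rw [mul_sum]
    refine sum_le_sum fun y hy => mul_le_mul_of_nonneg_right ?_ (hD.μ_nonneg y)
    have hy' : dist D.x y ≤ θ * r / 8 := by
      rw [dist_comm]
      linarith [(mem_filter.1 hy).2]
    have h1 := S.θ_le_add r D.x y
    have h2 : dist D.x y / r ≤ θ / 8 := by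
      rw [div_le_iff₀ hr']
      linarith
    have h3 : θ / 2 ≤ S.θ r y := by linarith
    calc θ ^ 2 / 4 = (θ / 2) ^ 2 := by ring
      _ ≤ _ := by gcongr
  have g0 : 0 < θ ^ 2 / 4 * bm D.μ D.x m := by positivity
  refine ⟨g0.trans_le g1, ?_⟩
  have g2 : Real.log (D.V r / bm (fun y => S.θ r y ^ 2 * D.μ y) D.x s) ≤
      Real.log (4 / θ ^ 2) + Real.log (D.V r / bm D.μ D.x m) := by
    rw [← Real.log_mul (by positivity) (by positivity)]
    refine Real.log_le_log (div_pos (by linarith) (g0.trans_le g1)) ?_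
    calc _ ≤ D.V r / (θ ^ 2 / 4 * bm D.μ D.x m) := by gcongr
      _ = _ := by field_simp
  have g3 := hD.gamma_log_nonneg hs
  have g4 := hD.gamma_log_nonneg f3
  have g5 : Real.log (D.V r / bm D.μ D.x s₀) ≤ 8 * D.Γ r / θ := by
    have h1 := hD.log_le_Γ f3
    have h2 : θ / 8 ≤ ((s₀ : ℝ) + 1) / r := by
      rw [le_div_iff₀ hr']
      linarith
    have h3 := mul_le_mul_of_nonneg_right h2 g4
    rw [le_div_iff₀ hθ]
    linarith
  rcases hm3 with rfl | rfl <;> linarith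

/-- `flog ≤ 3 + log 2 - log PJ + log (V / ∑ θ² μ)`, `θ * log (4 / θ²) ≤ 3.4` -/
theorem θ_mul_avgf_le (h : S.Inv r η) (hη : 0 < η) (hr : 0 < r) (hD : D.OK k) :
    S.θ r D.x * avgf (S.bstep r D).u r D.x ≤ 12 + 10 * D.Γ r := by
  have hΓ := hD.Γ_nonneg r
  rcases (S.θ_nonneg r D.x).eq_or_lt with h0 | hθ
  · rw [← h0, zero_mul]
    linarith
  have hr' : (0 : ℝ) < r := by exact_mod_cast hr
  have hθ1 := S.θ_le_one r D.x
  have hV := hD.one_le_V r
  have h1 : ∀ j ∈ range r, flog (S.bstep r D).u r D.x j ≤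
      (3 + Real.log 2 + Real.log (4 / S.θ r D.x ^ 2) + 8 * D.Γ r / S.θ r D.x) +
        (-Real.log (PJ r j) + Real.log (D.V r / bm D.μ D.x (j / 2 : ℕ))) := by
    intro j hj
    have hj' := mem_range.1 hj
    obtain ⟨a1, a2⟩ := log_V_div_le S hD hr hθ (s := j / 2) (by omega)
    have a3 : 0 < PJ r j := by
      rw [PJ, sum_pj]
      positivity
    have a4 := bm_bstep_ge h hη hD hj'
    have a5 : 0 < S.δj r D j := by
      unfold ES.δj
      positivity
    have a6 := Real.log_le_log (by positivity) a4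
    rw [Real.log_mul (by positivity) a5.ne', Real.log_exp, ES.δj,
      Real.log_div (by positivity) (by positivity), Real.log_mul a3.ne' a1.ne',
      Real.log_mul (by norm_num) (by positivity)] at a6
    rw [Real.log_div (by positivity) a1.ne'] at a2
    unfold flog
    linarith
  have h2 := sum_le_sum h1
  rw [sum_add_distrib, sum_const, card_range, nsmul_eq_mul, sum_add_distrib] at h2
  have h3 := sum_log_PJ_le hr
  have h4 := hD.sum_log_half_le hr
  have h5 : avgf (S.bstep r D).u r D.x ≤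
      3 + Real.log 2 + Real.log (4 / S.θ r D.x ^ 2) + 8 * D.Γ r / S.θ r D.x + 4.1 + 2 * D.Γ r := by
    rw [avgf, div_le_iff₀ hr']
    linarith
  have h6 : S.θ r D.x * Real.log (4 / S.θ r D.x ^ 2) ≤ 4 := by
    have e : 4 / S.θ r D.x ^ 2 = (2 / S.θ r D.x) ^ 2 := by ring
    have b1 := Real.log_le_sub_one_of_pos (show 0 < 2 / S.θ r D.x by positivity)
    have b2 := mul_le_mul_of_nonneg_left b1 hθ.le
    rw [mul_sub, mul_div_cancel₀ _ hθ.ne'] at b2
    rw [e, Real.log_pow]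
    push_cast
    linarith
  have h7 : S.θ r D.x * (8 * D.Γ r / S.θ r D.x) = 8 * D.Γ r := mul_div_cancel₀ _ hθ.ne'
  have h8 := mul_le_mul_of_nonneg_left h5 hθ.le
  have h9 := Real.log_two_lt_d9
  have h10 : S.θ r D.x * D.Γ r ≤ D.Γ r := mul_le_of_le_one_left hΓ hθ1
  have h11 : S.θ r D.x * Real.log 2 ≤ 0.7 := by
    have := Real.log_pos (show (1 : ℝ) < 2 by norm_num)
    nlinarith
  nlinarith

end

end Crest.Agent.R314
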