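import Crest.Agent.R314.EmbG1
import Crest.Agent.R314.EmbG2

/-! Row 314: the one-scale embedding, cost of a step with large growth. -/

set_option autoImplicit false

open Finset Crest.LogicCS.KServer

namespace Crest.Agent.R314

noncomputable section
open Classical

variable {X : Type} [Fintype X] [MetricSpace X] {S : ES X} {r k : ℕ} {η η₀ ε : ℝ} {D : Dat X}

theorem φ_le_avgf (h : S.Inv r η) (hη : 0 < η) (x : X) : φ S.u r x ≤ 2 * avgf S.u r x := by
  rw [φ, avgf, sum_div, mul_sum]
  refine sum_le_sum fun j hj => ?_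
  have hj' := mem_range.1 hj
  rw [← mul_div_assoc, mul_div_right_comm]
  exact mul_le_mul_of_nonneg_right (pj_le hj') (h.flog_nonneg hη x (by omega))

theorem embg3_shift (F : ℕ → ℝ) (r n : ℕ) :
    ∑ j ∈ range r, (if j + n < r then F j else 0) =
      ∑ m ∈ range r, if n ≤ m then F (m - n) else 0 := by
  rw [← sum_filter, ← sum_filter]
  refine sum_nbij' (fun j => j + n) (fun m => m - n) ?_ ?_ ?_ ?_ ?_ <;>
    simp only [mem_filter, mem_range] <;> intro a ha
  · omega
  · omega
  · omega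
  · omega
  · rw [Nat.add_sub_cancel]

omit [Fintype X] in
theorem embg3_ceil (hX : ∀ a b : X, a ≠ b → 1 ≤ dist a b) (x y : X) :
    ∃ n : ℕ, dist y x ≤ n ∧ (n : ℝ) ≤ 2 * dist y x ∧ ∀ r : ℕ, dist y x ≤ r → n ≤ r := by
  refine ⟨⌈dist y x⌉₊, Nat.le_ceil _, ?_, fun r hr => Nat.ceil_le.2 hr⟩
  by_cases e : y = x
  · simp [e]
  · linarith [Nat.ceil_lt_add_one (dist_nonneg (x := y) (y := x)), hX y x e]

theorem embg3_coef {r : ℕ} {a b : ℝ} (ha : 0 ≤ b) (h : a ≤ b) :
    a / (r * (r + 1)) ≤ b / r / r := by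
  rcases Nat.eq_zero_or_pos r with rfl | hr
  · simp
  have hr' : (0 : ℝ) < r := by exact_mod_cast hr
  rw [div_div]
  gcongr
  linarith

/-- with `n = ⌈dist y x⌉₊ ≤ 2 * dist y x`: `flog y j ≥ flog x (j + n)` if `j + n < r`, and `≥ 0`
always; `pj j - pj (j - n) ≤ 2 n / r²` -/
theorem φ_sub_le (hX : ∀ a b : X, a ≠ b → 1 ≤ dist a b) (h : S.Inv r η) (hη : 0 < η) (x y : X) :
    φ S.u r x - φ S.u r y ≤ 4 * (dist y x / r) * avgf S.u r x := by
  obtain ⟨n, hn, hn2, -⟩ := embg3_ceil hX x y
  have hu : ∀ z, 0 ≤ S.u z := fun z => hη.le.trans (h.low z)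
  have h1 : ∑ j ∈ range r, (if j + n < r then pj r j * flog S.u r x (j + n) else 0) ≤ φ S.u r y := by
    refine sum_le_sum fun j hj => ?_
    have hj' := mem_range.1 hj
    split_ifs
    · refine mul_le_mul_of_nonneg_left (neg_le_neg (Real.log_le_log
        (hη.trans_le (h.bm_pos hη y (by positivity))) (bm_le_of_dist hu ?_))) (pj_nonneg r j)
      push_cast
      linarith
    · exact mul_nonneg (pj_nonneg r j) (h.flog_nonneg hη y (by omega))
  rw [embg3_shift (fun j => pj r j * flog S.u r x (j + n))] at h1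
  refine (sub_le_sub_left h1 _).trans ?_
  rw [φ, avgf, ← sum_sub_distrib, sum_div, mul_sum]
  refine sum_le_sum fun m hm => ?_
  have hm' := mem_range.1 hm
  have h2 := h.flog_nonneg hη x (j := m) (by omega)
  have e : 4 * (dist y x / r) * (flog S.u r x m / r) = 4 * dist y x / r / r * flog S.u r x m := by
    ring
  rw [e]
  split_ifs with h3
  · rw [Nat.sub_add_cancel h3, ← sub_mul, pj, pj, ← sub_div, Nat.cast_sub h3]
    exact mul_le_mul_of_nonneg_right (embg3_coef (by positivity) (by linarith)) h2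
  · have h4 : (m : ℝ) + 1 ≤ n := by exact_mod_cast not_le.1 h3
    rw [sub_zero, pj]
    exact mul_le_mul_of_nonneg_right (embg3_coef (by positivity) (by linarith)) h2

/-- `θx² φx - θy² φy ≤ (θx² - θy²)₊ φx + θx² * (bound of φ_sub_le)`, or `≤ θx² φx` if `y` is far -/
theorem pi_sub_le (hX : ∀ a b : X, a ≠ b → 1 ≤ dist a b) (h : S.Inv r η) (hη : 0 < η)
    (hr : 0 < r) (x y : X) :
    S.Pi r x - S.Pi r y ≤ (40 * (S.θ r x * avgf S.u r x) + 768) * min 1 (dist y x / r) := by
  have h1 := h.ψ_sub_le x y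
  have h2 := φ_le_avgf h hη x
  have h3 := φ_sub_le hX h hη x y
  have h4 := S.θ_le_add r x y
  rw [dist_comm x y] at h4
  have a0 := S.θ_nonneg r x
  have a1 := S.θ_le_one r x
  have b0 := S.θ_nonneg r y
  have p0 := h.φ_nonneg hη x
  have q0 := h.φ_nonneg hη y
  have A0 := h.avgf_nonneg hη x
  have t0 : 0 ≤ dist y x / r := by positivity
  rw [ES.Pi, ES.Pi]
  generalize S.θ r x = a at *
  generalize S.θ r y = b at *
  generalize φ S.u r x = p at *
  generalize φ S.u r y = q at *
  generalize avgf S.u r x = A at *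
  generalize dist y x / r = t at *
  suffices h5 : a ^ 2 * p - b ^ 2 * q ≤ 20 * (a * A) * min 1 t by linarith
  have a2 : a ^ 2 ≤ a := by nlinarith
  have tA : 0 ≤ t * A := mul_nonneg t0 A0
  rcases le_total 1 t with ht | ht
  · rw [min_eq_left ht]
    have := mul_le_mul a2 h2 p0 a0
    nlinarith [mul_nonneg (sq_nonneg b) q0, mul_nonneg a0 A0]
  rw [min_eq_right ht]
  rcases le_total b a with hb | hb
  · have c1 : a ^ 2 - b ^ 2 ≤ 4 * t * (2 * a) := by nlinarith
    have c2 : (a ^ 2 - b ^ 2) * p ≤ 4 * t * (2 * a) * (2 * A) :=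
      mul_le_mul c1 h2 p0 (by positivity)
    have c3 : b ^ 2 * (p - q) ≤ b ^ 2 * (4 * t * A) := mul_le_mul_of_nonneg_left h3 (sq_nonneg b)
    have c4 : b ^ 2 * (4 * t * A) ≤ a * (4 * t * A) :=
      mul_le_mul_of_nonneg_right (by nlinarith) (by positivity)
    nlinarith
  · have c1 : a ^ 2 * q ≤ b ^ 2 * q := mul_le_mul_of_nonneg_right (by nlinarith) q0
    have c3 : a ^ 2 * (p - q) ≤ a ^ 2 * (4 * t * A) := mul_le_mul_of_nonneg_left h3 (sq_nonneg a)
    have c4 : a ^ 2 * (4 * t * A) ≤ a * (4 * t * A) :=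
      mul_le_mul_of_nonneg_right a2 (by positivity)
    nlinarith [mul_nonneg a0 tA]

/-- the ratio in `sel_ne` for the two balls is `1 - u(∩) / u(∪) ≤ log (u(∪) / u(∩))` -/
theorem sel_ne_sep (h : S.Inv r η) (M : MH X η₀ ε) (h0 : 0 < η₀) (hη : η₀ ≤ η) {x y : X}
    {n j : ℕ} (hn : dist y x ≤ n) (hnj : n ≤ j) (hj : j < r) :
    ∑ ξ ∈ @univ M.Ξ M.fin, M.Q ξ *
        (if M.sel ξ (restr S.u y (10 * r + j)) = M.sel ξ (restr S.u x (10 * r + j)) then 0 else 1) ≤
      flog S.u r x (j - n) - flog S.u r x (j + n) + ε := by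
  have hη0 : 0 < η := h0.trans_le hη
  have hu : ∀ z, 0 ≤ S.u z := fun z => hη0.le.trans (h.low z)
  have hu1 : ∀ z, S.u z ≤ 1 := fun z => le_trans (single_le_sum (f := S.u) (fun z _ => hu z)
    (mem_filter.2 ⟨mem_univ z, by rw [dist_self]; positivity⟩)) (h.kraft z)
  have r0 : ∀ (p : X) s z, 0 ≤ restr S.u p s z := fun p s z => by
    rw [restr]; split_ifs; exacts [hu z, le_rfl]
  have r1 : ∀ (p : X) s z, restr S.u p s z ≤ 1 := fun p s z => by
    rw [restr]; split_ifs; exacts [hu1 z, zero_le_one]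
  have r2 : ∀ p : X, η₀ ≤ ∑ z, restr S.u p (10 * r + j) z := fun p => by
    rw [sum_restr]; exact hη.trans (h.bm_pos hη0 p (by positivity))
  refine (M.sel_ne _ _ (r0 y _) (r1 y _) (r2 y) (r0 x _) (r1 x _) (r2 x)).trans (add_le_add_left ?_ _)
  set w := restr S.u y (10 * r + j) with hw
  set w' := restr S.u x (10 * r + j) with hw'
  have e1 : ∑ z, |w z - w' z| = ∑ z, max (w z) (w' z) - ∑ z, min (w z) (w' z) := by
    rw [← sum_sub_distrib]
    exact sum_congr rfl fun z _ => (max_sub_min_eq_abs' _ _).symm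
  have hL := h.bm_pos hη0 x (s := 10 * r + (j - n : ℕ)) (by positivity)
  have b1 : bm S.u x (10 * r + (j - n : ℕ)) ≤ ∑ z, min (w z) (w' z) := by
    rw [← sum_restr]
    refine sum_le_sum fun z _ => ?_
    rw [restr, Nat.cast_sub hnj]
    split_ifs with h1
    · have h2 := dist_triangle z x y
      rw [dist_comm x y] at h2
      have h3 : (0 : ℝ) ≤ n := n.cast_nonneg
      rw [hw, hw', restr, restr, if_pos (by linarith), if_pos (by linarith), min_self]
    · exact le_min (r0 _ _ _) (r0 _ _ _)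
  have b2 : ∑ z, max (w z) (w' z) ≤ bm S.u x (10 * r + (j + n : ℕ)) := by
    rw [← sum_restr]
    refine sum_le_sum fun z _ => ?_
    have h2 := dist_triangle z y x
    have h3 : (0 : ℝ) ≤ n := n.cast_nonneg
    refine max_le ?_ ?_
    · rw [hw, restr]
      split_ifs with h1
      · rw [restr, if_pos (by push_cast; linarith)]
      · exact r0 _ _ _
    · rw [hw', restr]
      split_ifs with h1
      · rw [restr, if_pos (by push_cast; linarith)]
      · exact r0 _ _ _
  have b3 : ∑ z, min (w z) (w' z) ≤ ∑ z, max (w z) (w' z) := sum_le_sum fun z _ => min_le_max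
  have c1 : 0 < ∑ z, min (w z) (w' z) := by linarith
  have c2 : 0 < ∑ z, max (w z) (w' z) := by linarith
  have d1 := Real.one_sub_inv_le_log_of_pos (div_pos c2 c1)
  rw [inv_div, Real.log_div c2.ne' c1.ne'] at d1
  rw [e1, sub_div, div_self c2.ne', flog, flog]
  linarith [Real.log_le_log (hη0.trans_le hL) b1, Real.log_le_log c2 b2]

theorem embg3_sum_sep (h : S.Inv r η) (hη : 0 < η) (x : X) {n : ℕ} (hn : n ≤ r) :
    ∑ j ∈ range r, (if n ≤ j then pj r j * (flog S.u r x (j - n) - flog S.u r x (j + n)) else 0) ≤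
      6 * n / r * avgf S.u r x := by
  have h1 := embg3_shift (fun m => pj r (m + n) * flog S.u r x m) r n
  have h2 := embg3_shift (fun j => if n ≤ j then pj r j * flog S.u r x (j + n) else 0) r n
  calc _ ≤ ∑ j ∈ range r, ((if n ≤ j then pj r (j - n + n) * flog S.u r x (j - n) else 0) -
        if j + n < r then if n ≤ j then pj r j * flog S.u r x (j + n) else 0 else 0) := by
        refine sum_le_sum fun j hj => ?_
        have hj' := mem_range.1 hj
        have := mul_nonneg (pj_nonneg r j) (h.flog_nonneg hη x (j := j + n) (by omega))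
        split_ifs with a1 a2
        · rw [Nat.sub_add_cancel a1, mul_sub]
        · rw [Nat.sub_add_cancel a1, mul_sub]
          linarith
        · simp
        · simp
    _ ≤ _ := by
        rw [sum_sub_distrib, ← h1, h2, ← sum_sub_distrib, avgf, sum_div, mul_sum]
        refine sum_le_sum fun m hm => ?_
        have hm' := mem_range.1 hm
        have h3 := h.flog_nonneg hη x (j := m) (by omega)
        have e : 6 * (n : ℝ) / r * (flog S.u r x m / r) = 6 * n / r / r * flog S.u r x m := by ring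
        have h4 : (if m + n < r then pj r (m + n) * flog S.u r x m else 0) ≤
            pj r (m + n) * flog S.u r x m := by
          split_ifs
          exacts [le_rfl, mul_nonneg (pj_nonneg _ _) h3]
        have h5 : (0 : ℝ) ≤ n := n.cast_nonneg
        rw [e]
        refine (sub_le_sub_right h4 _).trans ?_
        by_cases a1 : 2 * n ≤ m
        · rw [if_pos (by omega), if_pos (by omega), Nat.sub_add_cancel (by omega), ← sub_mul, pj, pj,
            ← sub_div, Nat.cast_sub (by omega), Nat.cast_add]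
          exact mul_le_mul_of_nonneg_right (embg3_coef (by positivity) (by linarith)) h3
        · have h6 : (m : ℝ) + 1 ≤ 2 * n := by exact_mod_cast not_le.1 a1
          have h7 : (if n ≤ m then if n ≤ m - n then pj r (m - n) * flog S.u r x (m - n + n) else 0
              else 0) = 0 := by
            split_ifs
            · omega
            · rfl
            · rfl
          rw [h7, sub_zero, pj, Nat.cast_add]
          exact mul_le_mul_of_nonneg_right (embg3_coef (by positivity) (by linarith)) h3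

theorem embg3_card {P P' : ℕ → Prop} [DecidablePred fun i => ¬(P i ↔ P' i)] (r n : ℕ)
    (h : ∀ i i', i + n ≤ i' → P i ∨ P' i → P i' ∧ P' i') :
    #{i ∈ range r | ¬(P i ↔ P' i)} ≤ n := by
  rcases ({i ∈ range r | ¬(P i ↔ P' i)}).eq_empty_or_nonempty with e | hne
  · rw [e]; exact Nat.zero_le _
  obtain ⟨i₀, h0, h1⟩ := exists_min_image _ id hne
  refine (card_le_card (t := Ico i₀ (i₀ + n)) fun i hi => mem_Ico.2 ⟨h1 i hi, ?_⟩).trans (by simp)
  by_contra h2
  have h3 := (mem_filter.1 h0).2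
  have h4 := (mem_filter.1 hi).2
  have h5 := h i₀ i (not_lt.1 h2) (by tauto)
  tauto

/-- Let `d = dist y x ∈ [1, r]`, `n = ⌈d⌉₊ ≤ 2 d`. At most `n` values of `i` capture exactly one of
`x, y` (compare the distances to the set of centres); if both are captured the labels agree
(`near_unique`); both uncaptured forces `θ x = 1`, and then `j < n` has probability `≤ 2 n / r`
while `∑ j ≥ n, pj j * (flog (j - n) - flog (j + n)) ≤ 6 n / r * avgf`. -/
theorem pr_sep_le (hX : ∀ a b : X, a ≠ b → 1 ≤ dist a b) (h : S.Inv r η) (M : MH X η₀ ε)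
    (h0 : 0 < η₀) (hη : η₀ ≤ η) (hε : 0 ≤ ε) (hr : 0 < r) (x y : X) :
    M.pr r S S x y ≤ (6 + 12 * (S.θ r x * avgf S.u r x)) * min 1 (dist y x / r) + ε := by
  have hη0 : 0 < η := h0.trans_le hη
  have hr' : (0 : ℝ) < r := by exact_mod_cast hr
  have hA := h.avgf_nonneg hη0 x
  have hθA := mul_nonneg (S.θ_nonneg r x) hA
  rcases le_total 1 (dist y x / r) with ht | ht
  · rw [min_eq_left ht]
    linarith [M.pr_le_one r S S x y]
  rw [min_eq_right ht]
  have hd : dist y x ≤ r := (div_le_one hr').1 ht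
  obtain ⟨n, hn, hn2, hn3⟩ := embg3_ceil hX x y
  have hnr := hn3 r hd
  have hnt : (n : ℝ) / r ≤ 2 * (dist y x / r) := by
    rw [← mul_div_assoc]
    gcongr
  have t0 : 0 ≤ dist y x / r := by positivity
  let cap : X → ℕ → Prop := fun z i => ∃ l ∈ S.A, dist z (S.pos l) ≤ r + i
  have hQ : ∀ (c : M.Ξ → Prop) [DecidablePred c], ∑ ξ ∈ @univ M.Ξ M.fin, M.Q ξ * (if c ξ then 0 else 1) ≤ 1 := by
    intro c _
    refine le_trans (sum_le_sum fun ξ _ => ?_) M.Q_sum.le
    split_ifs
    · rw [mul_zero]; exact M.Q_nonneg ξ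
    · rw [mul_one]
  set B := (4 + 12 * (S.θ r x * avgf S.u r x)) * (dist y x / r) + ε with hB
  have hB0 : 0 ≤ B := by positivity
  have key : ∀ i ∈ range r, ∑ j ∈ range r, pj r j * ∑ ξ ∈ @univ M.Ξ M.fin, M.Q ξ *
      (if S.lab r i j (M.sel ξ) y = S.lab r i j (M.sel ξ) x then 0 else 1) ≤
      (if ¬(cap x i ↔ cap y i) then 1 else 0) + B := by
    intro i hi
    have hi' := mem_range.1 hi
    have hi2 : (i : ℝ) ≤ r := by exact_mod_cast hi'.le
    split_ifs with hc
    swap
    · refine le_add_of_le_of_nonneg (le_trans (sum_le_sum fun j _ => ?_) (sum_pj_self hr).le) hB0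
      exact mul_le_of_le_one_right (pj_nonneg r j) (hQ _)
    rw [zero_add]
    by_cases hx : cap x i
    · obtain ⟨l, hl, hl'⟩ := hx
      obtain ⟨l', hk, hk'⟩ := hc.1 ⟨l, hl, hl'⟩
      have h1 := dist_triangle x y (S.pos l')
      rw [dist_comm x y] at h1
      obtain rfl : l = l' := h.near_unique hl hk (y := x) (by linarith) (by linarith)
      have h2 : ∀ j sel, S.lab r i j sel y = S.lab r i j sel x := fun j sel =>
        ((h.lab_eq_inr hi' j sel).2 ⟨hl, hk'⟩).trans ((h.lab_eq_inr hi' j sel).2 ⟨hl, hl'⟩).symm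
      simpa [h2] using hB0
    have hy : ¬cap y i := fun h => hx (hc.2 h)
    have hθ : S.θ r x = 1 := ES.θ_eq_one hr fun l hl => by
      by_contra h1
      exact hx ⟨l, hl, by linarith [not_le.1 h1, i.cast_nonneg (α := ℝ)]⟩
    calc _ ≤ ∑ j ∈ range r, ((if j < n then (2 / r : ℝ) else 0) +
          (if n ≤ j then pj r j * (flog S.u r x (j - n) - flog S.u r x (j + n)) else 0) +
          pj r j * ε) := by
          refine sum_le_sum fun j hj => ?_
          have hj' := mem_range.1 hj
          have hp := pj_nonneg r j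
          rcases lt_or_ge j n with a1 | a1
          · rw [if_pos a1, if_neg (not_le.2 a1), add_zero]
            exact le_add_of_le_of_nonneg ((mul_le_of_le_one_right hp (hQ _)).trans (pj_le hj'))
              (mul_nonneg hp hε)
          · rw [if_neg (not_lt.2 a1), if_pos a1, zero_add, ← mul_add]
            refine mul_le_mul_of_nonneg_left ?_ hp
            refine le_trans (le_of_eq (sum_congr rfl fun ξ _ => ?_)) (sel_ne_sep h M h0 hη hn a1 hj')
            have e1 : ∀ z, ¬cap z i → S.lab r i j (M.sel ξ) z =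
                Sum.inl (M.sel ξ (restr S.u z (10 * r + j))) := fun z hz => dif_neg hz
            simp only [e1 x hx, e1 y hy, Sum.inl.injEq]
      _ ≤ n * (2 / r) + 6 * n / r * avgf S.u r x + ε := by
          rw [sum_add_distrib, sum_add_distrib, ← sum_mul, sum_pj_self hr, one_mul]
          refine add_le_add_left (add_le_add ?_ (embg3_sum_sep h hη0 x hnr)) _
          rw [← sum_filter, sum_const, nsmul_eq_mul]
          refine mul_le_mul_of_nonneg_right ?_ (by positivity)
          exact_mod_cast (card_le_card fun j hj => mem_range.2 (mem_filter.1 hj).2).trans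
            (card_range n).le
      _ ≤ B := by
          have := mul_le_mul_of_nonneg_right hnt hA
          rw [hB, hθ, show (n : ℝ) * (2 / r) = 2 * (n / r) by ring,
            show 6 * (n : ℝ) / r = 6 * (n / r) by ring]
          linarith
  have hcard := embg3_card (P := cap x) (P' := cap y) r n fun i i' hi hc => by
    have hi' : (i : ℝ) + n ≤ i' := by exact_mod_cast hi
    have h3 : (0 : ℝ) ≤ n := n.cast_nonneg
    rcases hc with ⟨l, hl, hl'⟩ | ⟨l, hl, hl'⟩
    · exact ⟨⟨l, hl, by linarith⟩, l, hl, by linarith [dist_triangle y x (S.pos l)]⟩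
    · exact ⟨⟨l, hl, by linarith [dist_triangle x y (S.pos l), dist_comm x y]⟩, l, hl, by linarith⟩
  have hcard' : (#{i ∈ range r | ¬(cap x i ↔ cap y i)} : ℝ) ≤ n := by exact_mod_cast hcard
  have h2 := sum_le_sum key
  rw [sum_add_distrib, sum_boole, sum_const, card_range, nsmul_eq_mul] at h2
  have e : M.pr r S S x y = (∑ i ∈ range r, ∑ j ∈ range r, pj r j * ∑ ξ ∈ @univ M.Ξ M.fin, M.Q ξ *
      (if S.lab r i j (M.sel ξ) y = S.lab r i j (M.sel ξ) x then 0 else 1)) / r := by
    simp only [MH.pr, sum_div, mul_sum]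
    exact sum_congr rfl fun i _ => sum_congr rfl fun j _ => sum_congr rfl fun ξ _ => by ring
  have h3 : M.pr r S S x y ≤ n / r + B := by
    rw [e, div_le_iff₀ hr', add_mul, div_mul_cancel₀ _ hr'.ne']
    linarith
  linarith

/-- `∑ μ Pi' - ∑ μm Pi = ∑ μm (Pi' - Pi) + ∑ ρ (Pi' x - Pi' y)`; the total is at most
`(1423 + 520 Γ) e1 + (k+1) ε` -/
theorem cost_bstep (hX : ∀ a b : X, a ≠ b → 1 ≤ dist a b) (h : S.Inv r η) (M : MH X η₀ ε)
    (h0 : 0 < η₀) (hη : η₀ ≤ η / 2) (hε : 0 ≤ ε) (hr : 16 ≤ r) (hD : D.OK k)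
    (hΓ : 1 / 640 < D.Γ r) :
    M.cost r S (S.bstep r D) D ≤ 1000000 * (D.Γ r * D.e1 r) + (k + 1) * ε := by
  have hη0 : 0 < η := by linarith
  have hr0 : 0 < r := by omega
  have h' := h.bstep hη0 hr0 hD
  have h1 := bstep_change hX h M h0 hη hε hr hD
  have h2 := θ_mul_avgf_le h hη0 hr0 hD
  rw [show S.θ r D.x = (S.bstep r D).θ r D.x by simp only [ES.θ, ES.bstep]] at h2
  generalize S.bstep r D = S' at h' h1 h2 ⊢
  have h3 := fun y => pr_sep_le hX h' M h0 hη hε hr0 D.x y
  have h4 := fun y => pi_sub_le hX h' (half_pos hη0) hr0 D.x y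
  generalize S'.θ r D.x * avgf S'.u r D.x = a at h2 h3 h4
  have h5 : ∑ y, D.ρ y * M.pr r S' S' D.x y ≤ (6 + 12 * a) * D.e1 r + ε := by
    refine (sum_le_sum fun y _ => mul_le_mul_of_nonneg_left (h3 y) (hD.ρ_nonneg y)).trans_eq ?_
    rw [Dat.e1, mul_sum]
    nth_rewrite 2 [← one_mul ε]
    rw [← hD.sum_ρ, sum_mul, ← sum_add_distrib]
    exact sum_congr rfl fun y _ => by ring
  have h6 : ∑ y, D.ρ y * (S'.Pi r D.x - S'.Pi r y) ≤ (40 * a + 768) * D.e1 r := by
    refine (sum_le_sum fun y _ => mul_le_mul_of_nonneg_left (h4 y) (hD.ρ_nonneg y)).trans_eq ?_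
    rw [Dat.e1, mul_sum]
    exact sum_congr rfl fun y _ => by ring
  have h7 := hD.e1_nonneg r
  have h8 : ∑ y, D.μm y * (S'.Pi r y - S.Pi r y) =
      ∑ y, D.μm y * S'.Pi r y - ∑ y, D.μm y * S.Pi r y := by
    rw [← sum_sub_distrib]
    exact sum_congr rfl fun y _ => mul_sub _ _ _
  have h9 := mul_le_mul_of_nonneg_right h2 h7
  have h10 := mul_le_mul_of_nonneg_right hΓ.le h7
  rw [MH.cost, hD.sum_μ_mul]
  linarith

end

end Crest.Agent.R314
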