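import Crest.Agent.R314.EmbDefs

/-! Row 314: the one-scale embedding, basic facts and invariants. -/

set_option autoImplicit false

open Finset Crest.LogicCS.KServer

namespace Crest.Agent.R314

noncomputable section
open Classical

variable {X : Type} [Fintype X] [MetricSpace X] {S : ES X} {r k : ℕ} {η : ℝ} {D : Dat X}

theorem clamp_nonneg (t : ℝ) : 0 ≤ clamp t := by
  exact le_max_left _ _

theorem clamp_le_one (t : ℝ) : clamp t ≤ 1 := by
  exact max_le zero_le_one (min_le_left _ _)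

theorem clamp_mono {s t : ℝ} (h : s ≤ t) : clamp s ≤ clamp t := by
  exact max_le_max le_rfl (min_le_min le_rfl h)

theorem abs_clamp_sub_le (s t : ℝ) : |clamp s - clamp t| ≤ |s - t| := by
  unfold clamp
  refine (abs_max_sub_max_le_max _ _ _ _).trans (max_le (by simp) ?_)
  exact (abs_min_sub_min_le_max _ _ _ _).trans (max_le (by simp) le_rfl)

theorem pj_nonneg (r j : ℕ) : 0 ≤ pj r j := by
  unfold pj; positivity

theorem pj_le {r j : ℕ} (hj : j < r) : pj r j ≤ 2 / r := by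
  have hr : (0 : ℝ) < r := by exact_mod_cast (Nat.zero_le j).trans_lt hj
  have h1 : (j : ℝ) ≤ r := by exact_mod_cast hj.le
  rw [pj, div_le_div_iff₀ (by positivity) hr]
  nlinarith

theorem sum_pj (r n : ℕ) : ∑ j ∈ range n, pj r j = n * (n + 1) / (r * (r + 1)) := by
  induction n with
  | zero => simp
  | succ n ih =>
    rw [sum_range_succ, ih, pj, ← add_div]
    push_cast
    ring

theorem sum_pj_self {r : ℕ} (hr : 0 < r) : ∑ j ∈ range r, pj r j = 1 := by
  have hr' : (0 : ℝ) < r := by exact_mod_cast hr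
  rw [sum_pj, div_self (by positivity)]

omit [Fintype X] in
theorem inv_abs_div_le (r : ℕ) (y y' p : X) :
    |dist y p / r - dist y' p / r| ≤ dist y y' / r := by
  rw [← sub_div, abs_div, Nat.abs_cast]
  exact div_le_div_of_nonneg_right (abs_dist_sub_le y y' p) r.cast_nonneg

omit [Fintype X] in
theorem inv_hfun_nonneg (r : ℕ) (p y : X) : 0 ≤ hfun r p y := by
  unfold hfun; positivity

omit [Fintype X] in
theorem inv_hfun_le (r : ℕ) (p y : X) : hfun r p y ≤ 1 / 2 := min_le_left _ _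

theorem inv_psi_aux {c c' a a' b d : ℝ} (hc0 : 0 ≤ c) (hc1 : c ≤ 1) (ha0 : 0 ≤ a)
    (ha1 : a ≤ 1 / 2) (ha0' : 0 ≤ a') (ha1' : a' ≤ 1 / 2) (hb : |b| ≤ 1 / 16)
    (hc : |c' - c| ≤ d) (ha : |a - a'| ≤ d) :
    c * (a - b) ^ 2 + 1 - c - 3 * d ≤ c' * (a' - b) ^ 2 + 1 - c' := by
  have hd : 0 ≤ d := (abs_nonneg _).trans ha
  obtain ⟨hb1, hb2⟩ := abs_le.1 hb
  have h1 : (c' - c) * (1 - (a' - b) ^ 2) ≤ d := by
    refine (le_abs_self _).trans ?_
    rw [abs_mul]
    refine (mul_le_of_le_one_right (abs_nonneg _) ?_).trans hc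
    rw [abs_le]
    constructor <;> nlinarith [sq_nonneg (a' - b)]
  have h2 : c * ((a - a') * (a + a' - 2 * b)) ≤ 2 * d := by
    have h3 : |(a - a') * (a + a' - 2 * b)| ≤ d * 2 := by
      rw [abs_mul]
      refine mul_le_mul ha (abs_le.2 ⟨by linarith, by linarith⟩) (abs_nonneg _) hd
    have h4 := (mul_le_mul_of_nonneg_left (le_abs_self ((a - a') * (a + a' - 2 * b))) hc0).trans
      (mul_le_of_le_one_left (abs_nonneg _) hc1)
    linarith
  nlinarith

omit [Fintype X] in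
theorem ES.θ_nonneg (S : ES X) (r : ℕ) (y : X) : 0 ≤ S.θ r y := by
  exact (le_fold_min _).2 ⟨zero_le_one, fun l _ => clamp_nonneg _⟩

omit [Fintype X] in
theorem ES.θ_le_one (S : ES X) (r : ℕ) (y : X) : S.θ r y ≤ 1 := by
  exact (fold_min_le _).2 (Or.inl le_rfl)

omit [Fintype X] in
theorem ES.θ_le_add (S : ES X) (r : ℕ) (y y' : X) : S.θ r y ≤ S.θ r y' + 4 * (dist y y' / r) := by
  have h0 : 0 ≤ dist y y' / r := by positivity
  rw [← sub_le_iff_le_add]
  refine (le_fold_min _).2 ⟨by linarith [S.θ_le_one r y], fun l hl => ?_⟩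
  have h1 : S.θ r y ≤ clamp (4 * (dist y (S.pos l) / r) - 2) :=
    (fold_min_le _).2 (Or.inr ⟨l, hl, le_rfl⟩)
  have h2 := (le_abs_self _).trans (abs_clamp_sub_le (4 * (dist y (S.pos l) / r) - 2)
    (4 * (dist y' (S.pos l) / r) - 2))
  have h3 := abs_le.1 (inv_abs_div_le r y y' (S.pos l))
  have h4 : |4 * (dist y (S.pos l) / r) - 2 - (4 * (dist y' (S.pos l) / r) - 2)| ≤
      4 * (dist y y' / r) := abs_le.2 ⟨by linarith [h3.1], by linarith [h3.2]⟩
  linarith

omit [Fintype X] in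
theorem ES.θ_eq_zero (hr : 0 < r) {y : X} {l : ℕ} (hl : l ∈ S.A)
    (h : dist y (S.pos l) ≤ r / 2) : S.θ r y = 0 := by
  have hr' : (0 : ℝ) < r := by exact_mod_cast hr
  refine le_antisymm ((fold_min_le _).2 (Or.inr ⟨l, hl, ?_⟩)) (S.θ_nonneg r y)
  have : dist y (S.pos l) / r ≤ 1 / 2 := by rw [div_le_iff₀ hr']; linarith
  exact max_le le_rfl ((min_le_right _ _).trans (by linarith))

omit [Fintype X] in
theorem ES.θ_eq_one (hr : 0 < r) {y : X} (h : ∀ l ∈ S.A, 3 * (r : ℝ) / 4 ≤ dist y (S.pos l)) :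
    S.θ r y = 1 := by
  have hr' : (0 : ℝ) < r := by exact_mod_cast hr
  refine le_antisymm (S.θ_le_one r y) ((le_fold_min _).2 ⟨le_rfl, fun l hl => ?_⟩)
  have : 3 / 4 ≤ dist y (S.pos l) / r := by rw [le_div_iff₀ hr']; linarith [h l hl]
  exact le_max_of_le_right (le_min le_rfl (by linarith))

omit [Fintype X] in
theorem ES.ψ_nonneg (S : ES X) (r : ℕ) (y : X) : 0 ≤ S.ψ r y := by
  refine (le_fold_min _).2 ⟨zero_le_one, fun l _ => ?_⟩
  have h1 : chi r (S.pos l) y ≤ 1 := clamp_le_one _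
  have h2 : 0 ≤ chi r (S.pos l) y * (hfun r (S.pos l) y - S.b l) ^ 2 :=
    mul_nonneg (clamp_nonneg _) (sq_nonneg _)
  linarith

omit [Fintype X] in
theorem ES.ψ_le_one (S : ES X) (r : ℕ) (y : X) : S.ψ r y ≤ 1 := by
  exact (fold_min_le _).2 (Or.inl le_rfl)

theorem ES.Inv.abs_b_le (h : S.Inv r η) (l : ℕ) : |S.b l| ≤ 1 / 16 := by
  linarith [h.b_le l, h.clk_lt l, h.th_le l]

theorem ES.Inv.ψ_sub_le (h : S.Inv r η) (y y' : X) :
    S.ψ r y - S.ψ r y' ≤ 3 * min 1 (dist y' y / r) := by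
  rw [mul_min_of_nonneg _ _ (by norm_num : (0 : ℝ) ≤ 3)]
  refine le_min (by linarith [S.ψ_le_one r y, S.ψ_nonneg r y']) ?_
  have h0 : 0 ≤ dist y' y / r := by positivity
  rw [sub_le_comm]
  refine (le_fold_min _).2 ⟨by linarith [S.ψ_le_one r y], fun l hl => ?_⟩
  have h1 : S.ψ r y ≤
      chi r (S.pos l) y * (hfun r (S.pos l) y - S.b l) ^ 2 + 1 - chi r (S.pos l) y :=
    (fold_min_le _).2 (Or.inr ⟨l, hl, le_rfl⟩)
  have h3 := inv_abs_div_le r y' y (S.pos l)
  have hc : |chi r (S.pos l) y' - chi r (S.pos l) y| ≤ dist y' y / r := by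
    refine (abs_clamp_sub_le _ _).trans ?_
    rw [abs_le] at h3 ⊢
    constructor <;> linarith [h3.1, h3.2]
  have hh : |hfun r (S.pos l) y - hfun r (S.pos l) y'| ≤ dist y' y / r := by
    rw [abs_sub_comm]
    exact (abs_min_sub_min_le_max _ _ _ _).trans (max_le (by simpa using h0) h3)
  have key := inv_psi_aux (clamp_nonneg (2 - dist y (S.pos l) / r)) (clamp_le_one _)
    (inv_hfun_nonneg r (S.pos l) y) (inv_hfun_le r (S.pos l) y)
    (inv_hfun_nonneg r (S.pos l) y') (inv_hfun_le r (S.pos l) y') (h.abs_b_le l) hc hh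
  unfold chi at *
  linarith

/-- near a centre only this centre counts -/
theorem ES.Inv.ψ_eq (h : S.Inv r η) (hr : 0 < r) {y : X} {l : ℕ} (hl : l ∈ S.A)
    (hy : dist y (S.pos l) ≤ 2 * r) : S.ψ r y =
      chi r (S.pos l) y * (hfun r (S.pos l) y - S.b l) ^ 2 + 1 - chi r (S.pos l) y := by
  have hr' : (0 : ℝ) < r := by exact_mod_cast hr
  refine le_antisymm ((fold_min_le _).2 (Or.inr ⟨l, hl, le_rfl⟩)) ?_
  have h1 : chi r (S.pos l) y * (hfun r (S.pos l) y - S.b l) ^ 2 + 1 - chi r (S.pos l) y ≤ 1 := by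
    have hb := abs_le.1 (h.abs_b_le l)
    have h2 := inv_hfun_nonneg r (S.pos l) y
    have h3 := inv_hfun_le r (S.pos l) y
    have h4 : (hfun r (S.pos l) y - S.b l) ^ 2 ≤ 1 := by nlinarith [hb.1, hb.2]
    have h5 : 0 ≤ chi r (S.pos l) y := clamp_nonneg _
    nlinarith
  refine (le_fold_min _).2 ⟨h1, fun l' hl' => ?_⟩
  rcases eq_or_ne l l' with rfl | hne
  · exact le_rfl
  · have h2 := h.sep l hl l' hl' hne
    have h3 := dist_triangle_left (S.pos l) (S.pos l') y
    have h4 : 2 ≤ dist y (S.pos l') / r := by rw [le_div_iff₀ hr']; linarith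
    have h5 : chi r (S.pos l') y = 0 :=
      le_antisymm (max_le le_rfl ((min_le_right _ _).trans (by linarith))) (clamp_nonneg _)
    rw [h5]
    linarith

theorem ES.Inv.near_unique (h : S.Inv r η) {y : X} {l l' : ℕ} (hl : l ∈ S.A) (hl' : l' ∈ S.A)
    (hy : dist y (S.pos l) ≤ 4 * r) (hy' : dist y (S.pos l') ≤ 4 * r) : l = l' := by
  by_contra hne
  have h2 := h.sep l hl l' hl' hne
  have h3 := dist_triangle_left (S.pos l) (S.pos l') y
  linarith

theorem ES.Inv.lab_eq_inr (h : S.Inv r η) {i : ℕ} (hi : i < r) (j : ℕ) (sel : (X → ℝ) → X) {y : X}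
    {l : ℕ} : S.lab r i j sel y = Sum.inr l ↔ l ∈ S.A ∧ dist y (S.pos l) ≤ r + i := by
  have hi' : (i : ℝ) ≤ r := by exact_mod_cast hi.le
  have hr0 : (0 : ℝ) ≤ r := r.cast_nonneg
  unfold ES.lab
  split_ifs with hex
  · have hs := hex.choose_spec
    constructor
    · intro e
      rw [← Sum.inr.inj e]
      exact hs
    · rintro ⟨hl, hy⟩
      rw [h.near_unique hs.1 hl (y := y) (by linarith [hs.2]) (by linarith)]
  · constructor
    · intro e; cases e
    · rintro ⟨hl, hy⟩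
      exact (hex ⟨l, hl, hy⟩).elim

theorem ES.Inv.bm_pos (h : S.Inv r η) (hη : 0 < η) (y : X) {s : ℝ} (hs : 0 ≤ s) :
    η ≤ bm S.u y s := by
  exact (h.low y).trans (single_le_sum (fun z _ => hη.le.trans (h.low z)) (by simpa using hs))

theorem ES.Inv.flog_nonneg (h : S.Inv r η) (hη : 0 < η) (y : X) {j : ℕ} (hj : j ≤ 2 * r) :
    0 ≤ flog S.u r y j := by
  have hu : ∀ z, 0 ≤ S.u z := fun z => hη.le.trans (h.low z)
  have hj' : (j : ℝ) ≤ 2 * r := by exact_mod_cast hj
  exact neg_nonneg.2 (Real.log_nonpos (bm_nonneg hu _ _)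
    ((bm_mono hu y (by linarith)).trans (h.kraft y)))

theorem ES.Inv.φ_nonneg (h : S.Inv r η) (hη : 0 < η) (y : X) : 0 ≤ φ S.u r y := by
  exact sum_nonneg fun j hj => mul_nonneg (pj_nonneg r j)
    (h.flog_nonneg hη y (by have := mem_range.1 hj; omega))

theorem ES.Inv.avgf_nonneg (h : S.Inv r η) (hη : 0 < η) (y : X) : 0 ≤ avgf S.u r y := by
  exact div_nonneg (sum_nonneg fun j hj =>
    h.flog_nonneg hη y (by have := mem_range.1 hj; omega)) r.cast_nonneg

theorem ES.Inv.pi_nonneg (h : S.Inv r η) (hη : 0 < η) (y : X) : 0 ≤ S.Pi r y := by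
  have h1 := h.φ_nonneg hη y
  have h2 := S.ψ_nonneg r y
  unfold ES.Pi
  positivity

theorem ES.Inv.mono (h : S.Inv r η) {η' : ℝ} (h' : η' ≤ η) : S.Inv r η' := by
  exact ⟨h.sep, h.kraft, fun z => h'.trans (h.low z), h.clk_nonneg, h.clk_lt, h.b_le, h.th_ge,
    h.th_le⟩

theorem sum_restr (u : X → ℝ) (y : X) (s : ℝ) : ∑ z, restr u y s z = bm u y s := by
  simp only [restr, bm, sum_filter]

theorem MH.pr_nonneg {ε : ℝ} (M : MH X η ε) (r : ℕ) (S S' : ES X) (y y' : X) :
    0 ≤ M.pr r S S' y y' := by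
  refine sum_nonneg fun i _ => sum_nonneg fun j _ => sum_nonneg fun ξ _ => ?_
  have h1 := pj_nonneg r j
  have h2 := M.Q_nonneg ξ
  split_ifs <;> positivity

theorem MH.pr_le_one {ε : ℝ} (M : MH X η ε) (r : ℕ) (S S' : ES X) (y y' : X) :
    M.pr r S S' y y' ≤ 1 := by
  rcases Nat.eq_zero_or_pos r with rfl | hr
  · simp [MH.pr]
  have hr' : (0 : ℝ) < r := by exact_mod_cast hr
  calc M.pr r S S' y y' ≤ ∑ i ∈ range r, ∑ j ∈ range r, ∑ ξ ∈ @univ M.Ξ M.fin,
        (1 / r : ℝ) * pj r j * M.Q ξ := by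
        refine sum_le_sum fun i _ => sum_le_sum fun j _ => sum_le_sum fun ξ _ => ?_
        have h1 := pj_nonneg r j
        have h2 := M.Q_nonneg ξ
        refine mul_le_of_le_one_right (by positivity) ?_
        split_ifs <;> norm_num
    _ = 1 := by
        simp only [← mul_sum, M.Q_sum, mul_one, sum_pj_self hr, sum_const, card_range,
          nsmul_eq_mul]
        field_simp

/-- a ball that contains `x` and lies in the ball of radius `24 r` -/
theorem bm_ustep_of_mem (u : X → ℝ) {x y : X} (δ : ℝ) {s : ℝ} (hx : dist x y ≤ s)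
    (hs : s ≤ 12 * r) : bm (ustep u r x δ) y s = (1 - δ) * bm u y s + δ := by
  have h1 : ∀ z ∈ univ.filter (fun z => dist z y ≤ s),
      ustep u r x δ z = (1 - δ) * u z + if z = x then δ else 0 := fun z hz => by
    have h2 := (mem_filter.1 hz).2
    have h3 := dist_triangle_right z x y
    rw [ustep, if_pos (by linarith)]
  rw [bm, sum_congr rfl h1, sum_add_distrib, ← mul_sum, sum_ite_eq', if_pos (by simpa using hx)]
  rfl

omit [Fintype X] in
theorem inv_ustep_ge {u : X → ℝ} {x z : X} {δ : ℝ} (hu : 0 ≤ u z) (h0 : 0 ≤ δ) :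
    (1 - δ) * u z ≤ ustep u r x δ z := by
  have h4 := mul_nonneg h0 hu
  unfold ustep
  split_ifs <;> linarith

theorem bm_ustep_ge {u : X → ℝ} (hu : ∀ z, 0 ≤ u z) (x y : X) {δ : ℝ} (h0 : 0 ≤ δ) (s : ℝ) :
    (1 - δ) * bm u y s ≤ bm (ustep u r x δ) y s := by
  rw [bm, mul_sum]
  exact sum_le_sum fun z _ => inv_ustep_ge (hu z) h0

theorem bm_ustep_le {u : X → ℝ} (hu : ∀ z, 0 ≤ u z) {x y : X} {δ : ℝ} (h0 : 0 ≤ δ) {s : ℝ}
    (hx : s < dist x y) : bm (ustep u r x δ) y s ≤ bm u y s := by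
  refine sum_le_sum fun z hz => ?_
  have h2 := (mem_filter.1 hz).2
  have h3 : z ≠ x := by rintro rfl; linarith
  have h4 := mul_nonneg h0 (hu z)
  rw [ustep, if_neg h3]
  split_ifs <;> linarith

theorem restr_ustep_far (u : X → ℝ) {x y : X} (δ : ℝ) {s : ℝ} (h : 24 * r + s < dist y x) :
    restr (ustep u r x δ) y s = restr u y s := by
  funext z
  unfold restr
  split_ifs with hz
  · have h3 := dist_triangle_left y x z
    have h4 : ¬dist z x ≤ 24 * r := by intro h5; linarith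
    have h5 : z ≠ x := by
      rintro rfl
      exact h4 (by rw [dist_self]; positivity)
    rw [ustep, if_neg h4, if_neg h5, add_zero]
  · rfl

theorem ES.δ_nonneg (S : ES X) (r : ℕ) (D : Dat X) : 0 ≤ S.δ r D := by
  exact (le_fold_max _).2 (Or.inl le_rfl)

theorem ES.δ_le (S : ES X) (hr : 0 < r) (hD : D.OK k) : S.δ r D ≤ 1 / 2 := by
  refine (fold_max_le _).2 ⟨by norm_num, fun j hj => ?_⟩
  split_ifs
  · have hj' := mem_range.1 hj
    have hV := hD.one_le_V r
    have h1 : PJ r j ≤ 1 := by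
      rw [← sum_pj_self hr]
      exact sum_le_sum_of_subset_of_nonneg (range_subset_range.2 (by omega))
        fun i _ _ => pj_nonneg r i
    have h2 : bm (fun y => S.θ r y ^ 2 * D.μ y) D.x (j / 2 : ℕ) ≤ D.V r := by
      refine le_trans (sum_le_sum fun y _ => mul_le_of_le_one_left (hD.μ_nonneg y)
        (pow_le_one₀ (S.θ_nonneg r y) (S.θ_le_one r y))) (bm_mono hD.μ_nonneg D.x ?_)
      exact_mod_cast (by omega : j / 2 ≤ 40 * r)
    have h3 : 0 ≤ bm (fun y => S.θ r y ^ 2 * D.μ y) D.x (j / 2 : ℕ) :=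
      bm_nonneg (fun y => mul_nonneg (sq_nonneg _) (hD.μ_nonneg y)) _ _
    rw [ES.δj, div_le_iff₀ (by positivity)]
    nlinarith
  · norm_num

theorem inv_ustep (h : S.Inv r η) (hη : 0 < η) (x : X) {δ : ℝ} (h0 : 0 ≤ δ) (h1 : δ ≤ 1 / 2) :
    (∀ z, bm (ustep S.u r x δ) z (12 * r) ≤ 1) ∧ ∀ z, η / 2 ≤ ustep S.u r x δ z := by
  have hu : ∀ z, 0 ≤ S.u z := fun z => hη.le.trans (h.low z)
  refine ⟨fun z => ?_, fun z => le_trans ?_ (inv_ustep_ge (hu z) h0)⟩
  · rcases le_or_gt (dist x z) (12 * r) with hx | hx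
    · rw [bm_ustep_of_mem S.u δ hx le_rfl]
      nlinarith [h.kraft z]
    · exact (bm_ustep_le hu h0 hx).trans (h.kraft z)
  · nlinarith [h.low z]

theorem ES.Inv.bstep (h : S.Inv r η) (hη : 0 < η) (hr : 0 < r) (hD : D.OK k) :
    (S.bstep r D).Inv r (η / 2) := by
  obtain ⟨h1, h2⟩ := inv_ustep h hη D.x (S.δ_nonneg r D) (S.δ_le hr hD)
  exact ⟨h.sep, h1, h2, h.clk_nonneg, h.clk_lt, h.b_le, h.th_ge, h.th_le⟩

theorem ES.Inv.rec' (h : S.Inv r η) (hη : 0 < η) (x : X) (l₀ t : ℕ) :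
    (S.rec' r x l₀ t).Inv r (η / 2) := by
  obtain ⟨h1, h2⟩ := inv_ustep h hη x (δ := 1 / 2) (by norm_num) le_rfl
  refine ⟨fun l hl l' hl' hne => ?_, h1, h2, fun l => ?_, fun l => ?_, fun l => ?_, h.th_ge,
    h.th_le⟩
  · simp only [ES.rec', mem_insert, mem_filter] at hl hl' ⊢
    by_cases e : l = l₀
    · subst e
      rw [Function.update_self, Function.update_of_ne hne.symm]
      exact (hl'.resolve_left hne.symm).2
    · by_cases e' : l' = l₀
      · subst e'
        rw [Function.update_self, Function.update_of_ne hne, dist_comm]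
        exact (hl.resolve_left hne).2
      · rw [Function.update_of_ne e, Function.update_of_ne e']
        exact h.sep l (hl.resolve_left e).1 l' (hl'.resolve_left e').1 hne
  · simp only [ES.rec', Function.update_apply]
    split_ifs
    · exact le_rfl
    · exact h.clk_nonneg l
  · simp only [ES.rec', Function.update_apply]
    split_ifs
    · linarith [h.th_ge l]
    · exact h.clk_lt l
  · simp only [ES.rec', Function.update_apply]
    split_ifs
    · simp
    · exact h.b_le l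

/-- small growth: by `W_le`, most of the mass `V` is close to `x` -/
theorem V_le_chi (hr : 0 < r) (hD : D.OK k) (hΓ : D.Γ r ≤ 1 / 640) {p : X}
    (hp : dist D.x p ≤ r / 4) : D.V r / 2 ≤ ∑ y, D.μ y * chi r p y := by
  have hr' : (0 : ℝ) < r := by exact_mod_cast hr
  have hW := hD.W_le hr
  have hV := hD.one_le_V r
  have h1 : ∑ y with dist y D.x ≤ 40 * r, D.μ y * chi r p y ≤ ∑ y, D.μ y * chi r p y :=
    sum_le_sum_of_subset_of_nonneg (filter_subset _ _)
      fun y _ _ => mul_nonneg (hD.μ_nonneg y) (clamp_nonneg _)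
  have h2 : ∑ y with dist y D.x ≤ 40 * r, (D.μ y - 2 * (D.μ y * min 1 (dist y D.x / r))) ≤
      ∑ y with dist y D.x ≤ 40 * r, D.μ y * chi r p y := by
    refine sum_le_sum fun y _ => ?_
    have h3 : 1 - 2 * min 1 (dist y D.x / r) ≤ chi r p y := by
      by_cases hy : dist y D.x / r ≤ 1 / 2
      · have h4 : dist y p / r ≤ 1 := by
          rw [div_le_iff₀ hr'] at hy ⊢
          linarith [dist_triangle y D.x p]
        have h5 : 0 ≤ min 1 (dist y D.x / r) := by positivity
        exact le_max_of_le_right (le_min (by linarith) (by linarith))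
      · have h5 : 1 / 2 ≤ min 1 (dist y D.x / r) := le_min (by norm_num) (not_le.1 hy).le
        exact le_trans (by linarith) (clamp_nonneg _)
    nlinarith [mul_le_mul_of_nonneg_left h3 (hD.μ_nonneg y)]
  rw [sum_sub_distrib, ← mul_sum] at h2
  have h3 : D.V r = ∑ y with dist y D.x ≤ 40 * r, D.μ y := rfl
  nlinarith

theorem abs_sum_hfun_le (hD : D.OK k) (r : ℕ) (p : X) :
    |∑ y, D.ρ y * (hfun r p D.x - hfun r p y)| ≤ D.e1 r := by
  refine (abs_sum_le_sum_abs _ _).trans (sum_le_sum fun y _ => ?_)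
  rw [abs_mul, abs_of_nonneg (hD.ρ_nonneg y)]
  refine mul_le_mul_of_nonneg_left (le_min ?_ ?_) (hD.ρ_nonneg y)
  · rw [abs_le]
    constructor <;> linarith [inv_hfun_nonneg r p D.x, inv_hfun_le r p D.x, inv_hfun_nonneg r p y,
      inv_hfun_le r p y]
  · rw [abs_sub_comm]
    exact (abs_min_sub_min_le_max _ _ _ _).trans
      (max_le (by rw [sub_self, abs_zero]; positivity) (inv_abs_div_le r y D.x p))

theorem ES.Inv.tick (h : S.Inv r η) (hr : 0 < r) (hD : D.OK k) (hΓ : D.Γ r ≤ 1 / 640) {l : ℕ}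
    (hl : S.Near r D.x l) {lam : ℝ} (h0 : 0 ≤ lam) (h1 : lam ≤ 1) (hf : ¬S.Fire r D l lam) :
    (S.tick r D l lam).Inv r η := by
  have hV := hD.one_le_V r
  have he := hD.e1_nonneg r
  have hd : 0 ≤ D.dY r := by unfold Dat.dY; positivity
  refine ⟨h.sep, h.kraft, h.low, fun l' => ?_, fun l' => ?_, fun l' => ?_, fun l' => ?_,
    fun l' => ?_⟩
  · simp only [ES.tick, Function.update_apply]
    split_ifs
    · linarith [h.clk_nonneg l]
    · exact h.clk_nonneg l'
  · rcases eq_or_ne l' l with rfl | hne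
    · exact not_le.1 hf
    · simp only [ES.tick, Function.update_of_ne hne]
      exact h.clk_lt l'
  · simp only [ES.tick, Function.update_apply]
    split_ifs
    · refine (abs_add_le _ _).trans (add_le_add (h.b_le l) ?_)
      have h2 := V_le_chi hr hD hΓ hl.2
      have h3 := abs_sum_hfun_le hD r (S.pos l)
      rw [abs_div, abs_of_nonneg (a := ∑ y, D.μ y * chi r (S.pos l) y) (by linarith), Dat.dY]
      refine (div_le_div₀ he h3 (by linarith : 0 < D.V r / 2) h2).trans_eq ?_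
      field_simp
    · exact h.b_le l'
  · simp only [ES.tick, Function.update_apply]
    split_ifs
    · linarith
    · exact h.th_ge l
    · exact h.th_ge l'
  · simp only [ES.tick, Function.update_apply]
    split_ifs
    · linarith
    · exact h.th_le l
    · exact h.th_le l'

theorem ES.Inv.step (h : S.Inv r η) (hη : 0 < η) (hr : 0 < r) (hD : D.OK k) (t : ℕ) {lam : ℝ}
    (h0 : 0 ≤ lam) (h1 : lam ≤ 1) : (S.step r t D lam).Inv r (η / 2) := by
  unfold ES.step
  split_ifs with hΓ hex hf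
  · exact h.rec' hη _ _ _
  · exact (h.tick hr hD hΓ hex.choose_spec h0 h1 hf).mono (by linarith)
  · exact h.rec' hη _ _ _
  · exact h.bstep hη hr hD

theorem erun_inv [Nonempty X] (hr : 0 < r) {dat : ℕ → Dat X} (hD : ∀ t, (dat t).OK k)
    {lam : ℕ → ℝ} (h0 : ∀ t, 0 ≤ lam t) (h1 : ∀ t, lam t ≤ 1) (t : ℕ) :
    (erun r dat lam t).Inv r (1 / Fintype.card X / 2 ^ t) := by
  have hc : (0 : ℝ) < Fintype.card X := by exact_mod_cast Fintype.card_pos
  induction t with
  | zero =>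
    refine ⟨fun l hl => by simp [erun] at hl, fun z => ?_, fun z => by simp [erun],
      fun l => le_rfl, fun l => by norm_num [erun], fun l => by simp [erun],
      fun l => by norm_num [erun], fun l => le_rfl⟩
    refine (sum_le_sum_of_subset_of_nonneg (filter_subset _ _)
      fun y _ _ => by simp only [erun]; positivity).trans_eq ?_
    simp only [erun, sum_const, card_univ, nsmul_eq_mul]
    field_simp
  | succ t ih =>
    have := ih.step (by positivity) hr (hD (t + 1)) (t + 1) (h0 (t + 1)) (h1 (t + 1))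
    rwa [div_div _ (2 ^ t : ℝ), ← pow_succ] at this

theorem erun_label_le [Nonempty X] (r : ℕ) (dat : ℕ → Dat X) (lam : ℕ → ℝ) (t : ℕ) :
    ∀ l ∈ (erun r dat lam t).A, l ≤ t := by
  induction t with
  | zero => intro l hl; simp [erun] at hl
  | succ t ih =>
    intro l hl
    simp only [erun, ES.step] at hl
    split_ifs at hl with hΓ hex hf
    · rcases mem_insert.1 hl with rfl | h'
      · exact (ih _ hex.choose_spec.1).trans (Nat.le_succ t)
      · exact (ih _ (mem_filter.1 h').1).trans (Nat.le_succ t)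
    · exact (ih _ hl).trans (Nat.le_succ t)
    · rcases mem_insert.1 hl with rfl | h'
      · exact le_rfl
      · exact (ih _ (mem_filter.1 h').1).trans (Nat.le_succ t)
    · exact (ih _ hl).trans (Nat.le_succ t)

theorem erun_congr [Nonempty X] (r : ℕ) {dat dat' : ℕ → Dat X} {lam lam' : ℕ → ℝ} {t : ℕ}
    (h : ∀ s, 1 ≤ s → s ≤ t → dat s = dat' s) (h' : ∀ s, 1 ≤ s → s ≤ t → lam s = lam' s) :
    erun r dat lam t = erun r dat' lam' t := by
  induction t with
  | zero => rfl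
  | succ t ih =>
    simp only [erun]
    rw [ih (fun s h1 h2 => h s h1 (by omega)) (fun s h1 h2 => h' s h1 (by omega)),
      h (t + 1) (by omega) le_rfl, h' (t + 1) (by omega) le_rfl]

theorem lamOf_nonneg {Tm m : ℕ} (g : Fin (Tm + 1) → Fin (m + 1)) (t : ℕ) : 0 ≤ lamOf g t := by
  unfold lamOf
  split_ifs <;> positivity

theorem lamOf_le_one {Tm m : ℕ} (g : Fin (Tm + 1) → Fin (m + 1)) (t : ℕ) : lamOf g t ≤ 1 := by
  unfold lamOf
  split_ifs with h
  · rw [div_le_one (by positivity)]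
    exact_mod_cast (g ⟨t, h⟩).isLt.le
  · exact zero_le_one

end

end Crest.Agent.R314
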