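import Crest.Agent.R314.LabTree

/-! Row 314: the Bayesian theorem from the tree algorithm and the one-scale embeddings. -/

set_option autoImplicit false

open Finset Crest.LogicCS.KServer

namespace Crest.Agent.R314

noncomputable section
open Classical

variable {X : Type} [Fintype X] [MetricSpace X] {k : ℕ} {Ω : Type} [Fintype Ω]

/-- the posterior data at the request time `t` -/
def postDat (P : Ω → ℝ) (x : ℕ → Ω → X) (j : ℕ → Ω → Fin k) (s : Fin k → X) (t : ℕ) (ω : Ω) :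
    Dat X where
  x := x t ω
  μm y := cE P x t
    (fun ω' => (#{i | cfg s (fun t => x t ω') (fun t => j t ω') (t - 1) i = y} : ℝ)) ω
  ρ y := cE P x t
    (fun ω' => if cfg s (fun t => x t ω') (fun t => j t ω') (t - 1) (j t ω') = y then 1 else 0) ω

variable {P : Ω → ℝ} {x : ℕ → Ω → X} {j : ℕ → Ω → Fin k} {s : Fin k → X}

theorem fin_sum_card_mul (c : Fin k → X) (g : X → ℝ) :
    ∑ y, (#{i | c i = y} : ℝ) * g y = ∑ i, g (c i) := by
  simp only [← sum_boole, sum_mul, ite_mul, one_mul, zero_mul]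
  rw [sum_comm]
  simp only [sum_ite_eq, mem_univ, if_true]

theorem fin_sum_cE_mul (hP : ∀ ω, 0 < P ω) {t : ℕ} {g : Ω → X → ℝ} (hg : Adapted x t g)
    (F : X → Ω → ℝ) :
    ∑ ω, P ω * ∑ y, cE P x t (F y) ω * g ω y = ∑ ω, P ω * ∑ y, F y ω * g ω y := by
  simp only [mul_sum]
  rw [sum_comm, sum_comm (f := fun ω y => P ω * (F y ω * g ω y))]
  refine sum_congr rfl fun y _ => ?_
  have := sum_mul_cE hP (g := fun ω => g ω y) (fun ω ω' h => congrFun (hg ω ω' h) y) (F y)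
  simpa only [mul_comm (g _ y)] using this

theorem fin_ind_tri {α : Type*} [DecidableEq α] (a b c : α) : (if a = c then (0 : ℝ) else 1) ≤
    (if a = b then (0 : ℝ) else 1) + (if b = c then (0 : ℝ) else 1) := by
  by_cases h1 : a = b
  · subst h1; simp
  · simp only [h1, if_false]; split_ifs <;> norm_num

theorem postDat_ok (hP : ∀ ω, 0 < P ω) (t : ℕ) (ω : Ω) : (postDat P x j s t ω).OK k := by
  refine ⟨fun y => ?_, fun y => ?_, ?_, ?_⟩
  · have := cE_mono (x := x) hP (t := t) (ω := ω) (f := fun _ => (0 : ℝ))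
      (g := fun ω' => if cfg s (fun t => x t ω') (fun t => j t ω') (t - 1) (j t ω') = y
        then 1 else 0) (fun ω' _ => by split_ifs <;> norm_num)
    rwa [cE_const hP] at this
  · refine cE_mono hP fun ω' _ => ?_
    split_ifs with h
    · have : 0 < #{i | cfg s (fun t => x t ω') (fun t => j t ω') (t - 1) i = y} :=
        card_pos.2 ⟨j t ω', by simpa using h⟩
      exact_mod_cast this
    · exact Nat.cast_nonneg _
  · simp only [postDat]
    rw [← cE_sum]
    simp only [sum_ite_eq, mem_univ, if_true]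
    exact cE_const hP _ _ _
  · simp only [postDat]
    rw [← cE_sum, cE_congr (g := fun _ => (k : ℝ)), cE_const hP]
    intro ω' _
    simpa using fin_sum_card_mul (cfg s (fun t => x t ω') (fun t => j t ω') (t - 1)) (fun _ => 1)

theorem postDat_adapted {t : ℕ} (ht : 1 ≤ t) : Adapted x t (postDat P x j s t) := by
  intro ω ω' h
  simp only [postDat, Dat.mk.injEq]
  exact ⟨adapted_req ht ω ω' h, funext fun y => adapted_cE t _ ω ω' h,
    funext fun y => adapted_cE t _ ω ω' h⟩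

theorem postDat_μ (hP : ∀ ω, 0 < P ω) (t : ℕ) (ω : Ω) (y : X) :
    (postDat P x j s (t + 1) ω).μ y = cE P x (t + 1)
      (fun ω' => (#{i | cfg s (fun t => x t ω') (fun t => j t ω') (t + 1) i = y} : ℝ)) ω := by
  simp only [Dat.μ, postDat, Nat.add_sub_cancel]
  rw [← cE_sub, ← cE_const hP (x := x) (t + 1) (if y = x (t + 1) ω then (1 : ℝ) else 0) ω,
    ← cE_add]
  refine cE_congr fun ω' h => ?_
  have e := det_sum_update (fun _ z => if z = y then (1 : ℝ) else 0)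
    (cfg s (fun t => x t ω') (fun t => j t ω') t) (j (t + 1) ω') (x (t + 1) ω')
  simp only [sum_boole] at e
  rw [cfg_succ, e, h (t + 1) (by omega) le_rfl]
  simp only [eq_comm]

/-- tower property for `μm`, `ρ`, `μ` against an adapted function -/
theorem sum_μm_mul (hP : ∀ ω, 0 < P ω) (t : ℕ) {g : Ω → X → ℝ} (hg : Adapted x (t + 1) g) :
    ∑ ω, P ω * ∑ y, (postDat P x j s (t + 1) ω).μm y * g ω y =
      ∑ ω, P ω * ∑ i, g ω (cfg s (fun t => x t ω) (fun t => j t ω) t i) := by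
  simp only [postDat, Nat.add_sub_cancel]
  rw [fin_sum_cE_mul hP hg]
  simp only [fin_sum_card_mul]

theorem sum_ρ_mul (hP : ∀ ω, 0 < P ω) (t : ℕ) {g : Ω → X → ℝ} (hg : Adapted x (t + 1) g) :
    ∑ ω, P ω * ∑ y, (postDat P x j s (t + 1) ω).ρ y * g ω y =
      ∑ ω, P ω * g ω (cfg s (fun t => x t ω) (fun t => j t ω) t (j (t + 1) ω)) := by
  simp only [postDat, Nat.add_sub_cancel]
  rw [fin_sum_cE_mul hP hg]
  simp only [ite_mul, one_mul, zero_mul, sum_ite_eq, mem_univ, if_true]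

theorem sum_μ_mul (hP : ∀ ω, 0 < P ω) (t : ℕ) {g : Ω → X → ℝ} (hg : Adapted x (t + 1) g) :
    ∑ ω, P ω * ∑ y, (postDat P x j s (t + 1) ω).μ y * g ω y =
      ∑ ω, P ω * ∑ i, g ω (cfg s (fun t => x t ω) (fun t => j t ω) (t + 1) i) := by
  simp only [postDat_μ hP]
  rw [fin_sum_cE_mul hP hg]
  simp only [fin_sum_card_mul]

/-- One scale: average `E.main` over `ω`, sum over `t` (the potential terms telescope by the tower
properties, `loc`, `pi_zero`, `pi_nonneg`), exchange the sums and take the best `ξ`. A server that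
does not move changes its label iff `lab (t+1) y ≠ lab t y`; the serving server goes from
`lab t y` to `lab (t+1) x`. -/
theorem exists_seed (hP : ∀ ω, 0 < P ω) (hP1 : ∑ ω, P ω = 1) {r Tm : ℕ} {C ε : ℝ}
    (E : Emb1 X k r Tm C ε) :
    ∃ ξ : E.Ξ, ∑ t ∈ range Tm, ∑ ω, P ω * ∑ i,
        (if E.lab ξ (fun t => postDat P x j s t ω) t
              (cfg s (fun t => x t ω) (fun t => j t ω) t i) =
            E.lab ξ (fun t => postDat P x j s t ω) (t + 1)
              (cfg s (fun t => x t ω) (fun t => j t ω) (t + 1) i) then (0 : ℝ) else 1) ≤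
      C * ∑ t ∈ range Tm, ∑ ω, P ω * ((postDat P x j s (t + 1) ω).Γ r *
          (postDat P x j s (t + 1) ω).e1 r + (postDat P x j s (t + 1) ω).e2 r) +
        Tm * ε + k * (C * (1 + Real.log (Fintype.card X))) := by
  let _ := E.fin
  set c : ℕ → Ω → Fin k → X := fun t ω => cfg s (fun t => x t ω) (fun t => j t ω) t with hc
  set dat : Ω → ℕ → Dat X := fun ω t => postDat P x j s t ω with hdat
  have hok : ∀ ω t, (dat ω t).OK k := fun ω t => postDat_ok hP t ω
  have hloc : ∀ (ξ : E.Ξ) {t u : ℕ}, u ≤ t → ∀ ω ω', Same x t ω ω' →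
      E.lab ξ (dat ω) u = E.lab ξ (dat ω') u ∧ E.Pi ξ (dat ω) u = E.Pi ξ (dat ω') u := by
    intro ξ t u hu ω ω' h
    have := E.loc ξ (dat ω) (dat ω') u
      (fun v h1 h2 => postDat_adapted h1 ω ω' (h.mono (h2.trans hu)))
    exact ⟨this.1, this.2.2⟩
  set Cost : E.Ξ → ℕ → ℝ := fun ξ t => ∑ ω, P ω * ∑ i,
    (if E.lab ξ (dat ω) t (c t ω i) = E.lab ξ (dat ω) (t + 1) (c (t + 1) ω i) then (0 : ℝ) else 1)
    with hCost
  set Φ : E.Ξ → ℕ → ℝ := fun ξ t => ∑ ω, P ω * ∑ i, E.Pi ξ (dat ω) t (c t ω i) with hΦ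
  set Mn : E.Ξ → ℕ → Ω → ℝ := fun ξ t ω =>
    ∑ y, (dat ω (t + 1)).μm y *
        (if E.lab ξ (dat ω) (t + 1) y = E.lab ξ (dat ω) t y then 0 else 1) +
      ∑ y, (dat ω (t + 1)).ρ y * (if E.lab ξ (dat ω) (t + 1) y =
        E.lab ξ (dat ω) (t + 1) (dat ω (t + 1)).x then 0 else 1) +
      ∑ y, (dat ω (t + 1)).μ y * E.Pi ξ (dat ω) (t + 1) y -
      ∑ y, (dat ω (t + 1)).μm y * E.Pi ξ (dat ω) t y with hMn
  have step : ∀ ξ t, Cost ξ t ≤ ∑ ω, P ω * Mn ξ t ω - (Φ ξ (t + 1) - Φ ξ t) := by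
    intro ξ t
    have a1 := sum_μm_mul (j := j) (s := s) hP t (g := fun ω y =>
      if E.lab ξ (dat ω) (t + 1) y = E.lab ξ (dat ω) t y then (0 : ℝ) else 1) (fun ω ω' h => by
        dsimp only
        rw [(hloc ξ le_rfl ω ω' h).1, (hloc ξ (Nat.le_succ t) ω ω' h).1])
    have a2 := sum_ρ_mul (j := j) (s := s) hP t (g := fun ω y =>
      if E.lab ξ (dat ω) (t + 1) y = E.lab ξ (dat ω) (t + 1) (x (t + 1) ω) then (0 : ℝ) else 1)
      (fun ω ω' h => by
        dsimp only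
        rw [(hloc ξ le_rfl ω ω' h).1, h (t + 1) (by omega) le_rfl])
    have a3 := sum_μ_mul (j := j) (s := s) hP t (g := fun ω y => E.Pi ξ (dat ω) (t + 1) y)
      (fun ω ω' h => (hloc ξ le_rfl ω ω' h).2)
    have a4 := sum_μm_mul (j := j) (s := s) hP t (g := fun ω y => E.Pi ξ (dat ω) t y)
      (fun ω ω' h => (hloc ξ (Nat.le_succ t) ω ω' h).2)
    have e : ∑ ω, P ω * Mn ξ t ω = ∑ ω, P ω * (∑ i, (if E.lab ξ (dat ω) (t + 1) (c t ω i) =
        E.lab ξ (dat ω) t (c t ω i) then (0 : ℝ) else 1) +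
        (if E.lab ξ (dat ω) (t + 1) (c t ω (j (t + 1) ω)) = E.lab ξ (dat ω) (t + 1) (x (t + 1) ω)
          then (0 : ℝ) else 1)) + (Φ ξ (t + 1) - Φ ξ t) := by
      simp only [hMn, mul_add, mul_sub, sum_add_distrib, sum_sub_distrib]
      have hx : ∀ ω, (dat ω (t + 1)).x = x (t + 1) ω := fun _ => rfl
      simp only [hΦ, hx]
      linear_combination a1 + a2 + a3 - a4
    rw [e, add_sub_cancel_right]
    refine sum_le_sum fun ω _ => mul_le_mul_of_nonneg_left ?_ (hP ω).le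
    have e2 := det_sum_update (fun a z => if E.lab ξ (dat ω) t (c t ω a) =
      E.lab ξ (dat ω) (t + 1) z then (0 : ℝ) else 1) (c t ω) (j (t + 1) ω) (x (t + 1) ω)
    have e3 : c (t + 1) ω = Function.update (c t ω) (j (t + 1) ω) (x (t + 1) ω) := rfl
    rw [e3, e2]
    have e4 : ∑ i, (if E.lab ξ (dat ω) (t + 1) (c t ω i) = E.lab ξ (dat ω) t (c t ω i)
        then (0 : ℝ) else 1) = ∑ i, (if E.lab ξ (dat ω) t (c t ω i) =
          E.lab ξ (dat ω) (t + 1) (c t ω i) then (0 : ℝ) else 1) := by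
      simp only [eq_comm]
    rw [e4]
    have := fin_ind_tri (E.lab ξ (dat ω) t (c t ω (j (t + 1) ω)))
      (E.lab ξ (dat ω) (t + 1) (c t ω (j (t + 1) ω))) (E.lab ξ (dat ω) (t + 1) (x (t + 1) ω))
    linarith
  have tot : ∀ ξ, ∑ t ∈ range Tm, Cost ξ t ≤ ∑ t ∈ range Tm, ∑ ω, P ω * Mn ξ t ω +
      k * (C * (1 + Real.log (Fintype.card X))) := by
    intro ξ
    have h1 := sum_le_sum fun t (_ : t ∈ range Tm) => step ξ t
    rw [sum_sub_distrib, sum_range_sub (Φ ξ)] at h1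
    have h2 : 0 ≤ Φ ξ Tm := sum_nonneg fun ω _ => mul_nonneg (hP ω).le
      (sum_nonneg fun i _ => E.pi_nonneg ξ _ (hok ω) Tm le_rfl _)
    have h3 : Φ ξ 0 ≤ ∑ ω, P ω * (k * (C * (1 + Real.log (Fintype.card X)))) := by
      refine sum_le_sum fun ω _ => mul_le_mul_of_nonneg_left ?_ (hP ω).le
      have := sum_le_sum fun (i : Fin k) (_ : i ∈ univ) => E.pi_zero ξ (dat ω) (c 0 ω i)
      simpa using this
    rw [← sum_mul, hP1, one_mul] at h3
    linarith
  have hne : (univ : Finset E.Ξ).Nonempty := by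
    by_contra hc
    have := E.Q_sum
    rw [not_nonempty_iff_eq_empty.1 hc, sum_empty] at this
    exact zero_ne_one this
  obtain ⟨ξ₀, -, hmin⟩ := exists_min_image univ (fun ξ => ∑ t ∈ range Tm, Cost ξ t) hne
  refine ⟨ξ₀, ?_⟩
  have hQ : ∑ ξ, E.Q ξ = 1 := E.Q_sum
  have h1 : ∑ t ∈ range Tm, Cost ξ₀ t ≤ ∑ ξ, E.Q ξ * (∑ t ∈ range Tm, ∑ ω, P ω * Mn ξ t ω +
      k * (C * (1 + Real.log (Fintype.card X)))) := by
    calc _ = ∑ ξ, E.Q ξ * ∑ t ∈ range Tm, Cost ξ₀ t := by rw [← sum_mul, hQ, one_mul]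
      _ ≤ _ := sum_le_sum fun ξ _ =>
        mul_le_mul_of_nonneg_left ((hmin ξ (mem_univ _)).trans (tot ξ)) (E.Q_nonneg ξ)
  have h2 : ∑ ξ, E.Q ξ * ∑ t ∈ range Tm, ∑ ω, P ω * Mn ξ t ω =
      ∑ t ∈ range Tm, ∑ ω, P ω * ∑ ξ, E.Q ξ * Mn ξ t ω := by
    simp only [mul_sum]
    rw [sum_comm]
    refine sum_congr rfl fun t _ => ?_
    rw [sum_comm]
    exact sum_congr rfl fun ω _ => sum_congr rfl fun ξ _ => by ring
  have h3 : ∑ t ∈ range Tm, ∑ ω, P ω * ∑ ξ, E.Q ξ * Mn ξ t ω ≤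
      ∑ t ∈ range Tm, ∑ ω, P ω * (C * ((dat ω (t + 1)).Γ r * (dat ω (t + 1)).e1 r +
        (dat ω (t + 1)).e2 r) + ε) :=
    sum_le_sum fun t ht => sum_le_sum fun ω _ => mul_le_mul_of_nonneg_left
      (E.main (dat ω) (hok ω) t (mem_range.1 ht)) (hP ω).le
  have h4 : ∑ t ∈ range Tm, ∑ ω, P ω * (C * ((dat ω (t + 1)).Γ r * (dat ω (t + 1)).e1 r +
        (dat ω (t + 1)).e2 r) + ε) = C * ∑ t ∈ range Tm, ∑ ω, P ω * ((dat ω (t + 1)).Γ r *
          (dat ω (t + 1)).e1 r + (dat ω (t + 1)).e2 r) + Tm * ε := by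
    have : ∀ t, ∑ ω, P ω * (C * ((dat ω (t + 1)).Γ r * (dat ω (t + 1)).e1 r +
        (dat ω (t + 1)).e2 r) + ε) = C * ∑ ω, P ω * ((dat ω (t + 1)).Γ r *
          (dat ω (t + 1)).e1 r + (dat ω (t + 1)).e2 r) + ε := by
      intro t
      simp only [mul_add (P _) _ ε, sum_add_distrib, ← sum_mul, hP1, one_mul, mul_sum]
      congr 1
      exact sum_congr rfl fun ω _ => by ring
    simp only [this, sum_add_distrib, sum_const, card_range, nsmul_eq_mul, mul_sum]
  simp only [mul_add, sum_add_distrib] at h1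
  rw [h2, ← sum_add_distrib] at h1
  simp only [← mul_add] at h1
  rw [← sum_mul, hQ, one_mul] at h1
  exact h1.trans (by linarith)

/-- Choose `J` with `diam ≤ 16 ^ (J+1)`, `ε = 1 / (T + 1)`, a seed for each scale (`exists_seed`),
`exists_virt`, `virt_main` with
`Drag t ω = C₁ * (3 + 3 log k) * ∑ y, ρ y * dist y x` (`drag_le`, `inc_le`, `inc_supp`,
`head_of_sub`, `postDat_μ`), `td_leafOf_le` (level `0` costs `[y ≠ x] ≤ dist y x`), `mul_e1_le`,
`sum_Γ_le`, `sum_e2_le`, `sum_ρ_mul`, `pathCost_path`; `1 ≤ log (k+1)`. The additive constant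
depends on `C₁, C₂, k, J, card X` only. -/
theorem bayes_of {C₁ C₂ : ℝ} (h₁ : 0 ≤ C₁) (h₂ : 1 ≤ C₂)
    (hE : ∀ (X : Type) [Fintype X] [MetricSpace X] [Nonempty X],
      (∀ a b : X, a ≠ b → 1 ≤ dist a b) → ∀ (k r Tm : ℕ) (ε : ℝ), 16 ≤ r → 0 < ε →
        Nonempty (Emb1 X k r Tm C₁ ε))
    (hH : ∀ k : ℕ, 2 ≤ k → ∀ (V : Type) [Fintype V] (T : Tr V),
      Nonempty (HSTAlg T k (C₂ * Real.log (k + 1)))) :
    ∃ C : ℝ, 0 ≤ C ∧ Bayes C := by
  refine ⟨9000 * C₂ * (1 + 53 * C₁) + 6 * C₁, by positivity, ?_⟩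
  intro k hk X _ _ hX s
  have : Nonempty X := ⟨s ⟨0, by omega⟩⟩
  obtain ⟨J, hJ⟩ : ∃ J : ℕ, ∀ a b : X, dist a b ≤ 16 ^ (J + 1) := by
    obtain ⟨n, hn⟩ := pow_unbounded_of_one_lt (∑ p : X × X, dist p.1 p.2) (by norm_num : (1 : ℝ) < 16)
    refine ⟨n, fun a b => ?_⟩
    have h1 : dist a b ≤ ∑ p : X × X, dist p.1 p.2 :=
      single_le_sum (f := fun p : X × X => dist p.1 p.2) (fun _ _ => dist_nonneg) (mem_univ (a, b))
    have h2 : (16 : ℝ) ^ n ≤ 16 ^ (n + 1) := pow_le_pow_right₀ (by norm_num) (by omega)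
    linarith
  set L := Real.log (k + 1) with hL
  have hk' : (2 : ℝ) ≤ k := by exact_mod_cast hk
  have hL1 : 1 ≤ L := by
    rw [hL, Real.le_log_iff_exp_le (by linarith)]
    have := Real.exp_one_lt_d9
    linarith
  have hlk : Real.log k ≤ L := Real.log_le_log (by linarith) (by linarith)
  have hΛ : 1 ≤ C₂ * L := one_le_mul_of_one_le_of_one_le h₂ hL1
  set K : ℝ := 1 + k * (C₁ * (1 + Real.log (Fintype.card X))) with hK
  refine ⟨3000 * (C₂ * L) * (3 * ∑ l ∈ range J, (16 : ℝ) ^ (l + 1) * K + k * 16 ^ (J + 1)) + 1, ?_⟩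
  intro T Ω _ P hP hP1 x j
  have hε : (0 : ℝ) < 1 / (T + 1) := by positivity
  have h16 : ∀ l : ℕ, 16 ≤ 16 ^ (l + 1) := fun l => Nat.le_self_pow (by omega) 16
  let E : (l : ℕ) → Emb1 X k (16 ^ (l + 1)) T C₁ (1 / (T + 1)) := fun l =>
    (hE X hX k _ T _ (h16 l) hε).some
  choose ξ hξ using fun l => exists_seed (x := x) (j := j) (s := s) hP hP1 (E l)
  set c : ℕ → Ω → Fin k → X := fun t ω => cfg s (fun t => x t ω) (fun t => j t ω) t with hc
  set dat : ℕ → Ω → Dat X := fun t ω => postDat P x j s t ω with hdat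
  have hok : ∀ t ω, (dat t ω).OK k := fun t ω => postDat_ok hP t ω
  obtain ⟨Vt, hnode, hinc⟩ := exists_virt x (s ⟨0, by omega⟩) hJ E ξ dat hok
    (fun t ht => postDat_adapted ht)
  obtain ⟨H⟩ := hH k hk _ (labTree (X ⊕ Fin (T + 1)) J)
  set D : ℕ → Ω → ℝ := fun t ω => ∑ y, (dat t ω).ρ y * dist y (dat t ω).x with hD
  obtain ⟨A, hA⟩ := virt_main (by omega) hΛ H hP hP1 x j s T Vt
    (fun t ω => C₁ * (3 + 3 * Real.log k) * D t ω) (by
      intro t ht ω f hf hf0 _ hfμ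
      refine drag_le _ (hok (t + 1) ω) (by omega) h₁ (Vt.node (t + 1) ω) _ ?_ ?_ f hf hf0 ?_
      · rcases hinc (t + 1) ω (labTree (X ⊕ Fin (T + 1)) J).root with h | ⟨l, -, a, -, h, -⟩
        · exact h
        · exact absurd h (by simp [labTree])
      · intro v
        by_cases h0 : Vt.inc (t + 1) ω v = 0
        · exact Or.inl h0
        rcases hinc (t + 1) ω v with h | ⟨l, hl, a, h1, h2, h3⟩
        · exact Or.inl h
        refine Or.inr ⟨l, h1, ?_, fun y hy => ?_⟩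
        · rw [h3]; exact (E l).inc_le _ _ (fun u => hok u ω) t ht a
        · rw [hnode] at hy
          have hv : v ≠ (labTree (X ⊕ Fin (T + 1)) J).root := by
            rintro rfl
            exact absurd h2 (by simp [labTree])
          have h4 := head_of_sub hy hv
          rw [h1, h2, Option.some.injEq] at h4
          refine (E l).inc_supp (ξ l) _ (fun u => hok u ω) t ht y ?_
          rw [h3, h4] at h0
          exact h0
      · intro v hv
        refine (hfμ v hv).trans (le_of_eq ?_)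
        congr 1
        simp only [hdat, postDat_μ hP]
        rw [← cE_sum]
        refine cE_congr fun ω' h => ?_
        have e := fin_sum_card_mul (c (t + 1) ω') (fun y =>
          if (labTree (X ⊕ Fin (T + 1)) J).Sub (Vt.node (t + 1) ω y) v then (1 : ℝ) else 0)
        simp only [mul_ite, mul_one, mul_zero, sum_boole] at e
        rw [sum_filter, e, Vt.node_ad (t + 1) ω ω' h]
        rfl)
  refine ⟨A, hA.trans ?_⟩
  set O : ℝ := ∑ ω, P ω * pathCost s (path (fun t => x t ω) (fun t => j t ω) T) with hO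
  have hO1 : O = ∑ t ∈ range T, ∑ ω, P ω * dist (c t ω (j (t + 1) ω)) (x (t + 1) ω) := by
    rw [hO, sum_comm]
    exact sum_congr rfl fun ω _ => by rw [pathCost_path, mul_sum]
  have hO2 : ∑ t ∈ range T, ∑ ω, P ω * D (t + 1) ω = O := by
    rw [hO1]
    exact sum_congr rfl fun t _ => sum_ρ_mul (j := j) (s := s) hP t
      (g := fun ω y => dist y (x (t + 1) ω)) (fun ω ω' h => by
        dsimp only
        rw [h (t + 1) (by omega) le_rfl])
  have hO0 : 0 ≤ O := sum_nonneg fun ω _ => mul_nonneg (hP ω).le (pathCost_nonneg _ _)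
  set N : ℕ → ℕ → Ω → ℝ := fun l t ω => ∑ i,
    (if (E l).lab (ξ l) (fun t => dat t ω) t (c t ω i) =
      (E l).lab (ξ l) (fun t => dat t ω) (t + 1) (c (t + 1) ω i) then (0 : ℝ) else 1) with hN
  have htd : ∀ t ω, ∑ i, (labTree (X ⊕ Fin (T + 1)) J).td (Vt.loc s j t ω i)
      (Vt.loc s j (t + 1) ω i) ≤ 3 * (dist (c t ω (j (t + 1) ω)) (x (t + 1) ω) +
        ∑ l ∈ range J, (16 : ℝ) ^ (l + 1) * N l t ω) := by
    intro t ω
    have h1 : ∀ i, (labTree (X ⊕ Fin (T + 1)) J).td (Vt.loc s j t ω i) (Vt.loc s j (t + 1) ω i) ≤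
        3 * ((if c t ω i = c (t + 1) ω i then (0 : ℝ) else 1) + ∑ l ∈ range J, (16 : ℝ) ^ (l + 1) *
          (if (E l).lab (ξ l) (fun t => dat t ω) t (c t ω i) =
            (E l).lab (ξ l) (fun t => dat t ω) (t + 1) (c (t + 1) ω i) then (0 : ℝ) else 1)) := by
      intro i
      unfold Virt.loc
      rw [hnode, hnode]
      refine (td_leafOf_le _ _).trans (le_of_eq ?_)
      rw [sum_range_succ', add_comm]
      simp only [mlab, pow_zero, one_mul, Sum.inl.injEq]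
      congr
      funext l
      congr
    refine (sum_le_sum fun i _ => h1 i).trans ?_
    rw [← mul_sum, sum_add_distrib, sum_comm]
    simp only [hN, mul_sum]
    have e2 := det_sum_update (fun a z => if c t ω a = z then (0 : ℝ) else 1) (c t ω)
      (j (t + 1) ω) (x (t + 1) ω)
    have e3 : c (t + 1) ω = Function.update (c t ω) (j (t + 1) ω) (x (t + 1) ω) := rfl
    have e4 : ∑ i, (if c t ω i = c (t + 1) ω i then (0 : ℝ) else 1) ≤
        dist (c t ω (j (t + 1) ω)) (x (t + 1) ω) := by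
      rw [e3, e2]
      simp only [if_true, sum_const_zero, sub_zero, zero_add]
      split_ifs with h
      · exact dist_nonneg
      · exact hX _ _ h
    linarith
  have hT : (T : ℝ) * (1 / (T + 1)) ≤ 1 := by
    rw [mul_one_div, div_le_one (by positivity)]; linarith
  have hlev : ∀ l, ∑ t ∈ range T, ∑ ω, P ω * N l t ω ≤
      C₁ * ∑ t ∈ range T, ∑ ω, P ω * ((dat (t + 1) ω).Γ (16 ^ (l + 1)) *
        (dat (t + 1) ω).e1 (16 ^ (l + 1)) + (dat (t + 1) ω).e2 (16 ^ (l + 1))) + K := by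
    intro l
    have := hξ l
    rw [hK]
    linarith
  have hsc : ∀ t ω, ∑ l ∈ range J, (16 : ℝ) ^ (l + 1) * ((dat t ω).Γ (16 ^ (l + 1)) *
        (dat t ω).e1 (16 ^ (l + 1)) + (dat t ω).e2 (16 ^ (l + 1))) ≤ 53 * L * D t ω := by
    intro t ω
    have hD0 : 0 ≤ D t ω := sum_nonneg fun y _ => mul_nonneg ((hok t ω).ρ_nonneg y) dist_nonneg
    have h1 := (hok t ω).sum_e2_le J
    have h2 := (hok t ω).sum_Γ_le J
    have h3 : ∑ l ∈ range J, (16 : ℝ) ^ (l + 1) * ((dat t ω).Γ (16 ^ (l + 1)) *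
        (dat t ω).e1 (16 ^ (l + 1))) ≤ ∑ l ∈ range J, (dat t ω).Γ (16 ^ (l + 1)) * D t ω := by
      refine sum_le_sum fun l _ => ?_
      have h4 := (hok t ω).mul_e1_le (r := 16 ^ (l + 1)) (by positivity)
      push_cast at h4
      have := mul_le_mul_of_nonneg_left h4 ((hok t ω).Γ_nonneg (16 ^ (l + 1)))
      linarith
    rw [← sum_mul] at h3
    simp only [mul_add, sum_add_distrib]
    have h5 := mul_le_mul_of_nonneg_right h2 hD0
    have h6 := mul_le_mul_of_nonneg_right hL1 hD0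
    linarith
  have hsum : ∑ t ∈ range T, ∑ ω, P ω * ∑ l ∈ range J, (16 : ℝ) ^ (l + 1) * N l t ω ≤
      C₁ * (53 * L * O) + ∑ l ∈ range J, (16 : ℝ) ^ (l + 1) * K := by
    have sw : ∀ F : ℕ → ℕ → Ω → ℝ,
        ∑ t ∈ range T, ∑ ω, P ω * ∑ l ∈ range J, (16 : ℝ) ^ (l + 1) * F l t ω =
          ∑ l ∈ range J, (16 : ℝ) ^ (l + 1) * ∑ t ∈ range T, ∑ ω, P ω * F l t ω := by
      intro F
      simp only [mul_sum]
      rw [sum_comm (s := range J)]
      refine sum_congr rfl fun t _ => ?_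
      rw [sum_comm]
      exact sum_congr rfl fun l _ => sum_congr rfl fun ω _ => by ring
    rw [sw]
    refine (sum_le_sum fun l _ => mul_le_mul_of_nonneg_left (hlev l) (by positivity)).trans ?_
    simp only [mul_add _ _ K, sum_add_distrib, mul_left_comm _ C₁, ← mul_sum _ _ C₁]
    rw [← sw (fun l t ω => (dat (t + 1) ω).Γ (16 ^ (l + 1)) *
        (dat (t + 1) ω).e1 (16 ^ (l + 1)) + (dat (t + 1) ω).e2 (16 ^ (l + 1)))]
    refine add_le_add (mul_le_mul_of_nonneg_left ?_ h₁) le_rfl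
    rw [← hO2, mul_sum]
    refine sum_le_sum fun t _ => ?_
    rw [mul_sum]
    refine sum_le_sum fun ω _ => ?_
    rw [mul_left_comm]
    exact mul_le_mul_of_nonneg_left (hsc _ ω) (hP ω).le
  have htot : ∑ t ∈ range T, ∑ ω, P ω * ∑ i, (labTree (X ⊕ Fin (T + 1)) J).td (Vt.loc s j t ω i)
      (Vt.loc s j (t + 1) ω i) ≤
      3 * (O + (C₁ * (53 * L * O) + ∑ l ∈ range J, (16 : ℝ) ^ (l + 1) * K)) := by
    refine (sum_le_sum fun t _ => sum_le_sum fun ω _ =>
      mul_le_mul_of_nonneg_left (htd t ω) (hP ω).le).trans ?_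
    simp only [mul_left_comm _ (3 : ℝ), ← mul_sum _ _ (3 : ℝ), mul_add (P _), sum_add_distrib]
    rw [← hO1]
    linarith
  have hdrag : ∑ t ∈ range T, ∑ ω, P ω * (C₁ * (3 + 3 * Real.log k) * D (t + 1) ω) =
      C₁ * (3 + 3 * Real.log k) * O := by
    rw [← hO2]
    simp only [mul_left_comm (P _), mul_sum]
  rw [hdrag, labTree_w_root]
  have h7 := mul_le_mul_of_nonneg_left htot (by positivity : 0 ≤ 3000 * (C₂ * L))
  have h8 : C₁ * (3 + 3 * Real.log k) * O ≤ 6 * C₁ * L ^ 2 * O := by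
    refine mul_le_mul_of_nonneg_right ?_ hO0
    have : 3 + 3 * Real.log k ≤ 6 * L ^ 2 := by nlinarith
    nlinarith
  have h9 : C₂ * L * O ≤ C₂ * L ^ 2 * O := by
    refine mul_le_mul_of_nonneg_right (mul_le_mul_of_nonneg_left ?_ (by linarith)) hO0
    nlinarith
  nlinarith

end

end Crest.Agent.R314
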