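import Crest.Agent.R314.Defs

/-! Row 314: local growth of the posterior mass over all scales. -/

set_option autoImplicit false

open Finset Crest.LogicCS.KServer

namespace Crest.Agent.R314

noncomputable section
open Classical

variable {X : Type} [Fintype X] [MetricSpace X] {k : ℕ} {D : Dat X}

theorem bm_mono {μ : X → ℝ} (h : ∀ y, 0 ≤ μ y) (x : X) {s s' : ℝ} (hs : s ≤ s') :
    bm μ x s ≤ bm μ x s' :=
  sum_le_sum_of_subset_of_nonneg (monotone_filter_right _ fun _ _ hy => hy.trans hs)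
    fun y _ _ => h y

theorem bm_nonneg {μ : X → ℝ} (h : ∀ y, 0 ≤ μ y) (x : X) (s : ℝ) : 0 ≤ bm μ x s :=
  sum_nonneg fun y _ => h y

theorem bm_le_of_dist {μ : X → ℝ} (h : ∀ y, 0 ≤ μ y) {x x' : X} {s s' : ℝ}
    (hs : dist x x' + s ≤ s') : bm μ x s ≤ bm μ x' s' :=
  sum_le_sum_of_subset_of_nonneg (monotone_filter_right _ fun y _ hy => by
    linarith [dist_triangle y x x']) fun y _ _ => h y

theorem Dat.OK.μ_nonneg (h : D.OK k) (y : X) : 0 ≤ D.μ y := by
  have := h.ρ_le y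
  unfold Dat.μ; split_ifs <;> linarith

theorem Dat.OK.μm_nonneg (h : D.OK k) (y : X) : 0 ≤ D.μm y :=
  (h.ρ_nonneg y).trans (h.ρ_le y)

theorem Dat.OK.one_le_μ (h : D.OK k) : 1 ≤ D.μ D.x := by
  have := h.ρ_le D.x
  rw [Dat.μ, if_pos rfl]; linarith

theorem Dat.OK.sum_μ (h : D.OK k) : ∑ y, D.μ y = k := by
  simp [Dat.μ, sum_add_distrib, h.sum_ρ, h.sum_μm]

theorem Dat.OK.one_le_bm (h : D.OK k) {s : ℝ} (hs : 0 ≤ s) : 1 ≤ bm D.μ D.x s :=
  h.one_le_μ.trans (single_le_sum (fun y _ => h.μ_nonneg y) (by simpa using hs))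

theorem Dat.OK.bm_le (h : D.OK k) (z : X) (s : ℝ) : bm D.μ z s ≤ k :=
  (sum_le_sum_of_subset_of_nonneg (filter_subset _ _) fun y _ _ => h.μ_nonneg y).trans_eq h.sum_μ

theorem Dat.OK.one_le_V (h : D.OK k) (r : ℕ) : 1 ≤ D.V r :=
  h.one_le_bm (by positivity)

theorem Dat.OK.bm_μm_le (h : D.OK k) {s : ℝ} (hs : 0 ≤ s) : bm D.μm D.x s ≤ bm D.μ D.x s := by
  have h1 : bm D.ρ D.x s ≤ 1 :=
    (sum_le_sum_of_subset_of_nonneg (filter_subset _ _) fun y _ _ => h.ρ_nonneg y).trans_eq h.sum_ρ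
  have h2 : bm D.μ D.x s = bm D.μm D.x s - bm D.ρ D.x s + 1 := by
    simp [bm, Dat.μ, sum_add_distrib, hs]
  linarith

/-- `∑ μ f = ∑ μm f + ∑ ρ (f x - f y)` -/
theorem Dat.OK.sum_μ_mul (h : D.OK k) (f : X → ℝ) :
    ∑ y, D.μ y * f y = ∑ y, D.μm y * f y + ∑ y, D.ρ y * (f D.x - f y) := by
  simp only [Dat.μ, add_mul, sub_mul, mul_sub, sum_add_distrib, sum_sub_distrib, ← sum_mul, h.sum_ρ,
    ite_mul, one_mul, zero_mul, sum_ite_eq', mem_univ, if_true]
  ring

theorem Dat.OK.gamma_log_nonneg (h : D.OK k) {r j : ℕ} (hj : j < r) :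
    0 ≤ Real.log (D.V r / bm D.μ D.x j) := by
  have : (j : ℝ) ≤ r := by exact_mod_cast hj.le
  refine Real.log_nonneg ((one_le_div (zero_lt_one.trans_le (h.one_le_bm j.cast_nonneg))).2
    (bm_mono h.μ_nonneg _ ?_))
  linarith [j.cast_nonneg (α := ℝ)]

theorem Dat.OK.Γ_nonneg (h : D.OK k) (r : ℕ) : 0 ≤ D.Γ r :=
  div_nonneg (sum_nonneg fun _ hj => h.gamma_log_nonneg (mem_range.1 hj)) r.cast_nonneg

theorem Dat.OK.e1_nonneg (h : D.OK k) (r : ℕ) : 0 ≤ D.e1 r :=
  sum_nonneg fun y _ => mul_nonneg (h.ρ_nonneg y) (by positivity)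

theorem Dat.OK.e1_le_one (h : D.OK k) (r : ℕ) : D.e1 r ≤ 1 :=
  (sum_le_sum fun y _ => mul_le_of_le_one_right (h.ρ_nonneg y) (min_le_left _ _)).trans_eq h.sum_ρ

theorem Dat.OK.e2_nonneg (h : D.OK k) (r : ℕ) : 0 ≤ D.e2 r :=
  sum_nonneg fun y _ => mul_nonneg (h.ρ_nonneg y) (by positivity)

theorem gamma_min_sq {t : ℝ} (ht : 0 ≤ t) : min 1 (t ^ 2) = min 1 t ^ 2 := by
  rcases le_total 1 t with h | h
  · rw [min_eq_left h, min_eq_left (one_le_pow₀ h), one_pow]
  · rw [min_eq_right h, min_eq_right (pow_le_one₀ ht h)]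

theorem Dat.OK.e2_le_e1 (h : D.OK k) (r : ℕ) : D.e2 r ≤ D.e1 r := by
  refine sum_le_sum fun y _ => mul_le_mul_of_nonneg_left ?_ (h.ρ_nonneg y)
  rw [gamma_min_sq (by positivity), sq]
  exact mul_le_of_le_one_left (by positivity) (min_le_left _ _)

/-- Cauchy-Schwarz -/
theorem Dat.OK.e1_sq_le (h : D.OK k) (r : ℕ) : D.e1 r ^ 2 ≤ D.e2 r := by
  have := sum_sq_le_sum_mul_sum_of_sq_eq_mul univ (r := fun y => D.ρ y * min 1 (dist y D.x / r))
    (f := D.ρ) (g := fun y => D.ρ y * min 1 ((dist y D.x / r) ^ 2)) (fun y _ => h.ρ_nonneg y)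
    (fun y _ => mul_nonneg (h.ρ_nonneg y) (by positivity)) fun y _ => by
      rw [gamma_min_sq (by positivity)]; ring
  rwa [h.sum_ρ, one_mul] at this

theorem Dat.OK.mul_e1_le (h : D.OK k) {r : ℕ} (hr : 0 < r) :
    r * D.e1 r ≤ ∑ y, D.ρ y * dist y D.x := by
  have hr' : (0 : ℝ) < r := by exact_mod_cast hr
  rw [Dat.e1, mul_sum]
  refine sum_le_sum fun y _ => ?_
  rw [mul_left_comm]
  exact mul_le_mul_of_nonneg_left ((le_div_iff₀' hr').1 (min_le_right _ _)) (h.ρ_nonneg y)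

/-- the terms of `Γ` decrease in `j`: `(j+1)/r * log (V / a j) ≤ Γ` -/
theorem Dat.OK.log_le_Γ (h : D.OK k) {r j : ℕ} (hj : j < r) :
    ((j : ℝ) + 1) / r * Real.log (D.V r / bm D.μ D.x j) ≤ D.Γ r := by
  rw [div_mul_eq_mul_div, Dat.Γ]
  refine div_le_div_of_nonneg_right (le_trans ?_ (sum_le_sum_of_subset_of_nonneg
    (range_subset_range.2 hj) fun i hi _ => h.gamma_log_nonneg (mem_range.1 hi))) r.cast_nonneg
  have := card_nsmul_le_sum (range (j + 1)) (fun i : ℕ => Real.log (D.V r / bm D.μ D.x i))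
    (Real.log (D.V r / bm D.μ D.x j)) fun i hi => by
      have h1 := h.one_le_bm i.cast_nonneg
      have h2 := h.one_le_V r
      have h3 : bm D.μ D.x i ≤ bm D.μ D.x j :=
        bm_mono h.μ_nonneg _ (by exact_mod_cast mem_range_succ_iff.1 hi)
      have h4 : 0 < bm D.μ D.x j := by linarith
      gcongr
  simpa using this

theorem gamma_min_le (d : ℝ) (r : ℕ) :
    min (r : ℝ) d ≤ ∑ j ∈ range r, if (j : ℝ) < d then (1 : ℝ) else 0 := by
  induction r with
  | zero => simp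
  | succ r ih =>
    rw [sum_range_succ, Nat.cast_succ]
    split_ifs with h
    · rw [min_eq_left h.le] at ih
      linarith [min_le_left ((r : ℝ) + 1) d]
    · rw [min_eq_right (not_lt.1 h)] at ih
      linarith [min_le_right ((r : ℝ) + 1) d]

/-- `min 1 (d / r) ≤ (1/r) * #{j < r | j < d}` and `V - a ≤ V log (V / a)` -/
theorem Dat.OK.W_le (h : D.OK k) {r : ℕ} (hr : 0 < r) :
    ∑ y with dist y D.x ≤ 40 * r, D.μ y * min 1 (dist y D.x / r) ≤ D.V r * D.Γ r := by
  have hr' : (0 : ℝ) < r := by exact_mod_cast hr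
  rw [Dat.Γ, ← mul_div_assoc, le_div_iff₀ hr', sum_mul, mul_sum]
  calc _ ≤ ∑ y with dist y D.x ≤ 40 * r, ∑ j ∈ range r,
        D.μ y * if (j : ℝ) < dist y D.x then (1 : ℝ) else 0 := by
        refine sum_le_sum fun y _ => ?_
        rw [← mul_sum, mul_assoc, min_mul_of_nonneg _ _ hr'.le, one_mul, div_mul_cancel₀ _ hr'.ne']
        exact mul_le_mul_of_nonneg_left (gamma_min_le _ _) (h.μ_nonneg y)
    _ ≤ _ := by
        rw [sum_comm]
        refine sum_le_sum fun j hj => ?_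
        have hj' : (j : ℝ) ≤ r := by exact_mod_cast (mem_range.1 hj).le
        have h1 := h.one_le_bm j.cast_nonneg
        have h2 := h.one_le_V r
        have h3 : ∑ y with dist y D.x ≤ 40 * r, (D.μ y * if (j : ℝ) < dist y D.x then (1 : ℝ) else 0)
            = D.V r - bm D.μ D.x j := by
          simp only [Dat.V, bm, sum_filter, ← sum_sub_distrib]
          refine sum_congr rfl fun y _ => ?_
          split_ifs <;> linarith
        have h4 := mul_le_mul_of_nonneg_left (Real.one_sub_inv_le_log_of_pos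
          (x := D.V r / bm D.μ D.x j) (by positivity)) (zero_le_one.trans h2)
        rwa [inv_div, mul_sub, mul_one, mul_div_cancel₀ _ (by positivity), ← h3] at h4

theorem gamma_U {c : ℕ → ℝ} (hc : Monotone c) {m n : ℕ} (h : m ≤ n) :
    ∑ j ∈ range n, (c n - c j) ≤ ∑ j ∈ range m, (c m - c j) + n * (c n - c m) := by
  have h1 : ∑ j ∈ range n, (c m - c j) ≤ ∑ j ∈ range m, (c m - c j) := by
    induction n, h using Nat.le_induction with
    | base => exact le_rfl
    | succ n hn ih => rw [sum_range_succ]; linarith [hc hn]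
  simp only [sum_sub_distrib, sum_const, card_range, nsmul_eq_mul] at h1 ⊢
  linarith

theorem gamma_sum {c : ℕ → ℝ} (hc : Monotone c) (h0 : ∀ j, 0 ≤ c j) (J : ℕ) :
    ∑ l ∈ range J, (∑ j ∈ range (40 * 16 ^ (l + 1)), (c (40 * 16 ^ (l + 1)) - c j)) / 16 ^ (l + 1)
      + (∑ j ∈ range (40 * 16 ^ J), (c (40 * 16 ^ J) - c j)) / 16 ^ J / 15
      ≤ 640 / 15 * c (40 * 16 ^ J) := by
  induction J with
  | zero =>
    have : ∑ j ∈ range 40, (c 40 - c j) ≤ 40 * c 40 := by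
      simpa using sum_le_card_nsmul (range 40) (fun j => c 40 - c j) (c 40)
        fun j _ => sub_le_self _ (h0 j)
    simp only [range_zero, sum_empty, pow_zero, mul_one]
    linarith [h0 40]
  | succ J ih =>
    have h1 := div_le_div_of_nonneg_right (gamma_U hc (m := 40 * 16 ^ J) (n := 40 * 16 ^ (J + 1))
      (by rw [pow_succ]; omega)) (c := (16 : ℝ) ^ (J + 1)) (by positivity)
    rw [add_div, mul_div_right_comm, Nat.cast_mul, Nat.cast_pow, Nat.cast_ofNat, Nat.cast_ofNat,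
      mul_div_cancel_right₀ _ (by positivity)] at h1
    nth_rewrite 2 [pow_succ (16 : ℝ)] at h1
    rw [← div_div] at h1
    rw [sum_range_succ]
    linarith

/-- With `A l = log (a (40 * 16 ^ l)) ∈ [0, log k]`, nondecreasing:
`Γ (16 ^ l) ≤ 40 * A 0 / 16 ^ l + ∑ i < l, (A (i+1) - A i) * 640 * 16 ^ i / 16 ^ l`
(a term `j ≥ 40 * 16 ^ i` does not pay for the increments below `i`). -/
theorem Dat.OK.sum_Γ_le (h : D.OK k) (J : ℕ) :
    ∑ l ∈ range J, D.Γ (16 ^ (l + 1)) ≤ 50 * Real.log (k + 1) := by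
  let c : ℕ → ℝ := fun j => Real.log (bm D.μ D.x j)
  have hp : ∀ j : ℕ, 0 < bm D.μ D.x j := fun j => zero_lt_one.trans_le (h.one_le_bm j.cast_nonneg)
  have hc : Monotone c := fun i j hij =>
    Real.log_le_log (hp i) (bm_mono h.μ_nonneg _ (by exact_mod_cast hij))
  have h0 : ∀ j, 0 ≤ c j := fun j => Real.log_nonneg (h.one_le_bm j.cast_nonneg)
  have h1 : ∀ r : ℕ, D.Γ r ≤ (∑ j ∈ range (40 * r), (c (40 * r) - c j)) / r := fun r => by
    refine div_le_div_of_nonneg_right (le_trans (le_of_eq (sum_congr rfl fun j _ => ?_))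
      (sum_le_sum_of_subset_of_nonneg (range_subset_range.2 (show r ≤ 40 * r by omega))
        fun j hj _ => sub_nonneg.2 (hc (mem_range.1 hj).le))) r.cast_nonneg
    rw [Real.log_div (zero_lt_one.trans_le (h.one_le_V r)).ne' (hp j).ne']
    simp [c, Dat.V]
  have h2 := gamma_sum hc h0 J
  have h3 : 0 ≤ (∑ j ∈ range (40 * 16 ^ J), (c (40 * 16 ^ J) - c j)) / 16 ^ J / 15 :=
    div_nonneg (div_nonneg (sum_nonneg fun j hj => sub_nonneg.2 (hc (mem_range.1 hj).le))
      (by positivity)) (by norm_num)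
  have h4 : c (40 * 16 ^ J) ≤ Real.log (k + 1) :=
    Real.log_le_log (hp _) ((h.bm_le _ _).trans (by linarith))
  have h5 := sum_le_sum fun l (_ : l ∈ range J) => h1 (16 ^ (l + 1))
  simp only [Nat.cast_pow, Nat.cast_ofNat] at h5
  linarith [h0 (40 * 16 ^ J)]

theorem sum_pow_min_sq_le {d : ℝ} (hd : 0 ≤ d) (J : ℕ) :
    ∑ l ∈ range J, (16 : ℝ) ^ (l + 1) * min 1 ((d / (16 ^ (l + 1) : ℕ)) ^ 2) ≤ 3 * d := by
  have h : ∑ l ∈ range J, (16 : ℝ) ^ (l + 1) * min 1 ((d / (16 ^ (l + 1) : ℕ)) ^ 2) ≤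
      3 * d * 16 ^ J / (d + 16 ^ J) := by
    induction J with
    | zero => rw [sum_range_zero]; positivity
    | succ J ih =>
      rw [sum_range_succ, Nat.cast_pow, Nat.cast_ofNat, pow_succ 16 J]
      have hR : (0 : ℝ) < 16 ^ J := by positivity
      generalize (16 : ℝ) ^ J = R at hR ih ⊢
      have e : 3 * d * (R * 16) / (d + R * 16) =
          3 * d * R / (d + R) + 45 * d ^ 2 * R / ((d + R * 16) * (d + R)) := by
        field_simp; ring
      rw [e]
      refine add_le_add ih ?_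
      rw [le_div_iff₀ (by positivity)]
      rcases le_total d (R * 16) with h | h
      · calc _ ≤ R * 16 * (d / (R * 16)) ^ 2 * ((R * 16 + R * 16) * (R * 16 + R)) := by
              gcongr; exact min_le_right _ _
          _ = 34 * (d ^ 2 * R) := by field_simp; ring
          _ ≤ _ := by nlinarith [mul_nonneg (sq_nonneg d) hR.le]
      · calc _ ≤ R * 16 * 1 * ((d + d) * (d + d / 16)) := by
              gcongr
              exacts [min_le_left _ _, by linarith]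
          _ ≤ _ := by nlinarith [mul_nonneg (sq_nonneg d) hR.le]
  refine h.trans ?_
  rw [div_le_iff₀ (by positivity)]
  gcongr
  linarith

theorem Dat.OK.sum_e2_le (h : D.OK k) (J : ℕ) :
    ∑ l ∈ range J, (16 : ℝ) ^ (l + 1) * D.e2 (16 ^ (l + 1)) ≤ 3 * ∑ y, D.ρ y * dist y D.x := by
  simp only [Dat.e2, mul_sum]
  rw [sum_comm]
  refine sum_le_sum fun y _ => ?_
  simp only [mul_left_comm _ (D.ρ y), ← mul_sum]
  exact mul_le_mul_of_nonneg_left (sum_pow_min_sq_le dist_nonneg J) (h.ρ_nonneg y)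

/-- Abel summation; induction on `m` with the claim
`∑ l ≤ m, n l / V l ≤ (∑ l ≤ m, n l) / V m + 3 * log (V m)` -/
theorem abel_le {n V : ℕ → ℝ} {K : ℝ} (J : ℕ) (hK : 1 ≤ K) (hn : ∀ l, 0 ≤ n l)
    (hV : ∀ l, 1 ≤ V l) (hVK : ∀ l, V l ≤ K) (hm : ∀ l, V l ≤ V (l + 1))
    (hnV : ∀ m < J, ∑ l ∈ range (m + 1), n l ≤ 3 * V m) :
    ∑ l ∈ range J, n l / V l ≤ 3 + 3 * Real.log K := by
  have h0 : ∀ l, 0 < V l := fun l => zero_lt_one.trans_le (hV l)
  have h : ∀ m < J, ∑ l ∈ range (m + 1), n l / V l ≤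
      (∑ l ∈ range (m + 1), n l) / V m + 3 * Real.log (V m) := by
    intro m
    induction m with
    | zero => intro _; simpa using Real.log_nonneg (hV 0)
    | succ m ih =>
      intro hm'
      have h1 := ih (by omega)
      have h2 := Real.one_sub_inv_le_log_of_pos (div_pos (h0 (m + 1)) (h0 m))
      rw [inv_div, Real.log_div (h0 _).ne' (h0 _).ne'] at h2
      have h3 := mul_le_mul_of_nonneg_right (hnV m (by omega))
        (sub_nonneg.2 (inv_anti₀ (h0 m) (hm m)))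
      rw [mul_assoc, mul_sub, mul_sub, mul_inv_cancel₀ (h0 m).ne'] at h3
      rw [sum_range_succ, sum_range_succ n (m + 1), add_div]
      simp only [div_eq_mul_inv] at h1 h2 ⊢
      linarith
  rcases J with _ | m
  · rw [sum_range_zero]
    linarith [Real.log_nonneg hK]
  · linarith [h m m.lt_succ_self, (div_le_iff₀ (h0 m)).2 (hnV m m.lt_succ_self),
      Real.log_le_log (h0 m) (hVK m)]

end

end Crest.Agent.R314
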