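import Crest.Agent.R314.HSTLocB

/-! Row 314: the fractional algorithm on the tree. -/

set_option autoImplicit false

open Finset Crest.LogicCS.KServer

namespace Crest.Agent.R314

noncomputable section
open Classical

variable {V : Type} [Fintype V] {k : ℕ} {T : Tr V} {s : HS V k} {p : V → Fin k → ℝ}

namespace HS

/-- every irregular node lies below a changed node `c`; `sum_w_le`, `m2 c ≤ 2 mu c` -/
theorem Ok0.sum_irreg_le (h : s.Ok0 T) (hk : 2 ≤ k) (hp : T.Good p) :
    ∑ v with ¬s.Reg T p v, T.w v * m2 p v ≤ 4 * ∑ c with s.Chg T p c, T.w c * s.mu p c := by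
  have hf := h.fresh_mid hp
  have hm := (h.ok_mid hk hp).toOk0
  have h0 : ∀ v, 0 ≤ T.w v * m2 p v := fun v => mul_nonneg (T.w_pos v).le (m2_nonneg p v)
  calc ∑ v with ¬s.Reg T p v, T.w v * m2 p v
      ≤ ∑ v with ¬s.Reg T p v, ∑ c with s.Chg T p c, (if T.Sub v c then T.w v * m2 p v else 0) := by
        refine sum_le_sum fun v hv => ?_
        have hv' := (mem_filter.1 hv).2
        unfold Reg at hv'
        push Not at hv'
        obtain ⟨a, ha, hc⟩ := hv'
        have := single_le_sum (f := fun c => if T.Sub v c then T.w v * m2 p v else 0)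
          (s := univ.filter fun c => s.Chg T p c)
          (fun c _ => by split_ifs; exacts [h0 v, le_rfl]) (mem_filter.2 ⟨mem_univ a, hc⟩)
        simpa [ha] using this
    _ ≤ ∑ v, ∑ c with s.Chg T p c, (if T.Sub v c then T.w v * m2 p v else 0) :=
        sum_le_sum_of_subset_of_nonneg (filter_subset _ _) fun v _ _ =>
          sum_nonneg fun c _ => by split_ifs; exacts [h0 v, le_rfl]
    _ = ∑ c with s.Chg T p c, ∑ v with T.Sub v c, T.w v * m2 p v := by
        rw [sum_comm]
        exact sum_congr rfl fun c _ => (sum_filter _ _).symm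
    _ ≤ ∑ c with s.Chg T p c, 4 * (T.w c * s.mu p c) := by
        refine sum_le_sum fun c _ => ?_
        have h1 := hp.sa2.sum_w_le (m2_nonneg p) c
        have h2 : m2 p c ≤ 2 * s.mh' p c := hm.m2_le hf c
        have h3 : s.mh' p c ≤ s.mu p c := le_max_right _ _
        have := T.w_pos c
        nlinarith
    _ = _ := by rw [mul_sum]

/-- a regular node changes its `eta` only if it is the heavy child -/
theorem Ok0.abs_eta_sub_le (h : s.Ok0 T) (hk : 2 ≤ k) (hp : T.Good p) {a : V}
    (hr : s.Reg T p a) : |(s.mid T p).eta T a - s.eta T a| * m2 p a ≤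
      if a ≠ T.root ∧ a = s.hv (T.par a) then
        ∑ c ∈ T.ch (T.par a) with s.Chg T p c, s.mu p c else 0 := by
  have hf := h.fresh_mid hp
  have hm := (h.ok_mid hk hp).toOk0
  have hM := MM_ge hk
  by_cases ha : a = T.root
  · simp [eta, ha]
  have hn : ¬s.Chg T p a := hr a (T.sub_refl a)
  have hch : a ∈ T.ch (T.par a) := (T.mem_ch).2 ⟨ha, rfl⟩
  have hrp : s.Reg T p (T.par a) := fun b hb => hr b ((T.sub_par a).trans hb)
  have hmv := hrp.mh'_eq h hp
  have hS : 0 ≤ ∑ c ∈ T.ch (T.par a) with s.Chg T p c, s.mu p c :=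
    sum_nonneg fun c _ => h.mu_nonneg p c
  have hmh : s.mh' p a = s.mh a := by
    by_contra hne
    exact hn ⟨ha, Or.inl hne⟩
  have hhv := eq_hv_mid hch hn
  by_cases hh : a = s.hv (T.par a)
  · have hh' : a = (s.mid T p).hv (T.par a) := hhv.2 hh
    rw [if_pos ⟨ha, hh⟩]
    have e1 : (s.mid T p).eta T a = 30 * (s.mid T p).ebar T (T.par a) := by
      unfold eta; rw [if_neg ha, if_pos hh']
    have e2 : s.eta T a = 30 * s.ebar T (T.par a) := by
      unfold eta; rw [if_neg ha, if_pos hh]
    rw [e1, e2, ← mul_sub, abs_mul, abs_of_pos (by norm_num : (0 : ℝ) < 30)]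
    have h1 := h.abs_ebar_sub_le hk hp hmv
    have h2 : m2 p a ≤ m2 p (T.par a) := hp.sa2.mono (m2_nonneg p) (T.sub_par a)
    have h3 : m2 p (T.par a) ≤ 2 * s.mh' p (T.par a) := hm.m2_le hf _
    rw [hmv] at h3
    have h4 : (∑ c ∈ T.ch (T.par a) with s.Chg T p c, s.mu p c) / (20 * MM k) ≤
        (∑ c ∈ T.ch (T.par a) with s.Chg T p c, s.mu p c) / 60 :=
      div_le_div_of_nonneg_left hS (by norm_num) (by linarith)
    have h5 := abs_nonneg ((s.mid T p).ebar T (T.par a) - s.ebar T (T.par a))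
    nlinarith
  · have hh' : ¬a = (s.mid T p).hv (T.par a) := fun e => hh (hhv.1 e)
    rw [if_neg fun e => hh e.2]
    have e0 : (s.mid T p).mh a = s.mh a := hmh
    have e : (s.mid T p).eta T a = s.eta T a := by
      unfold eta
      rw [if_neg ha, if_neg ha, if_neg hh', if_neg hh, e0, (eps_mid hch hn hmv).1]
    rw [e]; simp

/-- `|Δsv v| ≤ ∑ |Δeta a|` over the (regular) ancestors `a`; exchange the sums, `sum_w_le` -/
theorem Ok0.sum_sens_le (h : s.Ok0 T) (hk : 2 ≤ k) (hp : T.Good p) :
    ∑ v with s.Reg T p v, T.w v * (|(s.mid T p).sv T v - s.sv T v| * m2 p v) ≤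
      2 * ∑ c with s.Chg T p c, T.w c * s.mu p c := by
  have h0 : ∀ v, 0 ≤ T.w v * m2 p v := fun v => mul_nonneg (T.w_pos v).le (m2_nonneg p v)
  set d : V → ℝ := fun a => |(s.mid T p).eta T a - s.eta T a| with hd
  have hd0 : ∀ a, 0 ≤ d a := fun a => abs_nonneg _
  have hmu := h.mu_nonneg p
  calc ∑ v with s.Reg T p v, T.w v * (|(s.mid T p).sv T v - s.sv T v| * m2 p v)
      ≤ ∑ v with s.Reg T p v, ∑ a with s.Reg T p a,
          (if T.Sub v a then d a * (T.w v * m2 p v) else 0) := by
        refine sum_le_sum fun v hv => ?_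
        have hv' := (mem_filter.1 hv).2
        have h1 : |(s.mid T p).sv T v - s.sv T v| ≤ ∑ a with T.Sub v a, d a := by
          unfold sv
          rw [← sum_sub_distrib]
          exact abs_sum_le_sum_abs _ _
        have h2 : ∑ a with T.Sub v a, d a =
            ∑ a with s.Reg T p a, (if T.Sub v a then d a else 0) := by
          rw [← sum_filter, filter_filter]
          refine sum_congr ?_ fun _ _ => rfl
          ext a
          simp only [mem_filter, mem_univ, true_and]
          exact ⟨fun ha => ⟨fun b hb => hv' b (ha.trans hb), ha⟩, fun ha => ha.2⟩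
        calc _ = |(s.mid T p).sv T v - s.sv T v| * (T.w v * m2 p v) := by ring
          _ ≤ (∑ a with s.Reg T p a, (if T.Sub v a then d a else 0)) * (T.w v * m2 p v) := by
            rw [← h2]; exact mul_le_mul_of_nonneg_right h1 (h0 v)
          _ = _ := by
            rw [sum_mul]
            exact sum_congr rfl fun a _ => by split_ifs <;> simp
    _ ≤ ∑ v, ∑ a with s.Reg T p a, (if T.Sub v a then d a * (T.w v * m2 p v) else 0) :=
        sum_le_sum_of_subset_of_nonneg (filter_subset _ _) fun v _ _ =>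
          sum_nonneg fun a _ => by split_ifs; exacts [mul_nonneg (hd0 a) (h0 v), le_rfl]
    _ = ∑ a with s.Reg T p a, d a * ∑ v with T.Sub v a, T.w v * m2 p v := by
        rw [sum_comm]
        refine sum_congr rfl fun a _ => ?_
        rw [mul_sum, sum_filter]
    _ ≤ ∑ a with s.Reg T p a, 2 * (T.w a * (if a ≠ T.root ∧ a = s.hv (T.par a) then
          ∑ c ∈ T.ch (T.par a) with s.Chg T p c, s.mu p c else 0)) := by
        refine sum_le_sum fun a ha => ?_
        have h1 := hp.sa2.sum_w_le (m2_nonneg p) a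
        have h2 := h.abs_eta_sub_le hk hp (mem_filter.1 ha).2
        have h3 := T.w_pos a
        calc _ ≤ d a * (2 * T.w a * m2 p a) := mul_le_mul_of_nonneg_left h1 (hd0 a)
          _ = 2 * (T.w a * (d a * m2 p a)) := by ring
          _ ≤ _ := by gcongr
    _ ≤ ∑ a with a ≠ T.root, 2 * (T.w a * (if a = s.hv (T.par a) then
          ∑ c ∈ T.ch (T.par a) with s.Chg T p c, s.mu p c else 0)) := by
        rw [sum_filter, sum_filter]
        refine sum_le_sum fun a _ => ?_
        have : 0 ≤ 2 * (T.w a * ∑ c ∈ T.ch (T.par a) with s.Chg T p c, s.mu p c) :=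
          mul_nonneg (by norm_num) (mul_nonneg (T.w_pos a).le (sum_nonneg fun c _ => hmu c))
        by_cases h1 : a = T.root <;> by_cases h2 : a = s.hv (T.par a) <;>
          by_cases h3 : s.Reg T p a <;> simp only [ne_eq, not_true_eq_false, not_false_eq_true,
            false_and, true_and, if_true, if_false, mul_zero, le_refl, h1, h3, ite_self] <;>
          first | rfl | (split_ifs <;> first | exact this | simp)
    _ = ∑ v, ∑ a ∈ T.ch v, 2 * (T.w a * (if a = s.hv (T.par a) then
          ∑ c ∈ T.ch (T.par a) with s.Chg T p c, s.mu p c else 0)) := (T.sum_ch _).symm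
    _ ≤ ∑ v, ∑ c ∈ T.ch v, 2 * (if s.Chg T p c then T.w c * s.mu p c else 0) := by
        refine sum_le_sum fun v _ => ?_
        have hw : ∀ c ∈ T.ch v, T.w c = T.w v / 16 := fun c hc => by
          obtain ⟨h1, h2⟩ := (T.mem_ch).1 hc
          rw [← h2, T.w_par h1]; ring
        have e1 : ∑ a ∈ T.ch v, 2 * (T.w a * (if a = s.hv (T.par a) then
            ∑ c ∈ T.ch (T.par a) with s.Chg T p c, s.mu p c else 0)) =
            ∑ a ∈ T.ch v, (if a = s.hv v then
              2 * (T.w v / 16 * ∑ c ∈ T.ch v with s.Chg T p c, s.mu p c) else 0) :=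
          sum_congr rfl fun a ha => by
            rw [hw a ha, ((T.mem_ch).1 ha).2]; split_ifs <;> simp
        have e2 : ∑ c ∈ T.ch v, 2 * (if s.Chg T p c then T.w c * s.mu p c else 0) =
            2 * (T.w v / 16 * ∑ c ∈ T.ch v with s.Chg T p c, s.mu p c) := by
          rw [sum_filter, mul_sum, mul_sum]
          exact sum_congr rfl fun c hc => by rw [hw c hc]; split_ifs <;> simp
        rw [e1, e2, sum_ite_eq']
        split_ifs
        · exact le_rfl
        · exact mul_nonneg (by norm_num) (mul_nonneg (div_nonneg (T.w_pos v).le (by norm_num))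
            (sum_nonneg fun c _ => hmu c))
    _ = ∑ c with c ≠ T.root, 2 * (if s.Chg T p c then T.w c * s.mu p c else 0) := T.sum_ch _
    _ ≤ ∑ c, 2 * (if s.Chg T p c then T.w c * s.mu p c else 0) :=
        sum_le_sum_of_subset_of_nonneg (filter_subset _ _) fun c _ _ => by
          split_ifs
          · exact mul_nonneg (by norm_num) (mul_nonneg (T.w_pos c).le (hmu c))
          · simp
    _ = _ := by rw [← mul_sum, sum_filter]

theorem sum_w_ch (T : Tr V) (f : V → ℝ) :
    ∑ v, T.w v / 16 * ∑ c ∈ T.ch v, f c = ∑ c with c ≠ T.root, T.w c * f c := by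
  rw [← T.sum_ch]
  refine sum_congr rfl fun v _ => ?_
  rw [mul_sum]
  refine sum_congr rfl fun c hc => ?_
  obtain ⟨h1, h2⟩ := (T.mem_ch).1 hc
  rw [← h2, T.w_par h1]; ring

theorem sum_w_ch_le (T : Tr V) {f : V → ℝ} (hf : ∀ c, 0 ≤ f c) :
    ∑ v, T.w v / 16 * ∑ c ∈ T.ch v, f c ≤ ∑ c, T.w c * f c := by
  rw [sum_w_ch]
  exact sum_le_sum_of_subset_of_nonneg (filter_subset _ _) fun c _ _ =>
    mul_nonneg (T.w_pos c).le (hf c)

/-- sum `w v / 16 *` (`locA` or `locB`), `Tr.sum_ch`, `w_par`; the movement appears on the right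
with the factor `6 / 16`; `sum_chg`, `Kp_step` -/
theorem Valid.amort (h : s.Valid T) (hk : 2 ≤ k) (hp : T.Good p) :
    ∑ v, T.w v * |(s.step T p).ν T v - s.ν T v| + (s.step T p).Pot T p ≤ s.Pot T p := by
  have hM := MM_ge hk
  have h0 := h.1.toOk0
  have hmu := h0.mu_nonneg p
  set M := MM k with hMd
  set dν : V → ℝ := fun v => |(s.step T p).ν T v - s.ν T v| with hdν
  set dJ : V → ℝ := fun v => |s.J' p v - s.J v| with hdJ
  set ds : V → ℝ := fun v => |(s.mid T p).sv T v - s.sv T v| * m2 p v with hds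
  set cm : V → ℝ := fun c => if s.Chg T p c then s.mu p c else 0 with hcm
  have hdν0 : ∀ v, 0 ≤ dν v := fun v => abs_nonneg _
  have hdJ0 : ∀ v, 0 ≤ dJ v := fun v => abs_nonneg _
  have hcm0 : ∀ v, 0 ≤ cm v := fun v => by
    simp only [hcm]; split_ifs; exacts [hmu v, le_rfl]
  have hloc : ∀ v, ∑ c ∈ T.ch v, dν c + (s.step T p).loc T p v - s.loc T p v ≤
      6 * dν v + 200 * M * ∑ c ∈ T.ch v, dJ c + 1600 * M * ∑ c ∈ T.ch v, cm c +
        160 * M * (if s.Reg T p v then ds v else 0) +
        700 * M * (if ¬s.Reg T p v then m2 p v else 0) := by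
    intro v
    have a1 : 0 ≤ ∑ c ∈ T.ch v, dJ c := sum_nonneg fun c _ => hdJ0 c
    have a2 : 0 ≤ ∑ c ∈ T.ch v, cm c := sum_nonneg fun c _ => hcm0 c
    by_cases hr : s.Reg T p v
    · have := h.locB hk hp hr
      rw [sum_filter] at this
      simp only [hr, if_true, not_true_eq_false, if_false, mul_zero, add_zero]
      exact this
    · have := h.locA hk hp v
      simp only [hr, if_false, not_false_eq_true, if_true, mul_zero, add_zero]
      have a3 := hdν0 v
      have a4 : ∑ c ∈ T.ch v, dJ c ≤ 200 * M * ∑ c ∈ T.ch v, dJ c := by nlinarith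
      have a5 : 0 ≤ 1600 * M * ∑ c ∈ T.ch v, cm c := by positivity
      change ∑ c ∈ T.ch v, dν c + _ - _ ≤ _ + ∑ c ∈ T.ch v, dJ c at this
      linarith
  have hsum := sum_le_sum fun v (_ : v ∈ univ) =>
    mul_le_mul_of_nonneg_left (hloc v) (div_nonneg (T.w_pos v).le (by norm_num : (0 : ℝ) ≤ 16))
  have eL : ∑ v, T.w v / 16 * (∑ c ∈ T.ch v, dν c + (s.step T p).loc T p v - s.loc T p v) =
      ∑ v, T.w v * dν v + ∑ v, T.w v / 16 * (s.step T p).loc T p v -
        ∑ v, T.w v / 16 * s.loc T p v := by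
    have e0 : ∑ v, T.w v * dν v = ∑ c with c ≠ T.root, T.w c * dν c := by
      rw [sum_filter]
      refine sum_congr rfl fun c _ => ?_
      split_ifs with hc
      · rfl
      · rw [not_not.1 hc]; simp [hdν, ν_root]
    rw [e0, ← sum_w_ch, ← sum_add_distrib, ← sum_sub_distrib]
    exact sum_congr rfl fun v _ => by ring
  have eR : ∑ v, T.w v / 16 * (6 * dν v + 200 * M * ∑ c ∈ T.ch v, dJ c +
        1600 * M * ∑ c ∈ T.ch v, cm c + 160 * M * (if s.Reg T p v then ds v else 0) +
        700 * M * (if ¬s.Reg T p v then m2 p v else 0)) =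
      3 / 8 * ∑ v, T.w v * dν v + 200 * M * ∑ v, T.w v / 16 * ∑ c ∈ T.ch v, dJ c +
        1600 * M * ∑ v, T.w v / 16 * ∑ c ∈ T.ch v, cm c +
        10 * M * ∑ v with s.Reg T p v, T.w v * ds v +
        700 / 16 * M * ∑ v with ¬s.Reg T p v, T.w v * m2 p v := by
    rw [sum_filter, sum_filter]
    simp only [mul_sum (s := univ), ← sum_add_distrib]
    refine sum_congr rfl fun v _ => ?_
    split_ifs <;> ring
  rw [eL, eR] at hsum
  have b1 := sum_w_ch_le T hdJ0
  have b2 := sum_w_ch_le T hcm0
  have b3 := h0.sum_sens_le hk hp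
  have b4 := h0.sum_irreg_le hk hp
  have b5 := h0.sum_chg p
  have b6 := h0.Kp_step hk hp
  have e2 : ∑ c, T.w c * cm c = ∑ c with s.Chg T p c, T.w c * s.mu p c := by
    rw [sum_filter]
    exact sum_congr rfl fun c _ => by simp only [hcm]; split_ifs <;> simp
  rw [e2] at b2
  have b7 : 0 ≤ ∑ v, T.w v * dν v := sum_nonneg fun v _ => mul_nonneg (T.w_pos v).le (hdν0 v)
  have b8 : 0 ≤ ∑ c with s.Chg T p c, T.w c * s.mu p c :=
    sum_nonneg fun v _ => mul_nonneg (T.w_pos v).le (hmu v)
  have hM0 : 0 ≤ M := by linarith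
  have c1 := mul_le_mul_of_nonneg_left b1 hM0
  have c2 := mul_le_mul_of_nonneg_left b2 hM0
  have c3 := mul_le_mul_of_nonneg_left b3 hM0
  have c4 := mul_le_mul_of_nonneg_left b4 hM0
  have c5 := mul_le_mul_of_nonneg_left b5 hM0
  have c8 := mul_nonneg hM0 b8
  unfold Pot
  change ∑ v, T.w v * dν v + _ ≤ _
  change _ + 200 * M * ∑ c, T.w c * dJ c + _ ≤ _ at b6
  change M * ∑ v with s.Reg T p v, T.w v * ds v ≤ _ at c3
  nlinarith

end HS

theorem exists_hst (k : ℕ) (hk : 2 ≤ k) (V : Type) [Fintype V] (T : Tr V) :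
    Nonempty (HSTAlg T k (200000000000 * Real.log (k + 1))) := by
  have hM : 200000000000 * Real.log (k + 1) = 2000000 * MM k := by unfold MM; ring
  have hM0 := MM_ge hk
  rw [hM]
  exact ⟨{
    S := HS V k
    init := HS.init T k
    step := fun s p => s.step T p
    ν := fun s => s.ν T
    Pot := fun s => s.Pot T
    G := fun s => s.G T
    Valid := fun s => s.Valid T
    valid_init := ⟨HS.init_ok T k, fun v => by rw [HS.init_ν]; split_ifs <;> positivity⟩
    ν_init := HS.init_ν T k
    pot_init := fun p hp => HS.init_pot hp hk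
    valid_step := fun s p h hp => h.step hk hp
    ν_root := fun s p _ _ => HS.ν_root T _
    ν_nonneg := fun s p h hp => (h.step hk hp).2
    ν_sa := fun s p h hp => (h.step hk hp).ν_sa hk
    ν_le := fun s p h hp v hv =>
      ((h.step hk hp).1.toOk0.ν_le_J hk hv).trans ((h.1.toOk0.fresh_step hp).J_le v)
    ν_ge := fun s p h hp v hv => (h.step hk hp).1.one_le_ν hk hp (h.1.toOk0.fresh_step hp)
      (h.1.toOk0.cap_step hk hp) hv
    amort := fun s p h hp => h.amort hk hp
    pot_ge := fun s p h hp => by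
      have h1 := (h.step hk hp).1.pot_ge hk hp (h.1.toOk0.fresh_step hp)
      have h2 : 0 ≤ ∑ v, T.w v * m2 p v :=
        sum_nonneg fun v _ => mul_nonneg (T.w_pos v).le (m2_nonneg p v)
      nlinarith
    G_le := fun s p h hp v i => h.1.abs_G_le hk hp v i
    concave := fun s p p' h hp hp' => h.1.concave hk hp hp' }⟩

end

end Crest.Agent.R314
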