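import Crest.Agent.R314.Tree

/-! Row 314: the fractional algorithm on the tree, definitions. -/

set_option autoImplicit false

open Finset Crest.LogicCS.KServer

namespace Crest.Agent.R314

noncomputable section
open Classical

/-! ## The entropic potential of one node -/

section phi
variable {ι : Type*}

def Ac (e σ z : ℝ) : ℝ := Real.log ((1 + σ) / (z + σ)) / e

def Ah (I : Finset ι) (z : ι → ℝ) : ℝ := Real.log (2 / (1 + (1 - ∑ c ∈ I, z c)))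

def Bc (I : Finset ι) (e σ z : ι → ℝ) : ℝ :=
  ∑ c ∈ I, (σ c * Ac (e c) (σ c) (z c) + z c / e c) + Ah I z + (1 - ∑ c ∈ I, z c)

def Phi (I : Finset ι) (e σ z Y : ι → ℝ) (Yh : ℝ) : ℝ :=
  ∑ c ∈ I, Ac (e c) (σ c) (z c) * Y c + Ah I z * Yh + Bc I e σ z * (∑ c ∈ I, Y c + Yh)

/-- `z'` satisfies the caps and the potential pays for the decrease of the light coordinates -/
structure Proj (I : Finset ι) (e σ z Y : ι → ℝ) (Yh : ℝ) (z' : ι → ℝ) : Prop where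
  nonneg : ∀ c ∈ I, 0 ≤ z' c
  sum_le : ∑ c ∈ I, z' c ≤ 1
  cap : ∀ c ∈ I, (∑ c ∈ I, Y c + Yh) * z' c ≤ (1 + e c) * Y c + e c * σ c * (∑ c ∈ I, Y c + Yh)
  cap_h : (∑ c ∈ I, Y c + Yh) * (1 - ∑ c ∈ I, z' c) ≤ Yh
  gain : Phi I e σ z' Y Yh + (∑ c ∈ I, Y c + Yh) / 2 * ∑ c ∈ I, max 0 (z c - z' c) ≤
    Phi I e σ z Y Yh

/-- admissible parameters -/
structure Par (I : Finset ι) (e σ z : ι → ℝ) (M : ℝ) : Prop where
  one_le : 1 ≤ M
  e_pos : ∀ c ∈ I, 0 < e c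
  e_le : ∀ c ∈ I, e c ≤ 1
  σ_pos : ∀ c ∈ I, 0 < σ c
  z_nonneg : ∀ c ∈ I, 0 ≤ z c
  z_sum : ∑ c ∈ I, z c ≤ 1
  A_le : ∀ c ∈ I, Ac (e c) (σ c) (z c) ≤ 3 * M
  B_le : Bc I e σ z ≤ 2 * M

end phi

/-! ## States -/

/-- stale posteriors `ph`, stale masses `mh`, heavy children `hv`, shares `z` -/
structure HS (V : Type) (k : ℕ) where
  ph : V → Fin k → ℝ
  mh : V → ℝ
  hv : V → V
  z : V → ℝ

def kap (q : ℝ) : ℝ := min 1 (2 * q ^ 2)

def MM (k : ℕ) : ℝ := 100000 * Real.log (k + 1)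

variable {V : Type} [Fintype V] {k : ℕ}

def Fs (t : ℝ) (p : V → Fin k → ℝ) (v : V) : ℝ := (1 - t) * m2 p v + t * m3 p v

namespace HS
variable (T : Tr V) (s : HS V k)

def J (v : V) : ℝ := ∑ i, kap (s.ph v i)

/-- light children -/
def lt (v : V) : Finset V := (T.ch v).filter fun c => c ≠ s.hv v ∧ 1 / 2 ≤ s.mh c

def g (c : V) : ℝ := Real.log (40 * s.mh (T.par c) / s.mh c)
def eps (c : V) : ℝ := s.g T c / MM k
def sig (c : V) : ℝ := Real.exp (-(2 * s.g T c))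
def ebar (v : V) : ℝ := ∑ c ∈ s.lt T v, s.eps T c * s.sig T c

def eta (c : V) : ℝ :=
  if c = T.root then 0 else if c = s.hv (T.par c) then 30 * s.ebar T (T.par c)
  else if 1 / 2 ≤ s.mh c then 60 * s.eps T c else 0

def sv (v : V) : ℝ := ∑ a with T.Sub v a, s.eta T a

def D (p : V → Fin k → ℝ) (c : V) : ℝ := s.J c - Fs (s.sv T c) p c
def Y (p : V → Fin k → ℝ) (c : V) : ℝ := (1 - s.eta T c / 30) * s.D T p c
def Yt (p : V → Fin k → ℝ) (v : V) : ℝ := ∑ c ∈ s.lt T v, s.Y T p c + s.Y T p (s.hv v)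

def zs (v : V) : ℝ := 1 - ∑ c ∈ s.lt T v, s.z c

def act (c : V) : Prop := c = s.hv (T.par c) ∨ 1 / 2 ≤ s.mh c
def live (v : V) : Prop := ∀ a, T.Sub v a → a ≠ T.root → s.act T a

def xx (c : V) : ℝ :=
  (if c = s.hv (T.par c) then s.zs T (T.par c) else max 0 (s.z c - s.eps T c * s.sig T c)) /
    (1 - s.ebar T (T.par c))

def SJ (v : V) : ℝ := ∑ c ∈ s.lt T v, s.J c + s.J (s.hv v)

def νf (c : V) (y : ℝ) : ℝ :=
  if s.live T c then s.J c - max 0 (s.SJ T (T.par c) - y) * s.xx T c else 0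

def ν : V → ℝ := (T.exists_down_rec (k : ℝ) (s.νf T)).choose

def Hp (v : V) : ℝ := max 0 (s.SJ T v - s.ν T v)

theorem ν_root : s.ν T T.root = k := (T.exists_down_rec (k : ℝ) (s.νf T)).choose_spec.1

theorem ν_eq {c : V} (hc : c ≠ T.root) :
    s.ν T c = if s.live T c then s.J c - s.Hp T (T.par c) * s.xx T c else 0 :=
  (T.exists_down_rec (k : ℝ) (s.νf T)).choose_spec.2 c hc

def Φ (p : V → Fin k → ℝ) (v : V) : ℝ :=
  Phi (s.lt T v) (s.eps T) (s.sig T) s.z (s.Y T p) (s.Y T p (s.hv v))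

def loc (p : V → Fin k → ℝ) (v : V) : ℝ :=
  if s.live T v ∧ 0 < T.lvl v then 20 * s.Φ T p v + 4 * (s.Hp T v * s.zs T v) else 0

def Kp (p : V → Fin k → ℝ) : ℝ :=
  400000 * MM k * ∑ v, T.w v * ∑ i, (s.ph v i ^ 2 - 2 * s.ph v i * p v i) +
    11000 * MM k * ∑ v, T.w v * |s.J v - s.mh v|

def Pot (p : V → Fin k → ℝ) : ℝ := 2 * (∑ v, T.w v / 16 * s.loc T p v + s.Kp T p)

/-! ## The step -/

def ph' (p : V → Fin k → ℝ) (v : V) (i : Fin k) : ℝ :=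
  if |p v i - s.ph v i| ≤ max (p v i) (s.ph v i) / 8 then s.ph v i else p v i

def J' (p : V → Fin k → ℝ) (v : V) : ℝ := ∑ i, kap (s.ph' p v i)

def mh' (p : V → Fin k → ℝ) (v : V) : ℝ :=
  if s.J' p v ≤ 2 * s.mh v ∧ s.mh v ≤ 2 * s.J' p v then s.mh v else s.J' p v

def hv' (p : V → Fin k → ℝ) (v : V) : V :=
  if h : (∃ c ∈ T.ch v, 2 * s.mh' p (s.hv v) < s.mh' p c) then
    (exists_max_image (T.ch v) (s.mh' p) ⟨_, h.choose_spec.1⟩).choose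
  else s.hv v

/-- the parameters of `c` among its siblings are renewed -/
def Chg (p : V → Fin k → ℝ) (c : V) : Prop :=
  c ≠ T.root ∧ (s.mh' p c ≠ s.mh c ∨ (s.hv' T p (T.par c) ≠ s.hv (T.par c) ∧
    (c = s.hv (T.par c) ∨ c = s.hv' T p (T.par c))))

/-- new parameters, shares of the changed children reset -/
def mid (p : V → Fin k → ℝ) : HS V k :=
  ⟨s.ph' p, s.mh' p, s.hv' T p, fun c => if s.Chg T p c then 0 else s.z c⟩

def IsProj (p : V → Fin k → ℝ) (v : V) (z' : V → ℝ) : Prop :=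
  Proj (s.lt T v) (s.eps T) (s.sig T) s.z (s.Y T p) (s.Y T p (s.hv v)) z'

def step (p : V → Fin k → ℝ) : HS V k :=
  { s.mid T p with z := fun c => Classical.epsilon ((s.mid T p).IsProj T p (T.par c)) c }

/-- no ancestor of `v` (including `v`) is changed -/
def Reg (p : V → Fin k → ℝ) (v : V) : Prop := ∀ a, T.Sub v a → ¬s.Chg T p a

def mu (p : V → Fin k → ℝ) (c : V) : ℝ := max (s.mh c) (s.mh' p c)

structure Ok0 : Prop where
  ph_nonneg : ∀ v i, 0 ≤ s.ph v i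
  ph_le : ∀ v i, s.ph v i ≤ 1
  ph_root : ∀ i, s.ph T.root i = 1
  mh_le : ∀ v, s.mh v ≤ 2 * s.J v
  J_le : ∀ v, s.J v ≤ 2 * s.mh v
  mh_root : s.mh T.root = k
  sum_mh : ∀ v, ∑ c ∈ T.ch v, s.mh c ≤ 12 * s.mh v
  hv_mem : ∀ v, 0 < T.lvl v → s.hv v ∈ T.ch v
  hv_ge : ∀ v, ∀ c ∈ T.ch v, s.mh c ≤ 2 * s.mh (s.hv v)
  z_nonneg : ∀ v, ∀ c ∈ s.lt T v, 0 ≤ s.z c
  z_sum : ∀ v, ∑ c ∈ s.lt T v, s.z c ≤ 1

structure Ok : Prop extends s.Ok0 T where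
  sv_le : ∀ v, s.sv T v ≤ 1

/-- the stale values are close to `p` -/
structure Fresh (p : V → Fin k → ℝ) : Prop where
  le_J : ∀ v, m2 p v ≤ s.J v
  J_le : ∀ v, s.J v ≤ 3 * m2 p v
  J_sub : ∀ v, s.J v - m3 p v ≤ 30 * (m2 p v - m3 p v)

/-- the caps on the shares -/
def Cap (p : V → Fin k → ℝ) : Prop := ∀ v, 0 < T.lvl v →
  (∀ c ∈ s.lt T v, s.Yt T p v * s.z c ≤
    (1 + s.eps T c) * s.Y T p c + s.eps T c * s.sig T c * s.Yt T p v) ∧
  s.Yt T p v * s.zs T v ≤ s.Y T p (s.hv v)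

def Valid : Prop := s.Ok T ∧ ∀ v, 0 ≤ s.ν T v

end HS

def HS.init (T : Tr V) (k : ℕ) : HS V k where
  ph v _ := if v = T.root then 1 else 0
  mh v := if v = T.root then k else 0
  hv v := if h : 0 < T.lvl v then (T.exists_child v h).choose else v
  z _ := 0

end

end Crest.Agent.R314
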