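import Crest.Agent.R314.HSTPar

/-! Row 314: the fractional masses after a step; concavity of the potential. -/

set_option autoImplicit false

open Finset Crest.LogicCS.KServer

namespace Crest.Agent.R314

noncomputable section
open Classical

variable {V : Type} [Fintype V] {k : ℕ} {T : Tr V} {s : HS V k} {p : V → Fin k → ℝ} {v c : V}

namespace HS

theorem nu_lvl_pos (hc : c ∈ T.ch v) : 0 < T.lvl v := by
  obtain ⟨h1, h2⟩ := T.mem_ch.1 hc
  have := T.lvl_par c h1
  rw [h2] at this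
  omega

theorem nu_lt_ch (hc : c ∈ s.lt T v) : c ∈ T.ch v := (mem_lt.1 hc).1

theorem Ok.nu_Yt_nonneg (h : s.Ok T) (hk : 2 ≤ k) (hp : T.Good p) (hf : s.Fresh p) (v : V) :
    0 ≤ s.Yt T p v :=
  add_nonneg (sum_nonneg fun c _ => h.Y_nonneg hk hp hf c) (h.Y_nonneg hk hp hf _)

theorem Ok.nu_child (h : s.Ok T) (hk : 2 ≤ k) (hp : T.Good p) (hf : s.Fresh p)
    (hc : c ∈ T.ch v) : s.J c - Fs (s.sv T v) p c ≤ s.Y T p c := by
  obtain ⟨h1, h2⟩ := T.mem_ch.1 hc
  have e1 := sv_par (T := T) (s := s) h1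
  rw [h2] at e1
  have e2 := h.D_le_S hk hp hf c
  have e3 := h.toOk0.eta_nonneg hk c
  have e4 : s.D T p c = s.J c - Fs (s.sv T c) p c := rfl
  have e5 := Fs_eq (s.sv T c) p c
  have e6 := Fs_eq (s.sv T v) p c
  have e7 := mul_le_mul_of_nonneg_left e2 e3
  unfold Y
  rw [e1] at e5
  rw [e1] at e4
  nlinarith

theorem Ok.nu_m3_le_Fs (h : s.Ok T) (hp : T.Good p) (u v : V) :
    m3 p v ≤ Fs (s.sv T u) p v := by
  have e1 := Fs_eq (s.sv T u) p v
  have e2 := hp.m3_le v
  have e3 := h.sv_le u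
  nlinarith

/-- `ν v ≥ F_{sv v} v ≥ ∑ F_{sv v} c` over the active children (`sa2`, `sa3`), and
`F_{sv v} c = F_{sv c} c + eta c * (m2 c - m3 c) ≥ F_{sv c} c + eta c / 30 * D c` -/
theorem Ok.Hp_le_Yt (h : s.Ok T) (hk : 2 ≤ k) (hp : T.Good p) (hf : s.Fresh p) (hv : 0 < T.lvl v)
    (hν : Fs (s.sv T v) p v ≤ s.ν T v) : s.Hp T v ≤ s.Yt T p v := by
  have h0 := h.nu_Yt_nonneg hk hp hf v
  unfold Hp
  refine max_le h0 ?_
  have hh := h.hv_mem v hv
  have a2 := h.toOk0.sum_act_le hv (f := m2 p) fun c _ => m2_nonneg p c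
  have a3 := h.toOk0.sum_act_le hv (f := m3 p) fun c _ => hp.m3_nonneg c
  have b2 := hp.sa2 v
  have b3 := hp.sa3 v
  have t0 := h.toOk0.sv_nonneg hk v
  have t1 := h.sv_le v
  have e1 : ∑ c ∈ s.lt T v, Fs (s.sv T v) p c + Fs (s.sv T v) p (s.hv v) ≤ Fs (s.sv T v) p v := by
    unfold Fs
    rw [sum_add_distrib, ← mul_sum, ← mul_sum]
    have c2 := mul_le_mul_of_nonneg_left (a2.trans b2) (sub_nonneg.2 t1)
    have c3 := mul_le_mul_of_nonneg_left (a3.trans b3) t0
    linarith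
  have e2 : ∑ c ∈ s.lt T v, (s.J c - Fs (s.sv T v) p c) ≤ ∑ c ∈ s.lt T v, s.Y T p c :=
    sum_le_sum fun c hc => h.nu_child hk hp hf (nu_lt_ch hc)
  have e3 := h.nu_child hk hp hf hh
  rw [sum_sub_distrib] at e2
  unfold SJ Yt
  linarith

/-- light: `(1 + eps) (1 - 2 eps) ≤ 1 - eps ≤ 1 - ebar` -/
theorem Ok.Yt_mul_xx_le (h : s.Ok T) (hk : 2 ≤ k) (hp : T.Good p) (hf : s.Fresh p)
    (hcap : s.Cap T p) (hc : c ∈ T.ch v) (ha : s.act T c) : s.Yt T p v * s.xx T c ≤ s.D T p c := by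
  have hv := nu_lvl_pos hc
  have h0 := h.nu_Yt_nonneg hk hp hf v
  have hb : 0 < 1 - s.ebar T v := by linarith [h.toOk0.ebar_le' hk v]
  have hD := h.D_nonneg hk hp hf c
  rcases (act_iff hc).1 ha with hl | hl
  · have e1 := (hcap v hv).1 c hl
    have e2 := h.toOk0.eps_ge hk hl
    have e3 := h.toOk0.ebar_le hk v
    have e4 := h.eps_le hk hl
    have e5 := h.toOk0.eps_pos hk hl
    have hM : 0 < MM k := by linarith [MM_ge hk]
    have e6 : s.ebar T v ≤ s.eps T c := by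
      refine e3.trans (le_trans ?_ e2)
      exact div_le_div_of_nonneg_right (by norm_num) hM.le
    have e7 : s.Y T p c = (1 - 2 * s.eps T c) * s.D T p c := by
      unfold Y
      rw [eta_lt hl]
      ring
    have e8 : (1 + s.eps T c) * s.Y T p c ≤ (1 - s.ebar T v) * s.D T p c := by
      rw [e7, ← mul_assoc]
      refine mul_le_mul_of_nonneg_right ?_ hD
      nlinarith
    rw [xx_lt hl, ← mul_div_assoc, div_le_iff₀ hb]
    rcases le_total 0 (s.z c - s.eps T c * s.sig T c) with h1 | h1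
    · rw [max_eq_right h1]
      nlinarith
    · rw [max_eq_left h1, mul_zero]
      exact mul_nonneg hD hb.le
  · subst hl
    have e1 := (hcap v hv).2
    rw [h.toOk0.xx_hv hv, ← mul_div_assoc, div_le_iff₀ hb]
    refine e1.trans (le_of_eq ?_)
    unfold Y
    rw [h.toOk0.eta_hv hv]
    ring

/-- `Tr.down_ind` -/
theorem Ok.F_le_ν (h : s.Ok T) (hk : 2 ≤ k) (hp : T.Good p) (hf : s.Fresh p) (hcap : s.Cap T p)
    (hl : s.live T v) : Fs (s.sv T v) p v ≤ s.ν T v := by
  revert hl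
  refine T.down_ind (p := fun v => s.live T v → Fs (s.sv T v) p v ≤ s.ν T v) ?_ ?_ v
  · intro _
    rw [sv_root, ν_root, Fs_eq, hp.root]
    simp
  · intro c hc ih hl
    obtain ⟨ha, hl'⟩ := (live_iff hc).1 hl
    have hch : c ∈ T.ch (T.par c) := T.mem_ch.2 ⟨hc, rfl⟩
    have e1 := h.Hp_le_Yt hk hp hf (nu_lvl_pos hch) (ih hl')
    have e2 := h.Yt_mul_xx_le hk hp hf hcap hch ha
    have e3 := mul_le_mul_of_nonneg_right e1 (h.toOk0.xx_nonneg hk c)
    rw [ν_eq T s hc, if_pos hl]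
    unfold D at e2
    linarith

theorem Ok.ν_nonneg (h : s.Ok T) (hk : 2 ≤ k) (hp : T.Good p) (hf : s.Fresh p) (hcap : s.Cap T p)
    (v : V) : 0 ≤ s.ν T v := by
  by_cases hl : s.live T v
  · exact ((hp.m3_nonneg v).trans (h.nu_m3_le_Fs hp v v)).trans (h.F_le_ν hk hp hf hcap hl)
  · have hv : v ≠ T.root := by
      rintro rfl
      exact hl (live_root T s)
    rw [ν_eq T s hv, if_neg hl]

theorem Valid.ν_sa (h : s.Valid T) (hk : 2 ≤ k) : T.SA (s.ν T) := by
  intro v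
  obtain ⟨ho, h0⟩ := h
  by_cases hv : s.live T v ∧ 0 < T.lvl v
  · obtain ⟨hl, hv0⟩ := hv
    have hh := ho.hv_mem v hv0
    have e0 : ∀ c ∈ T.ch v, s.act T c → s.ν T c = s.J c - s.Hp T v * s.xx T c := by
      intro c hc ha
      obtain ⟨h1, h2⟩ := T.mem_ch.1 hc
      rw [ν_eq T s h1, if_pos ((live_iff h1).2 ⟨ha, h2 ▸ hl⟩), h2]
    rw [ho.toOk0.sum_act_eq hv0]
    · rw [sum_congr rfl fun c hc => e0 c (nu_lt_ch hc) ((act_iff (nu_lt_ch hc)).2 (Or.inl hc)),
        e0 _ hh ((act_iff hh).2 (Or.inr rfl)), sum_sub_distrib, ← mul_sum]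
      have e1 := mul_le_mul_of_nonneg_left (ho.toOk0.one_le_sum_xx hk hv0) (Hp_nonneg T s v)
      have e2 : s.SJ T v - s.ν T v ≤ s.Hp T v := le_max_right _ _
      unfold SJ at e2
      linarith
    · intro c hc hn
      have h1 := (T.mem_ch.1 hc).1
      rw [ν_eq T s h1, if_neg fun h2 => hn ((live_iff h1).1 h2).1]
  · refine le_trans (le_of_eq (sum_eq_zero fun c hc => ?_)) (h0 v)
    obtain ⟨h1, h2⟩ := T.mem_ch.1 hc
    rw [ν_eq T s h1, if_neg]
    intro h3
    have h4 := ((live_iff h1).1 h3).2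
    rw [h2] at h4
    exact hv ⟨h4, nu_lvl_pos hc⟩

/-- all ancestors have `m2 ≥ m3 ≥ 1`, hence `mh ≥ 1 / 2` -/
theorem Ok.one_le_ν (h : s.Ok T) (hk : 2 ≤ k) (hp : T.Good p) (hf : s.Fresh p) (hcap : s.Cap T p)
    (hv : 1 ≤ m3 p v) : 1 ≤ s.ν T v := by
  have hl : s.live T v := by
    intro a ha _
    have e1 := hp.sa3.mono hp.m3_nonneg ha
    have e2 := hp.m3_le a
    have e3 := h.toOk0.m2_le hf a
    exact Or.inr (by linarith)
  exact (hv.trans (h.nu_m3_le_Fs hp v v)).trans (h.F_le_ν hk hp hf hcap hl)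

omit [Fintype V] in
theorem nu_init_J (T : Tr V) (k : ℕ) (v : V) :
    (init T k).J v = if v = T.root then (k : ℝ) else 0 := by
  unfold J init kap
  split_ifs with h
  · simp [h]
  · simp [h]

omit [Fintype V] in
theorem nu_init_mh (T : Tr V) (k : ℕ) (v : V) :
    (init T k).mh v = if v = T.root then (k : ℝ) else 0 := rfl

theorem nu_init_lt (T : Tr V) (k : ℕ) (v : V) : (init T k).lt T v = ∅ := by
  refine eq_empty_of_forall_notMem fun c hc => ?_
  obtain ⟨h1, -, h3⟩ := mem_lt.1 hc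
  rw [nu_init_mh, if_neg (T.mem_ch.1 h1).1] at h3
  norm_num at h3

theorem nu_init_eta (T : Tr V) (k : ℕ) (c : V) : (init T k).eta T c = 0 := by
  unfold eta
  split_ifs with h1 h2 h3
  · rfl
  · simp [ebar, nu_init_lt]
  · rw [nu_init_mh, if_neg h1] at h3
    norm_num at h3
  · rfl

theorem nu_init_sv (T : Tr V) (k : ℕ) (v : V) : (init T k).sv T v = 0 := by
  simp [sv, nu_init_eta]

theorem nu_init_hv (T : Tr V) (k : ℕ) (hv : 0 < T.lvl v) : (init T k).hv v ∈ T.ch v := by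
  have : (init T k).hv v = (T.exists_child v hv).choose := by
    simp [init, hv]
  rw [this]
  exact T.mem_ch.2 (T.exists_child v hv).choose_spec

theorem nu_init_SJ (T : Tr V) (k : ℕ) (hv : 0 < T.lvl v) : (init T k).SJ T v = 0 := by
  unfold SJ
  rw [nu_init_lt, nu_init_J, if_neg (T.mem_ch.1 (nu_init_hv T k hv)).1]
  simp

theorem init_ok (T : Tr V) (k : ℕ) : (init T k).Ok T := by
  have hk : (0 : ℝ) ≤ k := Nat.cast_nonneg k
  have hm : ∀ v, 0 ≤ (init T k).mh v := by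
    intro v
    rw [nu_init_mh]
    split_ifs
    · exact hk
    · exact le_rfl
  have hm0 : ∀ v, ∀ c ∈ T.ch v, (init T k).mh c = 0 := by
    intro v c hc
    rw [nu_init_mh, if_neg (T.mem_ch.1 hc).1]
  refine ⟨⟨?_, ?_, ?_, ?_, ?_, ?_, ?_, ?_, ?_, ?_, ?_⟩, ?_⟩
  · intro v i
    simp only [init]
    split_ifs <;> norm_num
  · intro v i
    simp only [init]
    split_ifs <;> norm_num
  · intro i
    simp [init]
  · intro v
    rw [nu_init_J, nu_init_mh]
    split_ifs <;> linarith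
  · intro v
    rw [nu_init_J, nu_init_mh]
    split_ifs <;> linarith
  · rw [nu_init_mh, if_pos rfl]
  · intro v
    rw [sum_eq_zero (hm0 v)]
    linarith [hm v]
  · intro v hv
    exact nu_init_hv T k hv
  · intro v c hc
    rw [hm0 v c hc]
    linarith [hm ((init T k).hv v)]
  · intro v c _
    exact le_rfl
  · intro v
    rw [nu_init_lt]
    simp
  · intro v
    rw [nu_init_sv]
    norm_num

theorem init_ν (T : Tr V) (k : ℕ) (v : V) :
    (init T k).ν T v = if v = T.root then (k : ℝ) else 0 := by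
  refine T.down_ind (p := fun v => (init T k).ν T v = if v = T.root then (k : ℝ) else 0) ?_ ?_ v
  · rw [ν_root, if_pos rfl]
  · intro c hc ih
    have hch : c ∈ T.ch (T.par c) := T.mem_ch.2 ⟨hc, rfl⟩
    have e1 : (init T k).Hp T (T.par c) = 0 := by
      unfold Hp
      rw [nu_init_SJ T k (nu_lvl_pos hch), ih]
      refine max_eq_left ?_
      have hk : (0 : ℝ) ≤ k := Nat.cast_nonneg k
      split_ifs <;> linarith
    rw [ν_eq T _ hc, e1, nu_init_J, if_neg hc]
    simp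

/-- no light children, `zs = 1`, `Φ v = Y (hv v) = -F ≤ 0`, `Hp = 0` -/
theorem init_pot (hp : T.Good p) (hk : 2 ≤ k) : (init T k).Pot T p ≤ 0 := by
  have hM : 0 < MM k := by linarith [MM_ge hk]
  have e1 : ∀ v, (init T k).loc T p v ≤ 0 := by
    intro v
    unfold loc
    split_ifs with hv
    · have e2 : (init T k).Hp T v = 0 := by
        unfold Hp
        rw [nu_init_SJ T k hv.2, init_ν]
        refine max_eq_left ?_
        have hk : (0 : ℝ) ≤ k := Nat.cast_nonneg k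
        split_ifs <;> linarith
      have e3 : (init T k).Φ T p v = -m2 p ((init T k).hv v) := by
        unfold Φ Phi Bc Ah Y D
        rw [nu_init_lt, nu_init_eta, nu_init_sv, nu_init_J,
          if_neg (T.mem_ch.1 (nu_init_hv T k hv.2)).1, Fs_eq]
        norm_num
      rw [e2, e3]
      linarith [m2_nonneg p ((init T k).hv v)]
    · exact le_rfl
  have e2 : ∑ v, T.w v / 16 * (init T k).loc T p v ≤ 0 :=
    sum_nonpos fun v _ => mul_nonpos_of_nonneg_of_nonpos (by linarith [T.w_pos v]) (e1 v)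
  have e3 : ∑ v, T.w v * ∑ i, ((init T k).ph v i ^ 2 - 2 * (init T k).ph v i * p v i) ≤ 0 := by
    refine sum_nonpos fun v _ => mul_nonpos_of_nonneg_of_nonpos (T.w_pos v).le
      (sum_nonpos fun i _ => ?_)
    simp only [init]
    split_ifs with hv
    · rw [hv, hp.root_eq i]
      norm_num
    · norm_num
  have e4 : ∑ v, T.w v * |(init T k).J v - (init T k).mh v| = 0 := by
    refine sum_eq_zero fun v _ => ?_
    rw [nu_init_J, nu_init_mh]
    simp
  unfold Pot Kp
  rw [e4]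
  have e5 := mul_nonpos_of_nonneg_of_nonpos (show 0 ≤ 400000 * MM k by linarith) e3
  linarith

theorem Ok.pot_ge (h : s.Ok T) (hk : 2 ≤ k) (hp : T.Good p) (hf : s.Fresh p) :
    -(800000 * MM k * ∑ v, T.w v * m2 p v) ≤ s.Pot T p := by
  have hM : 0 < MM k := by linarith [MM_ge hk]
  have e1 : ∀ v, 0 ≤ s.loc T p v := by
    intro v
    unfold loc
    split_ifs with hv
    · have e2 : 0 ≤ s.Φ T p v :=
        (h.par hk v).phi_nonneg (fun c _ => h.Y_nonneg hk hp hf c) (h.Y_nonneg hk hp hf _)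
      have e3 := mul_nonneg (Hp_nonneg T s v) (h.toOk0.zs_nonneg v)
      linarith
    · exact le_rfl
  have e2 : 0 ≤ ∑ v, T.w v / 16 * s.loc T p v :=
    sum_nonneg fun v _ => mul_nonneg (by linarith [T.w_pos v]) (e1 v)
  have e3 : -∑ v, T.w v * m2 p v ≤ ∑ v, T.w v * ∑ i, (s.ph v i ^ 2 - 2 * s.ph v i * p v i) := by
    rw [← sum_neg_distrib]
    refine sum_le_sum fun v _ => ?_
    rw [← mul_neg]
    refine mul_le_mul_of_nonneg_left ?_ (T.w_pos v).le
    unfold m2
    rw [← sum_neg_distrib]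
    exact sum_le_sum fun i _ => by nlinarith [sq_nonneg (s.ph v i - p v i)]
  have e4 : 0 ≤ ∑ v, T.w v * |s.J v - s.mh v| :=
    sum_nonneg fun v _ => mul_nonneg (T.w_pos v).le (abs_nonneg _)
  have e5 := mul_le_mul_of_nonneg_left e3 (show 0 ≤ 400000 * MM k by linarith)
  have e6 := mul_nonneg (show 0 ≤ 11000 * MM k by linarith) e4
  unfold Pot Kp
  linarith

/-- coefficient of `D c` in `Φ (par c)` -/
def coef (T : Tr V) (s : HS V k) (c : V) : ℝ :=
  if c ≠ T.root ∧ s.live T c then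
    ((if c = s.hv (T.par c) then Ah (s.lt T (T.par c)) s.z
      else Ac (s.eps T c) (s.sig T c) (s.z c)) +
      Bc (s.lt T (T.par c)) (s.eps T) (s.sig T) s.z) * (1 - s.eta T c / 30)
  else 0

theorem Ok.coef_nonneg (h : s.Ok T) (hk : 2 ≤ k) (c : V) : 0 ≤ s.coef T c := by
  unfold coef
  split_ifs with h1 h2
  · have hp := h.par hk (T.par c)
    exact mul_nonneg (add_nonneg hp.Ah_nonneg hp.B_nonneg) (by linarith [h.eta_le hk c])
  · have hp := h.par hk (T.par c)
    have hch : c ∈ T.ch (T.par c) := T.mem_ch.2 ⟨h1.1, rfl⟩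
    have hl : c ∈ s.lt T (T.par c) :=
      ((act_iff hch).1 ((live_iff h1.1).1 h1.2).1).resolve_right h2
    exact mul_nonneg (add_nonneg (hp.A_nonneg hl) hp.B_nonneg) (by linarith [h.eta_le hk c])
  · exact le_rfl

theorem Ok.coef_le (h : s.Ok T) (hk : 2 ≤ k) (c : V) : s.coef T c ≤ 5 * MM k := by
  have hM := MM_ge hk
  have e0 := h.toOk0.eta_nonneg hk c
  unfold coef
  split_ifs with h1 h2
  · have hp := h.par hk (T.par c)
    have a1 := hp.Ah_nonneg
    have a2 := hp.B_nonneg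
    have a3 := hp.Ah_le
    have a4 := hp.B_le
    nlinarith [mul_nonneg (add_nonneg a1 a2) e0]
  · have hp := h.par hk (T.par c)
    have hch : c ∈ T.ch (T.par c) := T.mem_ch.2 ⟨h1.1, rfl⟩
    have hl : c ∈ s.lt T (T.par c) :=
      ((act_iff hch).1 ((live_iff h1.1).1 h1.2).1).resolve_right h2
    have a1 := hp.A_nonneg hl
    have a2 := hp.B_nonneg
    have a3 := hp.A_le c hl
    have a4 := hp.B_le
    nlinarith [mul_nonneg (add_nonneg a1 a2) e0]
  · linarith

theorem Ok.nu_loc_sub (h : s.Ok T) (p p' : V → Fin k → ℝ) (v : V) :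
    T.w v / 16 * s.loc T p' v - T.w v / 16 * s.loc T p v =
      ∑ c ∈ T.ch v, 20 * (T.w c * s.coef T c * (Fs (s.sv T c) p c - Fs (s.sv T c) p' c)) := by
  by_cases hv : s.live T v ∧ 0 < T.lvl v
  · obtain ⟨hl, hv0⟩ := hv
    have hw : ∀ c ∈ T.ch v, T.w c = T.w v / 16 := by
      intro c hc
      obtain ⟨h1, h2⟩ := T.mem_ch.1 hc
      have := T.w_par h1
      rw [h2] at this
      linarith
    have hh := h.hv_mem v hv0
    rw [h.toOk0.sum_act_eq hv0]
    · have e1 : ∀ c ∈ s.lt T v,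
          20 * (T.w c * s.coef T c * (Fs (s.sv T c) p c - Fs (s.sv T c) p' c)) =
          T.w v / 16 * 20 * ((Ac (s.eps T c) (s.sig T c) (s.z c) +
            Bc (s.lt T v) (s.eps T) (s.sig T) s.z) * s.Y T p' c) -
          T.w v / 16 * 20 * ((Ac (s.eps T c) (s.sig T c) (s.z c) +
            Bc (s.lt T v) (s.eps T) (s.sig T) s.z) * s.Y T p c) := by
        intro c hc
        have hc' := nu_lt_ch hc
        obtain ⟨h1, h2⟩ := T.mem_ch.1 hc'
        have hlc : s.live T c := (live_iff h1).2 ⟨(act_iff hc').2 (Or.inl hc), h2 ▸ hl⟩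
        have hne : c ≠ s.hv v := (mem_lt.1 hc).2.1
        unfold coef
        rw [if_pos ⟨h1, hlc⟩, h2, if_neg hne, hw c hc']
        unfold Y D
        ring
      have e2 : 20 * (T.w (s.hv v) * s.coef T (s.hv v) *
          (Fs (s.sv T (s.hv v)) p (s.hv v) - Fs (s.sv T (s.hv v)) p' (s.hv v))) =
          T.w v / 16 * 20 * ((Ah (s.lt T v) s.z +
            Bc (s.lt T v) (s.eps T) (s.sig T) s.z) * s.Y T p' (s.hv v)) -
          T.w v / 16 * 20 * ((Ah (s.lt T v) s.z +
            Bc (s.lt T v) (s.eps T) (s.sig T) s.z) * s.Y T p (s.hv v)) := by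
        obtain ⟨h1, h2⟩ := T.mem_ch.1 hh
        have hlc : s.live T (s.hv v) :=
          (live_iff h1).2 ⟨(act_iff hh).2 (Or.inr rfl), h2.symm ▸ hl⟩
        unfold coef
        rw [if_pos ⟨h1, hlc⟩, h2, if_pos rfl, hw _ hh]
        unfold Y D
        ring
      rw [sum_congr rfl e1, e2, sum_sub_distrib, ← mul_sum, ← mul_sum]
      unfold loc Φ
      rw [if_pos ⟨hl, hv0⟩, if_pos ⟨hl, hv0⟩, Phi_eq, Phi_eq]
      ring
    · intro c hc hn
      have : s.coef T c = 0 := by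
        unfold coef
        rw [if_neg]
        rintro ⟨h1, h2⟩
        exact hn ((live_iff h1).1 h2).1
      rw [this]
      ring
  · unfold loc
    rw [if_neg hv, if_neg hv, sub_self]
    refine (sum_eq_zero fun c hc => ?_).symm
    have : s.coef T c = 0 := by
      unfold coef
      rw [if_neg]
      rintro ⟨h1, h2⟩
      have h3 := ((live_iff h1).1 h2).2
      rw [(T.mem_ch.1 hc).2] at h3
      exact hv ⟨h3, nu_lvl_pos hc⟩
    rw [this]
    ring

theorem Ok.sum_loc_sub (h : s.Ok T) (p p' : V → Fin k → ℝ) :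
    ∑ v, T.w v / 16 * s.loc T p' v - ∑ v, T.w v / 16 * s.loc T p v =
      20 * ∑ c, T.w c * s.coef T c * (Fs (s.sv T c) p c - Fs (s.sv T c) p' c) := by
  rw [← sum_sub_distrib, sum_congr rfl fun v _ => h.nu_loc_sub p p' v, T.sum_ch, mul_sum,
    sum_filter]
  refine sum_congr rfl fun c _ => ?_
  split_ifs with hc
  · rfl
  · have : s.coef T c = 0 := by
      unfold coef
      rw [if_neg fun h1 => hc h1.1]
    rw [this]
    ring

def G (T : Tr V) (s : HS V k) (p : V → Fin k → ℝ) (v : V) (i : Fin k) : ℝ :=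
  -(40 * (T.w v * s.coef T v) * (2 * (1 - s.sv T v) * p v i + 3 * s.sv T v * p v i ^ 2)) -
    1600000 * MM k * T.w v * s.ph v i

theorem Ok.abs_G_le (h : s.Ok T) (hk : 2 ≤ k) (hp : T.Good p) (v : V) (i : Fin k) :
    |s.G T p v i| ≤ 2000000 * MM k * T.w v := by
  have hM := MM_ge hk
  have hw := T.w_pos v
  have c0 := h.coef_nonneg hk v
  have c1 := h.coef_le hk v
  have t0 := h.toOk0.sv_nonneg hk v
  have t1 := h.sv_le v
  have p0 := hp.nonneg v i
  have p1 := hp.le_one v i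
  have q0 := h.ph_nonneg v i
  have q1 := h.ph_le v i
  have p2 : p v i ^ 2 ≤ 1 := by nlinarith
  have a0 : 0 ≤ 2 * (1 - s.sv T v) * p v i + 3 * s.sv T v * p v i ^ 2 := by
    have := sub_nonneg.2 t1
    positivity
  have a1 : 2 * (1 - s.sv T v) * p v i + 3 * s.sv T v * p v i ^ 2 ≤ 3 := by
    nlinarith [mul_le_mul_of_nonneg_left p1 (sub_nonneg.2 t1), mul_le_mul_of_nonneg_left p2 t0]
  have b0 : 0 ≤ T.w v * s.coef T v := mul_nonneg hw.le c0
  have b1 : T.w v * s.coef T v ≤ T.w v * (5 * MM k) := mul_le_mul_of_nonneg_left c1 hw.le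
  have b2 := mul_le_mul b1 a1 a0 (b0.trans b1)
  have b3 := mul_nonneg b0 a0
  have d0 : 0 ≤ MM k * T.w v := by positivity
  have d1 := mul_le_mul_of_nonneg_left q1 d0
  have d2 := mul_nonneg d0 q0
  unfold G
  rw [abs_le]
  constructor <;> nlinarith

/-- `x ^ 2` and `x ^ 3` lie above their tangents on `[0, 1]` -/
theorem Ok.concave (h : s.Ok T) (hk : 2 ≤ k) {p' : V → Fin k → ℝ} (hp : T.Good p)
    (hp' : T.Good p') :
    s.Pot T p' ≤ s.Pot T p + ∑ v, ∑ i, s.G T p v i * (p' v i - p v i) := by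
  have e1 := h.sum_loc_sub p p'
  have e2 : ∀ v, 40 * (T.w v * s.coef T v * (Fs (s.sv T v) p v - Fs (s.sv T v) p' v)) +
      800000 * MM k * (T.w v * ∑ i, (s.ph v i ^ 2 - 2 * s.ph v i * p' v i) -
        T.w v * ∑ i, (s.ph v i ^ 2 - 2 * s.ph v i * p v i)) ≤
      ∑ i, s.G T p v i * (p' v i - p v i) := by
    intro v
    have t0 := h.toOk0.sv_nonneg hk v
    have t1 := sub_nonneg.2 (h.sv_le v)
    have b0 : 0 ≤ T.w v * s.coef T v := mul_nonneg (T.w_pos v).le (h.coef_nonneg hk v)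
    unfold Fs m2 m3
    simp only [mul_sum, ← sum_add_distrib, ← sum_sub_distrib]
    refine sum_le_sum fun i _ => ?_
    have p0 := hp.nonneg v i
    have p1 := hp'.nonneg v i
    have a2 : 0 ≤ (p' v i - p v i) ^ 2 := sq_nonneg _
    have a3 : 0 ≤ (p' v i - p v i) ^ 2 * (p' v i + 2 * p v i) := by positivity
    have a4 := mul_nonneg b0 (add_nonneg (mul_nonneg t1 a2) (mul_nonneg t0 a3))
    unfold G
    nlinarith
  have e3 := sum_le_sum fun v (_ : v ∈ univ) => e2 v
  rw [sum_add_distrib, ← mul_sum, ← mul_sum, sum_sub_distrib] at e3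
  unfold Pot Kp
  linarith

end HS

end

end Crest.Agent.R314
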