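import Crest.Agent.R314.HSTStep
import Crest.Agent.R314.HSTNu

/-! Row 314: change of the entropic potential at one node. -/

set_option autoImplicit false

open Finset Crest.LogicCS.KServer

namespace Crest.Agent.R314

noncomputable section
open Classical

variable {V : Type} [Fintype V] {k : ℕ} {T : Tr V} {s : HS V k} {p : V → Fin k → ℝ} {v c : V}

namespace HS

theorem Valid.step (h : s.Valid T) (hk : 2 ≤ k) (hp : T.Good p) : (s.step T p).Valid T := by
  have h0 := h.1.toOk0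
  exact ⟨h0.ok_step hk hp, fun v =>
    (h0.ok_step hk hp).ν_nonneg hk hp (h0.fresh_step hp) (h0.cap_step hk hp) v⟩

theorem locA_mh'_eq (hc : c ≠ T.root) (hn : ¬s.Chg T p c) : s.mh' p c = s.mh c := by
  by_contra h
  exact hn ⟨hc, Or.inl h⟩

theorem Reg.mh'_eq (hr : s.Reg T p v) (h : s.Ok0 T) (hp : T.Good p) : s.mh' p v = s.mh v := by
  by_cases hv : v = T.root
  · rw [hv]; exact h.mh'_root hp
  · exact locA_mh'_eq hv (hr v (T.sub_refl v))

theorem Reg.live_iff (hr : s.Reg T p v) : (s.mid T p).live T v ↔ s.live T v := by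
  refine forall_congr' fun a => forall_congr' fun ha => forall_congr' fun ha' => ?_
  have h1 := eq_hv_mid (T.mem_ch.2 ⟨ha', rfl⟩) (hr a ha)
  have h2 := locA_mh'_eq ha' (hr a ha)
  change (a = s.hv' T p (T.par a) ∨ 1 / 2 ≤ s.mh' p a) ↔ (a = s.hv (T.par a) ∨ 1 / 2 ≤ s.mh a)
  rw [h1, h2]

theorem eps_mid (hc : c ∈ T.ch v) (hn : ¬s.Chg T p c) (hm : s.mh' p v = s.mh v) :
    (s.mid T p).eps T c = s.eps T c ∧ (s.mid T p).sig T c = s.sig T c := by
  obtain ⟨h1, h2⟩ := T.mem_ch.1 hc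
  have h3 : (s.mid T p).g T c = s.g T c := by
    change Real.log (40 * s.mh' p (T.par c) / s.mh' p c) = Real.log (40 * s.mh (T.par c) / s.mh c)
    rw [h2, hm, locA_mh'_eq h1 hn]
  unfold eps sig
  rw [h3]
  exact ⟨rfl, rfl⟩

theorem locA_sum_le (h : s.Ok0 T) (hk : 2 ≤ k) (P : V → Prop) {f : V → ℝ}
    (hf : ∀ c, s.mh c ≤ f c) :
    0 ≤ (∑ c ∈ s.lt T v with P c, s.eps T c * s.sig T c) * s.mh v ∧
    (∑ c ∈ s.lt T v with P c, s.eps T c * s.sig T c) * s.mh v ≤
      (∑ c ∈ T.ch v with P c, f c) / (20 * MM k) := by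
  have hM := MM_ge hk
  have hf0 : ∀ c, 0 ≤ f c := fun c => (h.mh_nonneg c).trans (hf c)
  refine ⟨mul_nonneg (sum_nonneg fun c hc =>
    mul_nonneg (h.eps_pos hk (mem_filter.1 hc).1).le (sig_pos T s c).le) (h.mh_nonneg v), ?_⟩
  rw [sum_mul, sum_div]
  refine le_trans (sum_le_sum fun c hc => ?_) (sum_le_sum_of_subset_of_nonneg
    (filter_subset_filter _ fun c hc => (mem_lt.1 hc).1) fun c _ _ => by
      have := hf0 c
      positivity)
  have hc' := (mem_filter.1 hc).1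
  have h1 := h.mh_pos hc'
  have h2 := h.mh_nonneg c
  calc s.eps T c * s.sig T c * s.mh v ≤ s.mh c / (40 * s.mh v) / MM k * s.mh v :=
        mul_le_mul_of_nonneg_right (h.eps_sig_le hk hc') h1.le
    _ = s.mh c / 2 / (20 * MM k) := by field_simp; ring
    _ ≤ f c / (20 * MM k) := div_le_div_of_nonneg_right (by linarith [hf c]) (by positivity)

theorem locA_filter_eq : ((s.mid T p).lt T v).filter (fun c => ¬s.Chg T p c) =
    (s.lt T v).filter fun c => ¬s.Chg T p c := by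
  ext c
  simp only [mem_filter]
  refine ⟨fun h => ⟨(mem_lt_mid (mem_lt.1 h.1).1 h.2).1 h.1, h.2⟩,
    fun h => ⟨(mem_lt_mid (mem_lt.1 h.1).1 h.2).2 h.1, h.2⟩⟩

/-- the unchanged light children cancel; `eps_sig_le` for both states -/
theorem Ok0.abs_ebar_sub_le (h : s.Ok0 T) (hk : 2 ≤ k) (hp : T.Good p) (hm : s.mh' p v = s.mh v) :
    |(s.mid T p).ebar T v - s.ebar T v| * s.mh v ≤
      (∑ c ∈ T.ch v with s.Chg T p c, s.mu p c) / (20 * MM k) := by
  have h' := (h.ok_mid hk hp).toOk0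
  obtain ⟨a1, a2⟩ := locA_sum_le (v := v) h hk (s.Chg T p) (f := s.mu p) fun c => le_max_left _ _
  obtain ⟨b1, b2⟩ := locA_sum_le (v := v) h' hk (s.Chg T p) (f := s.mu p) fun c => le_max_right _ _
  have e0 : (s.mid T p).mh v = s.mh v := hm
  rw [e0] at b1 b2
  have e1 : ∑ c ∈ (s.mid T p).lt T v with ¬s.Chg T p c, (s.mid T p).eps T c * (s.mid T p).sig T c =
      ∑ c ∈ s.lt T v with ¬s.Chg T p c, s.eps T c * s.sig T c := by
    rw [locA_filter_eq]
    refine sum_congr rfl fun c hc => ?_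
    obtain ⟨h1, h2⟩ := eps_mid (mem_lt.1 (mem_filter.1 hc).1).1 (mem_filter.1 hc).2 hm
    rw [h1, h2]
  have e2 : (s.mid T p).ebar T v - s.ebar T v =
      ∑ c ∈ (s.mid T p).lt T v with s.Chg T p c, (s.mid T p).eps T c * (s.mid T p).sig T c -
        ∑ c ∈ s.lt T v with s.Chg T p c, s.eps T c * s.sig T c := by
    unfold ebar
    rw [← sum_filter_add_sum_filter_not _ (s.Chg T p), ← sum_filter_add_sum_filter_not
      (s.lt T v) (s.Chg T p), e1]
    ring
  rw [← abs_of_nonneg (h.mh_nonneg v), ← abs_mul, e2, sub_mul, abs_le]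
  constructor <;> linarith

/-- Any node: `|Δν c| ≤ J c + J' c ≤ 2 J' c + |ΔJ c|`, `phi_le` for the new state, `phi_ge` for the
old one, `Hp' ≤ SJ' ≤ 3 m2 v`. -/
theorem Valid.locA (h : s.Valid T) (hk : 2 ≤ k) (hp : T.Good p) (v : V) :
    ∑ c ∈ T.ch v, |(s.step T p).ν T c - s.ν T c| + (s.step T p).loc T p v - s.loc T p v ≤
      700 * MM k * m2 p v + ∑ c ∈ T.ch v, |s.J' p c - s.J c| := by
  have hM := MM_ge hk
  have h0 := h.1.toOk0
  have h' := h.step hk hp
  have hf := h0.fresh_step hp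
  have hm := m2_nonneg p v
  have hMm : 100000 * m2 p v ≤ MM k * m2 p v := mul_le_mul_of_nonneg_right hM hm
  have hJ : ∑ c ∈ T.ch v, (s.step T p).J c ≤ 3 * m2 p v := by
    refine (sum_le_sum fun c _ => hf.J_le c).trans ?_
    rw [← mul_sum]
    exact mul_le_mul_of_nonneg_left (hp.sa2 v) (by norm_num)
  have h1 : ∑ c ∈ T.ch v, |(s.step T p).ν T c - s.ν T c| ≤
      3 * m2 p v + ∑ c ∈ T.ch v, |s.J' p c - s.J c| := by
    refine le_trans ?_ (add_le_add hJ le_rfl)
    rw [← sum_add_distrib]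
    refine sum_le_sum fun c hc => ?_
    have hc' := (T.mem_ch.1 hc).1
    have a1 := h.2 c
    have a2 := h'.2 c
    have a3 := h0.ν_le_J hk hc'
    have a4 := h'.1.toOk0.ν_le_J hk hc'
    have a5 : (s.step T p).J c = s.J' p c := rfl
    have a6 := neg_abs_le (s.J' p c - s.J c)
    have a7 := abs_nonneg (s.J' p c - s.J c)
    rw [abs_le]
    constructor <;> linarith
  have h2 : (s.step T p).loc T p v ≤ 300 * (MM k * m2 p v) + 12 * m2 p v := by
    unfold loc
    split_ifs with hl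
    · have a1 : (s.step T p).Φ T p v ≤ 5 * MM k * (s.step T p).Yt T p v :=
        (h'.1.par hk v).phi_le (fun c _ => h'.1.Y_nonneg hk hp hf c) (h'.1.Y_nonneg hk hp hf _)
      have a2 := mul_le_mul_of_nonneg_left (h'.1.Yt_le hk hp hf hl.2)
        (show 0 ≤ 5 * MM k by positivity)
      have a3 : (s.step T p).Hp T v * (s.step T p).zs T v ≤ (s.step T p).Hp T v :=
        mul_le_of_le_one_right (Hp_nonneg _ _ _) (h'.1.toOk0.zs_le v)
      have a4 := h'.Hp_le_SJ v
      have a5 : (s.step T p).SJ T v ≤ ∑ c ∈ T.ch v, (s.step T p).J c :=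
        h'.1.toOk0.sum_act_le hl.2 fun c _ => J_nonneg _ c
      linarith
    · positivity
  have h3 : -(100 * (MM k * m2 p v)) ≤ s.loc T p v := by
    unfold loc
    split_ifs with hl
    · have a1 : -(5 * MM k * (∑ c ∈ s.lt T v, m2 p c + m2 p (s.hv v))) ≤ s.Φ T p v :=
        (h.1.par hk v).phi_ge (fun c _ => m2_nonneg p c) (m2_nonneg p _)
          (fun c _ => h.1.Y_ge hk hp c) (h.1.Y_ge hk hp _)
      have a2 := mul_le_mul_of_nonneg_left
        ((h0.sum_act_le hl.2 fun c _ => m2_nonneg p c).trans (hp.sa2 v))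
        (show 0 ≤ 5 * MM k by positivity)
      have a3 := mul_nonneg (Hp_nonneg T s v) (h0.zs_nonneg v)
      linarith
    · have : 0 ≤ MM k * m2 p v := by positivity
      linarith
  linarith

theorem locA_D_sub (hp : T.Good p) (c : V) :
    |(s.mid T p).D T p c - s.D T p c| ≤
      |s.J' p c - s.J c| + |(s.mid T p).sv T c - s.sv T c| * m2 p c := by
  have e : (s.mid T p).D T p c - s.D T p c =
      (s.J' p c - s.J c) + ((s.mid T p).sv T c - s.sv T c) * (m2 p c - m3 p c) := by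
    unfold D
    rw [Fs_eq, Fs_eq, show (s.mid T p).J c = s.J' p c from rfl]
    ring
  have h1 := hp.m3_nonneg c
  have h2 := hp.m3_le c
  rw [e]
  refine (abs_add_le _ _).trans (add_le_add le_rfl ?_)
  rw [abs_mul, abs_of_nonneg (sub_nonneg.2 h2)]
  exact mul_le_mul_of_nonneg_left (by linarith) (abs_nonneg _)

theorem locA_heavy (h : s.Ok T) (hk : 2 ≤ k) (hp : T.Good p) (hm : s.mh' p v = s.mh v)
    (hv : 0 < T.lvl v) :
    max 0 ((s.mid T p).Y T p ((s.mid T p).hv v) - s.Y T p (s.hv v)) ≤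
      |s.J' p (s.hv v) - s.J (s.hv v)| + |(s.mid T p).sv T v - s.sv T v| * m2 p (s.hv v) +
        6 * ∑ c ∈ T.ch v with s.Chg T p c, s.mu p c := by
  have hM := MM_ge hk
  have h0 := h.toOk0
  have h' := h0.ok_mid hk hp
  have hf := h0.fresh_mid hp
  have hX : 0 ≤ ∑ c ∈ T.ch v with s.Chg T p c, s.mu p c := sum_nonneg fun c _ => h0.mu_nonneg p c
  have ha := h0.hv_mem v hv
  have ha' := h'.toOk0.hv_mem v hv
  have hma := m2_nonneg p (s.hv v)
  have b1 := abs_nonneg (s.J' p (s.hv v) - s.J (s.hv v))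
  have b2 := mul_nonneg (abs_nonneg ((s.mid T p).sv T v - s.sv T v)) hma
  refine max_le (by positivity) ?_
  by_cases hh : (s.mid T p).hv v = s.hv v
  · have e1 := h0.eta_hv hv
    have e2 := h'.toOk0.eta_hv hv
    rw [hh] at e2 ⊢
    obtain ⟨c1, c2⟩ := T.mem_ch.1 ha
    have e3 := sv_par (s := s) c1
    have e4 := sv_par (s := s.mid T p) c1
    rw [c2] at e3 e4
    have a1 := locA_D_sub (s := s) hp (s.hv v)
    have a2 : |(s.mid T p).sv T (s.hv v) - s.sv T (s.hv v)| ≤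
        |(s.mid T p).sv T v - s.sv T v| + 30 * |(s.mid T p).ebar T v - s.ebar T v| := by
      rw [e3, e4, e1, e2]
      have c3 := le_abs_self ((s.mid T p).sv T v - s.sv T v)
      have c4 := neg_abs_le ((s.mid T p).sv T v - s.sv T v)
      have c5 := le_abs_self ((s.mid T p).ebar T v - s.ebar T v)
      have c6 := neg_abs_le ((s.mid T p).ebar T v - s.ebar T v)
      rw [abs_le]
      constructor <;> linarith
    have a3 := mul_le_mul_of_nonneg_right a2 hma
    have a4 := h'.D_nonneg hk hp hf (s.hv v)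
    have a5 := (h'.D_le hk hp (s.hv v)).trans (hf.J_le _)
    have a6 := h0.ebar_nonneg hk v
    have a7 := h0.ebar_le' hk v
    have a8 : m2 p (s.hv v) ≤ 2 * s.mh v := by
      have c3 := (single_le_sum (f := m2 p) (fun c _ => m2_nonneg p c) ha).trans (hp.sa2 v)
      have c4 := h'.toOk0.m2_le hf v
      rw [show (s.mid T p).mh v = s.mh v from hm] at c4
      linarith
    have a9 := h0.abs_ebar_sub_le hk hp hm
    have a10 : (∑ c ∈ T.ch v with s.Chg T p c, s.mu p c) / (20 * MM k) ≤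
        (∑ c ∈ T.ch v with s.Chg T p c, s.mu p c) / 11 :=
      div_le_div_of_nonneg_left hX (by norm_num) (by linarith)
    have a11 := mul_le_mul_of_nonneg_left a8 (abs_nonneg ((s.mid T p).ebar T v - s.ebar T v))
    have e5 : (s.mid T p).Y T p (s.hv v) - s.Y T p (s.hv v) =
        (1 - s.ebar T v) * ((s.mid T p).D T p (s.hv v) - s.D T p (s.hv v)) -
          ((s.mid T p).ebar T v - s.ebar T v) * (s.mid T p).D T p (s.hv v) := by
      unfold Y
      rw [e1, e2]
      ring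
    have a12 : (1 - s.ebar T v) * ((s.mid T p).D T p (s.hv v) - s.D T p (s.hv v)) ≤
        |(s.mid T p).D T p (s.hv v) - s.D T p (s.hv v)| :=
      (mul_le_mul_of_nonneg_left (le_abs_self _) (by linarith)).trans
        (mul_le_of_le_one_left (abs_nonneg _) (by linarith))
    have a13 : -(((s.mid T p).ebar T v - s.ebar T v) * (s.mid T p).D T p (s.hv v)) ≤
        |(s.mid T p).ebar T v - s.ebar T v| * (3 * m2 p (s.hv v)) := by
      rw [← neg_mul]
      exact mul_le_mul (neg_le_abs _) a5 a4 (abs_nonneg _)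
    rw [e5]
    linarith
  · obtain ⟨c1, c2⟩ := T.mem_ch.1 ha
    obtain ⟨c3, c4⟩ := T.mem_ch.1 ha'
    have a1 : s.Chg T p (s.hv v) := ⟨c1, Or.inr ⟨by rw [c2]; exact hh, Or.inl (by rw [c2])⟩⟩
    have a2 : s.Chg T p ((s.mid T p).hv v) :=
      ⟨c3, Or.inr ⟨by rw [c4]; exact hh, Or.inr (by rw [c4]; rfl)⟩⟩
    have a3 : s.mu p ((s.mid T p).hv v) + s.mu p (s.hv v) ≤
        ∑ c ∈ T.ch v with s.Chg T p c, s.mu p c := by
      rw [← sum_pair hh]
      refine sum_le_sum_of_subset_of_nonneg (fun c hc => ?_) fun c _ _ => h0.mu_nonneg p c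
      rcases mem_insert.1 hc with rfl | hc
      · exact mem_filter.2 ⟨ha', a2⟩
      · rw [mem_singleton.1 hc]; exact mem_filter.2 ⟨ha, a1⟩
    have a4 := h'.Y_le hk hp hf ((s.mid T p).hv v)
    have a5 := h.Y_ge hk hp (s.hv v)
    have a6 : ∀ c, m2 p c ≤ 2 * s.mu p c := fun c =>
      (h'.toOk0.m2_le hf c).trans (mul_le_mul_of_nonneg_left (le_max_right _ _) (by norm_num))
    have a7 := a6 ((s.mid T p).hv v)
    have a8 := a6 (s.hv v)
    have a9 := h0.mu_nonneg p (s.hv v)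
    linarith

/-- `phi_reset` with `U` the unchanged light children. For `c ∈ U`, and for an unchanged heavy
child, `D' - D = ΔJ + Δsv c * (m2 - m3)` with `Δsv c = Δsv v + Δeta c`. A changed child has
`0 ≤ Y' ≤ 3 m2 ≤ 6 mu` and `-Y ≤ m2 ≤ 2 mu`; `sig' c * Yt' ≤ mu c`. -/
theorem Ok.Φ_mid_le (h : s.Ok T) (hk : 2 ≤ k) (hp : T.Good p) (hm : s.mh' p v = s.mh v)
    (hv : 0 < T.lvl v) :
    (s.mid T p).Φ T p v ≤ s.Φ T p v + 8 * MM k * ∑ c ∈ T.ch v, |s.J' p c - s.J c| +
      8 * MM k * (|(s.mid T p).sv T v - s.sv T v| * m2 p v) +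
      75 * MM k * ∑ c ∈ T.ch v with s.Chg T p c, s.mu p c := by
  have hM := MM_ge hk
  have h0 := h.toOk0
  have h' := h0.ok_mid hk hp
  have hf := h0.fresh_mid hp
  have hUch : ∀ c ∈ (s.lt T v).filter (fun c => ¬s.Chg T p c), c ∈ T.ch v ∧ ¬s.Chg T p c :=
    fun c hc => ⟨(mem_lt.1 (mem_filter.1 hc).1).1, (mem_filter.1 hc).2⟩
  have hU' : (s.lt T v).filter (fun c => ¬s.Chg T p c) ⊆ (s.mid T p).lt T v := by
    rw [← locA_filter_eq]; exact filter_subset _ _
  have hI' : ∀ c ∈ (s.mid T p).lt T v \ (s.lt T v).filter (fun c => ¬s.Chg T p c),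
      s.Chg T p c := fun c hc => by
    rw [← locA_filter_eq] at hc
    by_contra hn
    exact (mem_sdiff.1 hc).2 (mem_filter.2 ⟨(mem_sdiff.1 hc).1, hn⟩)
  have hI : ∀ c ∈ s.lt T v \ (s.lt T v).filter (fun c => ¬s.Chg T p c), s.Chg T p c :=
    fun c hc => by
      by_contra hn
      exact (mem_sdiff.1 hc).2 (mem_filter.2 ⟨(mem_sdiff.1 hc).1, hn⟩)
  have main := phi_reset (Y := s.Y T p) (Yh := s.Y T p (s.hv v)) (Y' := (s.mid T p).Y T p)
    (Yh' := (s.mid T p).Y T p ((s.mid T p).hv v)) (filter_subset _ _) hU' (h.par hk v)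
    (h'.par hk v) (fun c hc => ⟨(eps_mid (hUch c hc).1 (hUch c hc).2 hm).1,
      (eps_mid (hUch c hc).1 (hUch c hc).2 hm).2, if_neg (hUch c hc).2⟩)
    (fun c hc => if_pos (hI' c hc)) (fun c _ => h'.Y_nonneg hk hp hf c) (h'.Y_nonneg hk hp hf _)
  change (s.mid T p).Φ T p v ≤ s.Φ T p v + _ + _ * (s.mid T p).Yt T p v at main
  have hmu : ∀ c, m2 p c ≤ 2 * s.mu p c := fun c =>
    (h'.toOk0.m2_le hf c).trans (mul_le_mul_of_nonneg_left (le_max_right _ _) (by norm_num))
  have hX' : ∑ c ∈ (s.mid T p).lt T v \ (s.lt T v).filter (fun c => ¬s.Chg T p c), s.mu p c ≤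
      ∑ c ∈ T.ch v with s.Chg T p c, s.mu p c :=
    sum_le_sum_of_subset_of_nonneg
      (fun c hc => mem_filter.2 ⟨(mem_lt.1 (mem_sdiff.1 hc).1).1, hI' c hc⟩)
      fun c _ _ => h0.mu_nonneg p c
  have hX : ∑ c ∈ s.lt T v \ (s.lt T v).filter (fun c => ¬s.Chg T p c), s.mu p c ≤
      ∑ c ∈ T.ch v with s.Chg T p c, s.mu p c :=
    sum_le_sum_of_subset_of_nonneg
      (fun c hc => mem_filter.2 ⟨(mem_lt.1 (mem_sdiff.1 hc).1).1, hI c hc⟩)
      fun c _ _ => h0.mu_nonneg p c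
  have a1 : ∑ c ∈ (s.lt T v).filter (fun c => ¬s.Chg T p c),
      |(s.mid T p).Y T p c - s.Y T p c| ≤ ∑ c ∈ s.lt T v, |s.J' p c - s.J c| +
        |(s.mid T p).sv T v - s.sv T v| * ∑ c ∈ s.lt T v, m2 p c := by
    rw [mul_sum, ← sum_add_distrib]
    refine le_trans (sum_le_sum fun c hc => ?_) (sum_le_sum_of_subset_of_nonneg
      (filter_subset _ _) fun c _ _ => by
        have := m2_nonneg p c
        positivity)
    obtain ⟨c1, c2⟩ := T.mem_ch.1 (hUch c hc).1
    have e1 : (s.mid T p).eta T c = s.eta T c := by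
      rw [eta_lt (hU' hc), eta_lt (mem_filter.1 hc).1, (eps_mid (hUch c hc).1 (hUch c hc).2 hm).1]
    have e2 : (s.mid T p).sv T c - s.sv T c = (s.mid T p).sv T v - s.sv T v := by
      rw [sv_par c1, sv_par c1, e1, c2]; ring
    have b1 := locA_D_sub (s := s) hp c
    rw [e2] at b1
    refine le_trans ?_ b1
    have b2 := h0.eta_nonneg hk c
    have b3 := h.eta_le hk c
    unfold Y
    rw [e1, ← mul_sub, abs_mul, abs_of_nonneg (by linarith)]
    exact mul_le_of_le_one_left (abs_nonneg _) (by linarith)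
  have a2 : ∑ c ∈ (s.mid T p).lt T v \ (s.lt T v).filter (fun c => ¬s.Chg T p c),
      (s.mid T p).Y T p c ≤ 6 * ∑ c ∈ T.ch v with s.Chg T p c, s.mu p c := by
    refine le_trans ?_ (mul_le_mul_of_nonneg_left hX' (by norm_num))
    rw [mul_sum]
    refine sum_le_sum fun c _ => ?_
    linarith [h'.Y_le hk hp hf c, hmu c]
  have a3 : ∑ c ∈ s.lt T v \ (s.lt T v).filter (fun c => ¬s.Chg T p c),
      max 0 (-s.Y T p c) ≤ 2 * ∑ c ∈ T.ch v with s.Chg T p c, s.mu p c := by
    refine le_trans ?_ (mul_le_mul_of_nonneg_left hX (by norm_num))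
    rw [mul_sum]
    refine sum_le_sum fun c _ => max_le ?_ ?_
    · linarith [h0.mu_nonneg p c]
    · linarith [h.Y_ge hk hp c, hmu c]
  have a4 := locA_heavy h hk hp hm hv
  have a5 : (∑ c ∈ (s.mid T p).lt T v \ (s.lt T v).filter (fun c => ¬s.Chg T p c),
      (s.mid T p).sig T c) * (s.mid T p).Yt T p v ≤ ∑ c ∈ T.ch v with s.Chg T p c, s.mu p c := by
    refine le_trans ?_ hX'
    rw [sum_mul]
    refine sum_le_sum fun c hc => ?_
    have hc' := (mem_sdiff.1 hc).1
    have b1 := h'.toOk0.mh_pos hc'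
    have b2 := h'.toOk0.mh_nonneg c
    have b3 : (s.mid T p).Yt T p v ≤ 40 * (s.mid T p).mh v := by
      linarith [h'.Yt_le hk hp hf hv, h'.toOk0.m2_le hf v]
    calc _ ≤ (s.mid T p).sig T c * (40 * (s.mid T p).mh v) :=
          mul_le_mul_of_nonneg_left b3 (sig_pos _ _ _).le
      _ ≤ (s.mid T p).mh c / (40 * (s.mid T p).mh v) * (40 * (s.mid T p).mh v) :=
          mul_le_mul_of_nonneg_right (h'.toOk0.sig_le hc') (by positivity)
      _ = (s.mid T p).mh c := by field_simp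
      _ ≤ s.mu p c := le_max_right _ _
  have a6 := h0.sum_act_le hv (f := fun c => |s.J' p c - s.J c|) fun c _ => abs_nonneg _
  have a7 := mul_le_mul_of_nonneg_left
    ((h0.sum_act_le hv fun c _ => m2_nonneg p c).trans (hp.sa2 v))
    (abs_nonneg ((s.mid T p).sv T v - s.sv T v))
  have a8 : 0 ≤ ∑ c ∈ T.ch v with s.Chg T p c, s.mu p c := sum_nonneg fun c _ => h0.mu_nonneg p c
  have a9 : 0 ≤ ∑ c ∈ T.ch v, |s.J' p c - s.J c| := sum_nonneg fun c _ => abs_nonneg _
  have a10 := mul_nonneg (abs_nonneg ((s.mid T p).sv T v - s.sv T v)) (m2_nonneg p v)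
  have hM0 : 0 ≤ MM k := by linarith
  have a11 := mul_le_mul_of_nonneg_left a5 (show 0 ≤ 3 * MM k by positivity)
  have a12 := mul_le_mul_of_nonneg_left
    (show _ ≤ ∑ c ∈ T.ch v, |s.J' p c - s.J c| + |(s.mid T p).sv T v - s.sv T v| * m2 p v +
      14 * ∑ c ∈ T.ch v with s.Chg T p c, s.mu p c from
      (add_le_add (add_le_add (add_le_add a1 a2) a3) a4).trans (by linarith))
    (show 0 ≤ 5 * MM k by positivity)
  have a13 := mul_nonneg hM0 a8
  have a14 := mul_nonneg hM0 a9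
  have a15 := mul_nonneg hM0 a10
  rw [← mul_assoc] at a11
  linarith

end HS

end

end Crest.Agent.R314
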