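import Crest.Agent.R314.HSTLocA

/-! Row 314: movement of the children of a regular node. -/

set_option autoImplicit false

open Finset Crest.LogicCS.KServer

namespace Crest.Agent.R314

noncomputable section
open Classical

variable {V : Type} [Fintype V] {k : ℕ} {T : Tr V} {s : HS V k} {p : V → Fin k → ℝ} {v c : V}

namespace HS

theorem act_mid (hc : c ∈ T.ch v) (hn : ¬s.Chg T p c) : (s.mid T p).act T c ↔ s.act T c := by
  rw [act_iff hc, act_iff hc, mem_lt_mid hc hn]
  exact or_congr Iff.rfl (eq_hv_mid hc hn)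

theorem Ok0.sum_act_filter (h : s.Ok0 T) (hv : 0 < T.lvl v) (f : V → ℝ) :
    ∑ c ∈ T.ch v with s.act T c, f c = ∑ c ∈ s.lt T v, f c + f (s.hv v) := by
  rw [sum_filter, h.sum_act_eq hv (fun c _ hc => if_neg hc)]
  have h1 : s.act T (s.hv v) := (act_iff (h.hv_mem v hv)).2 (Or.inr rfl)
  rw [if_pos h1]
  congr 1
  exact sum_congr rfl fun c hc => if_pos ((act_iff (mem_lt.1 hc).1).2 (Or.inl hc))

theorem Ok0.J_le_mu (h : s.Ok0 T) (p : V → Fin k → ℝ) (c : V) : s.J c ≤ 2 * s.mu p c := by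
  have h1 := h.J_le c
  have h2 : s.mh c ≤ s.mu p c := le_max_left _ _
  linarith

theorem Ok0.J'_le_mu (h : s.Ok0 T) (hk : 2 ≤ k) (hp : T.Good p) (c : V) :
    s.J' p c ≤ 2 * s.mu p c := by
  have h1 : s.J' p c ≤ 2 * s.mh' p c := (h.ok_mid hk hp).J_le c
  have h2 : s.mh' p c ≤ s.mu p c := le_max_right _ _
  linarith

theorem Ok0.abs_SJ_sub_le (h : s.Ok0 T) (hk : 2 ≤ k) (hp : T.Good p) (hv : 0 < T.lvl v) :
    |(s.mid T p).SJ T v - s.SJ T v| ≤ ∑ c ∈ T.ch v, |s.J' p c - s.J c| +
      4 * ∑ c ∈ T.ch v with s.Chg T p c, s.mu p c := by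
  have hm := (h.ok_mid hk hp).toOk0
  have e1 : (s.mid T p).SJ T v = ∑ c ∈ T.ch v, if (s.mid T p).act T c then s.J' p c else 0 := by
    rw [← sum_filter, hm.sum_act_filter hv]; rfl
  have e2 : s.SJ T v = ∑ c ∈ T.ch v, if s.act T c then s.J c else 0 := by
    rw [← sum_filter, h.sum_act_filter hv]; rfl
  rw [e1, e2, ← sum_sub_distrib, sum_filter, mul_sum, ← sum_add_distrib]
  refine (abs_sum_le_sum_abs _ _).trans (sum_le_sum fun c hc => ?_)
  have a1 := h.J_le_mu p c
  have a2 := h.J'_le_mu hk hp c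
  have a3 := s.J_nonneg c
  have a4 : 0 ≤ s.J' p c := (s.mid T p).J_nonneg c
  have a5 := abs_nonneg (s.J' p c - s.J c)
  by_cases hn : s.Chg T p c
  · rw [if_pos hn, abs_le]
    constructor <;> split_ifs <;> linarith
  · rw [if_neg hn]
    simp only [act_mid hc hn]
    split_ifs <;> simp

theorem zs_mid_sub (T : Tr V) (s : HS V k) (p : V → Fin k → ℝ) (v : V) :
    (s.mid T p).zs T v - s.zs T v = ∑ c ∈ s.lt T v with s.Chg T p c, s.z c := by
  unfold zs
  have e1 : ∑ c ∈ (s.mid T p).lt T v, (s.mid T p).z c =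
      ∑ c ∈ s.lt T v with ¬s.Chg T p c, s.z c := by
    have : ∑ c ∈ (s.mid T p).lt T v, (s.mid T p).z c =
        ∑ c ∈ (s.mid T p).lt T v with ¬s.Chg T p c, s.z c := by
      rw [sum_filter]
      refine sum_congr rfl fun c _ => ?_
      change (if s.Chg T p c then 0 else s.z c) = _
      split_ifs <;> rfl
    rw [this]
    refine sum_congr ?_ fun _ _ => rfl
    ext c
    simp only [mem_filter]
    constructor
    · rintro ⟨h1, h2⟩
      exact ⟨(mem_lt_mid (mem_lt.1 h1).1 h2).1 h1, h2⟩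
    · rintro ⟨h1, h2⟩
      exact ⟨(mem_lt_mid (mem_lt.1 h1).1 h2).2 h1, h2⟩
  rw [e1, ← sum_filter_add_sum_filter_not (s.lt T v) (fun c => s.Chg T p c) s.z]
  ring

theorem abs_div_sub_div_le {a b e e' : ℝ} (ha : 0 ≤ a) (hab : a ≤ b) (he : 0 ≤ e)
    (he1 : e ≤ 1 / 1000) (he' : 0 ≤ e') (he1' : e' ≤ 1 / 1000) :
    |b / (1 - e') - a / (1 - e)| ≤ 1.01 * (b - a) + a * (1.01 * |e' - e|) := by
  have h1 : 0 < 1 - e := by linarith
  have h2 : 0 < 1 - e' := by linarith
  have e1 : b / (1 - e') - a / (1 - e) =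
      (b - a) / (1 - e') + a * ((e' - e) / ((1 - e') * (1 - e))) := by
    field_simp; ring
  have h3 : (b - a) / (1 - e') ≤ 1.01 * (b - a) := by
    rw [div_le_iff₀ h2]; nlinarith
  have h4 : |(e' - e) / ((1 - e') * (1 - e))| ≤ 1.01 * |e' - e| := by
    rw [abs_div, abs_of_pos (mul_pos h2 h1), div_le_iff₀ (mul_pos h2 h1)]
    have : 1 ≤ 1.01 * ((1 - e') * (1 - e)) := by nlinarith
    nlinarith [abs_nonneg (e' - e)]
  rw [e1]
  refine (abs_add_le _ _).trans (add_le_add ?_ ?_)
  · rw [abs_of_nonneg (div_nonneg (by linarith) h2.le)]; exact h3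
  · rw [abs_mul, abs_of_nonneg ha]; exact mul_le_mul_of_nonneg_left h4 ha

/-- the reset, with the old `Hp`: `|1 / (1 - ebar') - 1 / (1 - ebar)| ≤ 1.01 |Δebar|`,
`Hp ≤ 24 mh v`, `abs_ebar_sub_le`, `Hp_mul_z_le` -/
theorem Valid.reset_le (h : s.Valid T) (hk : 2 ≤ k) (hp : T.Good p) (hm : s.mh' p v = s.mh v)
    (hv : 0 < T.lvl v) (hl : s.live T v) :
    s.Hp T v * ∑ c ∈ T.ch v with ¬s.Chg T p c ∧ s.act T c, |(s.mid T p).xx T c - s.xx T c| +
      4 * (s.Hp T v * ((s.mid T p).zs T v - s.zs T v)) ≤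
      17 * ∑ c ∈ T.ch v with s.Chg T p c, s.mu p c := by
  have h0 := h.1.toOk0
  have hm0 := (h0.ok_mid hk hp).toOk0
  have hM := MM_ge hk
  have hmu := h0.mu_nonneg p
  set δ := 1.01 * |(s.mid T p).ebar T v - s.ebar T v| with hδ
  have hδ0 : 0 ≤ δ := by positivity
  set d := (s.mid T p).zs T v - s.zs T v with hd
  have hdz : d = ∑ c ∈ s.lt T v with s.Chg T p c, s.z c := zs_mid_sub T s p v
  have hd0 : 0 ≤ d := by
    rw [hdz]; exact sum_nonneg fun c hc => h0.z_nonneg v c (mem_filter.1 hc).1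
  have he := h0.ebar_nonneg hk v
  have he1 := h0.ebar_le' hk v
  have he' := hm0.ebar_nonneg hk v
  have he1' := hm0.ebar_le' hk v
  have hzs := h0.zs_nonneg v
  set f : V → ℝ := fun c => if c = s.hv v then 1.01 * d + s.zs T v * δ else s.z c * δ with hf
  have h1 : ∑ c ∈ T.ch v with ¬s.Chg T p c ∧ s.act T c, |(s.mid T p).xx T c - s.xx T c| ≤
      ∑ c ∈ T.ch v with s.act T c, f c := by
    rw [sum_filter, sum_filter]
    refine sum_le_sum fun c hc => ?_
    by_cases ha : s.act T c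
    · rcases (act_iff hc).1 ha with hl | hl
      · have hne := (mem_lt.1 hl).2.1
        have hz := h0.z_nonneg v c hl
        simp only [ha, and_true, if_true, hf, if_neg hne]
        split_ifs with hn
        · positivity
        · have hl' := (mem_lt_mid hc hn).2 hl
          have hz' : (s.mid T p).z c = s.z c := if_neg hn
          rw [xx_lt hl, xx_lt hl', hz', (eps_mid hc hn hm).1, (eps_mid hc hn hm).2]
          have := abs_div_sub_div_le (le_max_left 0 (s.z c - s.eps T c * s.sig T c)) le_rfl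
            he he1 he' he1'
          have h2 : max 0 (s.z c - s.eps T c * s.sig T c) ≤ s.z c :=
            max_le hz (by nlinarith [h0.eps_pos hk hl, sig_pos T s c])
          have h3 := mul_le_mul_of_nonneg_right h2 hδ0
          rw [← hδ] at this
          linarith
      · simp only [ha, and_true, if_true, hf, if_pos hl]
        split_ifs with hn
        · positivity
        · have hl' : c = (s.mid T p).hv v := (eq_hv_mid hc hn).2 hl
          have e1 : (s.mid T p).xx T c = (s.mid T p).zs T v / (1 - (s.mid T p).ebar T v) := by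
            rw [hl']; exact hm0.xx_hv hv
          have e2 : s.xx T c = s.zs T v / (1 - s.ebar T v) := by
            rw [hl]; exact h0.xx_hv hv
          rw [e1, e2]
          exact abs_div_sub_div_le hzs (by linarith) he he1 he' he1'
    · simp [ha]
  have h2 : ∑ c ∈ T.ch v with s.act T c, f c = δ + 1.01 * d := by
    rw [h0.sum_act_filter hv]
    have : ∑ c ∈ s.lt T v, f c = (∑ c ∈ s.lt T v, s.z c) * δ := by
      rw [sum_mul]
      exact sum_congr rfl fun c hc => if_neg (mem_lt.1 hc).2.1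
    rw [this]
    simp only [hf, if_true, zs]
    ring
  set S := ∑ c ∈ T.ch v with s.Chg T p c, s.mu p c with hS
  have hS0 : 0 ≤ S := sum_nonneg fun c _ => hmu c
  have hH := Hp_nonneg T s v
  have h3 : s.Hp T v * d ≤ 3 * S := by
    rw [hdz, mul_sum, hS, mul_sum]
    refine (sum_le_sum fun c hc => (h.Hp_mul_z_le hk hl (mem_filter.1 hc).1).trans
      (mul_le_mul_of_nonneg_left (le_max_left _ (s.mh' p c)) (by norm_num))).trans ?_
    refine sum_le_sum_of_subset_of_nonneg ?_ fun c _ _ => mul_nonneg (by norm_num) (hmu c)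
    intro c hc
    exact mem_filter.2 ⟨(mem_lt.1 (mem_filter.1 hc).1).1, (mem_filter.1 hc).2⟩
  have h4 : s.Hp T v * δ ≤ S := by
    have a1 := h.Hp_le hv
    have a2 := h0.abs_ebar_sub_le hk hp hm
    have a3 : S / (20 * MM k) ≤ S / 100 := div_le_div_of_nonneg_left hS0 (by norm_num) (by linarith)
    have a4 := mul_le_mul_of_nonneg_right a1 hδ0
    rw [← hS] at a2
    nlinarith
  have h5 := mul_le_mul_of_nonneg_left (h1.trans h2.le) hH
  nlinarith

/-- the projection: with `L = ∑ max 0 (z̃ - z')` and `d = zs' - z̃s ≤ L` one has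
`∑ |z' - z̃| + |d| = 2 (L + max 0 (-d))` -/
theorem Ok0.proj_le (h : s.Ok0 T) (hk : 2 ≤ k) (hp : T.Good p) (hv : 0 < T.lvl v) :
    ∑ c ∈ T.ch v with (s.mid T p).act T c, |(s.step T p).xx T c - (s.mid T p).xx T c| +
      4 * ((s.step T p).zs T v - (s.mid T p).zs T v) ≤
      7 * ∑ c ∈ (s.mid T p).lt T v, max 0 ((s.mid T p).z c - (s.step T p).z c) := by
  have hm0 := (h.ok_mid hk hp).toOk0
  have hs0 := (h.ok_step hk hp).toOk0
  have he := hm0.ebar_nonneg hk v
  have he1 := hm0.ebar_le' hk v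
  have hpos : 0 < 1 - (s.mid T p).ebar T v := by linarith
  have hdiv : ∀ a b : ℝ, |a / (1 - (s.mid T p).ebar T v) - b / (1 - (s.mid T p).ebar T v)| ≤
      1.01 * |a - b| := fun a b => by
    rw [← sub_div, abs_div, abs_of_pos hpos, div_le_iff₀ hpos]
    nlinarith [abs_nonneg (a - b)]
  rw [hm0.sum_act_filter hv]
  set I := (s.mid T p).lt T v with hI
  set z := (s.mid T p).z with hz
  set z' := (s.step T p).z with hz'
  have h1 : ∑ c ∈ I, |(s.step T p).xx T c - (s.mid T p).xx T c| ≤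
      1.01 * ∑ c ∈ I, |z' c - z c| := by
    rw [mul_sum]
    refine sum_le_sum fun c hc => ?_
    have hc' : c ∈ (s.step T p).lt T v := hc
    rw [xx_lt hc, xx_lt hc']
    refine (hdiv _ _).trans (mul_le_mul_of_nonneg_left ?_ (by norm_num))
    refine (abs_max_sub_max_le_max _ _ _ _).trans (max_le (by simp) (le_of_eq ?_))
    congr 1
    change (z' c - (s.mid T p).eps T c * (s.mid T p).sig T c) - _ = _
    ring
  have h2 : |(s.step T p).xx T ((s.mid T p).hv v) - (s.mid T p).xx T ((s.mid T p).hv v)| ≤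
      1.01 * |(s.step T p).zs T v - (s.mid T p).zs T v| := by
    have e1 : (s.step T p).xx T ((s.mid T p).hv v) =
        (s.step T p).zs T v / (1 - (s.mid T p).ebar T v) := hs0.xx_hv hv
    rw [e1, hm0.xx_hv hv]
    exact hdiv _ _
  have h3 : (s.step T p).zs T v - (s.mid T p).zs T v = ∑ c ∈ I, (z c - z' c) := by
    rw [sum_sub_distrib]
    change (1 - ∑ c ∈ I, z' c) - (1 - ∑ c ∈ I, z c) = _
    ring
  have h4 : ∑ c ∈ I, |z' c - z c| = 2 * ∑ c ∈ I, max 0 (z c - z' c) - ∑ c ∈ I, (z c - z' c) := by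
    rw [mul_sum, ← sum_sub_distrib]
    refine sum_congr rfl fun c _ => ?_
    rcases le_total (z c) (z' c) with hh | hh
    · rw [abs_of_nonneg (by linarith), max_eq_left (by linarith)]; ring
    · rw [abs_of_nonpos (by linarith), max_eq_right (by linarith)]; ring
  have h5 : ∑ c ∈ I, (z c - z' c) ≤ ∑ c ∈ I, max 0 (z c - z' c) :=
    sum_le_sum fun c _ => le_max_right _ _
  have h6 : 0 ≤ ∑ c ∈ I, max 0 (z c - z' c) := sum_nonneg fun c _ => le_max_left _ _
  rw [h3] at h2 ⊢
  rcases le_total 0 (∑ c ∈ I, (z c - z' c)) with hh | hh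
  · rw [abs_of_nonneg hh] at h2; linarith
  · rw [abs_of_nonpos hh] at h2; linarith

/-- A changed child moves at most `J + J' ≤ 4 mu`, an unchanged inactive child not at all, and for
an unchanged active one `|Δν| ≤ |ΔJ| + H' |x' - x̃| + |H' - H| x̃ + H |x̃ - x|`; also
`H' zs' - H zs = H' (zs' - z̃s) + (H' - H) z̃s + H (z̃s - zs)`, `|H' - H| ≤ |Δν v| + |ΔSJ|`,
`∑ x̃ ≤ 1.01`, `H' ≤ Yt'`. -/
theorem Valid.move_le (h : s.Valid T) (hk : 2 ≤ k) (hp : T.Good p) (hr : s.Reg T p v)
    (hv : 0 < T.lvl v) (hl : s.live T v) :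
    ∑ c ∈ T.ch v, |(s.step T p).ν T c - s.ν T c| +
      4 * ((s.step T p).Hp T v * (s.step T p).zs T v - s.Hp T v * s.zs T v) ≤
      6 * |(s.step T p).ν T v - s.ν T v| + 7 * ∑ c ∈ T.ch v, |s.J' p c - s.J c| +
      50 * ∑ c ∈ T.ch v with s.Chg T p c, s.mu p c + 10 * ((s.mid T p).Yt T p v *
        ∑ c ∈ (s.mid T p).lt T v, max 0 ((s.mid T p).z c - (s.step T p).z c)) := by
  have h0 := h.1.toOk0
  have hmk := h0.ok_mid hk hp
  have hm0 := hmk.toOk0
  have h' := h.step hk hp
  have hs0 := h'.1.toOk0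
  have hmu := h0.mu_nonneg p
  have hm := hr.mh'_eq h0 hp
  have hl' : (s.step T p).live T v := (hr.live_iff).2 hl
  set H := s.Hp T v with hH
  set H' := (s.step T p).Hp T v with hH'
  have hH0 : 0 ≤ H := Hp_nonneg T s v
  have hH0' : 0 ≤ H' := Hp_nonneg T _ v
  set x := s.xx T
  set xm := (s.mid T p).xx T
  set x' := (s.step T p).xx T
  have hxm : ∀ c, 0 ≤ xm c := hm0.xx_nonneg hk
  have h1 : ∀ c ∈ T.ch v, |(s.step T p).ν T c - s.ν T c| ≤ |s.J' p c - s.J c| +
      4 * (if s.Chg T p c then s.mu p c else 0) +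
      H' * (if (s.mid T p).act T c then |x' c - xm c| else 0) +
      |H' - H| * (if (s.mid T p).act T c then xm c else 0) +
      H * (if ¬s.Chg T p c ∧ s.act T c then |xm c - x c| else 0) := by
    intro c hc
    obtain ⟨hc1, hc2⟩ := (T.mem_ch).1 hc
    have a0 := abs_nonneg (s.J' p c - s.J c)
    have a1 : 0 ≤ H' * (if (s.mid T p).act T c then |x' c - xm c| else 0) :=
      mul_nonneg hH0' (by split_ifs; exacts [abs_nonneg _, le_rfl])
    have a2 : 0 ≤ |H' - H| * (if (s.mid T p).act T c then xm c else 0) :=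
      mul_nonneg (abs_nonneg _) (by split_ifs; exacts [hxm c, le_rfl])
    by_cases hn : s.Chg T p c
    · have b1 := h.2 c
      have b2 := h'.2 c
      have b3 := h0.ν_le_J hk hc1
      have b4 : (s.step T p).ν T c ≤ s.J' p c := hs0.ν_le_J hk hc1
      have b5 := h0.J_le_mu p c
      have b6 := h0.J'_le_mu hk hp c
      have : |(s.step T p).ν T c - s.ν T c| ≤ 4 * s.mu p c := by
        rw [abs_le]; constructor <;> linarith
      simp only [hn, if_true, not_true_eq_false, false_and, if_false, mul_zero, add_zero]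
      linarith
    · have hact := act_mid hc hn
      have l1 : s.live T c ↔ s.act T c := by rw [live_iff hc1, hc2]; exact and_iff_left hl
      have l2 : (s.step T p).live T c ↔ s.act T c := by
        rw [live_iff hc1, hc2, and_iff_left hl']; exact hact
      rw [ν_eq T s hc1, ν_eq T _ hc1, hc2]
      by_cases ha : s.act T c
      · rw [if_pos (l1.2 ha), if_pos (l2.2 ha)]
        simp only [hn, hact, ha, if_true, not_false_eq_true, and_self, if_false, mul_zero, add_zero]
        have e : (s.step T p).J c - H' * x' c - (s.J c - H * x c) =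
            (s.J' p c - s.J c) - H' * (x' c - xm c) - (H' - H) * xm c - H * (xm c - x c) := by
          change s.J' p c - _ - _ = _
          ring
        rw [e]
        refine (abs_sub _ _).trans (add_le_add ((abs_sub _ _).trans (add_le_add
          ((abs_sub _ _).trans (add_le_add le_rfl ?_)) ?_)) ?_)
        · rw [abs_mul, abs_of_nonneg hH0']
        · rw [abs_mul, abs_of_nonneg (hxm c)]
        · rw [abs_mul, abs_of_nonneg hH0]
      · rw [if_neg (mt l1.1 ha), if_neg (mt l2.1 ha)]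
        simp only [hn, hact, ha, if_false, and_false, mul_zero, add_zero, sub_self, abs_zero]
        exact a0
  have h2 := sum_le_sum h1
  simp only [sum_add_distrib, ← mul_sum, ← sum_filter] at h2
  have h3 := h.reset_le hk hp hm hv hl
  have h4 := h0.proj_le hk hp hv
  have h5 : ∑ c ∈ T.ch v with (s.mid T p).act T c, xm c ≤ 1.01 := by
    rw [hm0.sum_act_filter hv]; exact hm0.sum_xx_le hk hv
  have h6 : |H' - H| ≤ |(s.step T p).ν T v - s.ν T v| + |(s.mid T p).SJ T v - s.SJ T v| := by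
    refine (abs_max_sub_max_le_max _ _ _ _).trans (max_le (by simp; positivity) ?_)
    have e : (s.step T p).SJ T v - (s.step T p).ν T v - (s.SJ T v - s.ν T v) =
        ((s.mid T p).SJ T v - s.SJ T v) - ((s.step T p).ν T v - s.ν T v) := by
      change (s.mid T p).SJ T v - _ - _ = _
      ring
    rw [e, add_comm]
    exact abs_sub _ _
  have h7 := h0.abs_SJ_sub_le hk hp hv
  have hf := h0.fresh_step hp
  have h8 : H' ≤ (s.mid T p).Yt T p v :=
    h'.1.Hp_le_Yt hk hp hf hv (h'.1.F_le_ν hk hp hf (h0.cap_step hk hp) hl')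
  set L := ∑ c ∈ (s.mid T p).lt T v, max 0 ((s.mid T p).z c - (s.step T p).z c) with hL
  have hL0 : 0 ≤ L := sum_nonneg fun c _ => le_max_left _ _
  have h9 := mul_le_mul_of_nonneg_left h4 hH0'
  have h10 := mul_le_mul_of_nonneg_right h8 hL0
  have h11 := mul_le_mul_of_nonneg_left h5 (abs_nonneg (H' - H))
  have h12 : (H' - H) * (s.mid T p).zs T v ≤ |H' - H| := by
    have := hm0.zs_nonneg v
    have := hm0.zs_le v
    nlinarith [le_abs_self (H' - H), abs_nonneg (H' - H)]
  have h13 : 0 ≤ ∑ c ∈ T.ch v with s.Chg T p c, s.mu p c := sum_nonneg fun c _ => hmu c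
  have h14 : 0 ≤ ∑ c ∈ T.ch v, |s.J' p c - s.J c| := sum_nonneg fun c _ => abs_nonneg _
  have h15 := abs_nonneg ((s.step T p).ν T v - s.ν T v)
  have h16 := mul_nonneg hH0' hL0
  nlinarith

/-- `move_le`, `Φ_mid_le` and the gain of the projection; nothing happens at a leaf or at a node
that is not live -/
theorem Valid.locB (h : s.Valid T) (hk : 2 ≤ k) (hp : T.Good p) (hr : s.Reg T p v) :
    ∑ c ∈ T.ch v, |(s.step T p).ν T c - s.ν T c| + (s.step T p).loc T p v - s.loc T p v ≤
      6 * |(s.step T p).ν T v - s.ν T v| + 200 * MM k * ∑ c ∈ T.ch v, |s.J' p c - s.J c| +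
      1600 * MM k * ∑ c ∈ T.ch v with s.Chg T p c, s.mu p c +
      160 * MM k * (|(s.mid T p).sv T v - s.sv T v| * m2 p v) := by
  have h0 := h.1.toOk0
  have hM := MM_ge hk
  have hmu := h0.mu_nonneg p
  have h13 : 0 ≤ ∑ c ∈ T.ch v with s.Chg T p c, s.mu p c := sum_nonneg fun c _ => hmu c
  have h14 : 0 ≤ ∑ c ∈ T.ch v, |s.J' p c - s.J c| := sum_nonneg fun c _ => abs_nonneg _
  have h15 := abs_nonneg ((s.step T p).ν T v - s.ν T v)
  have h16 : 0 ≤ |(s.mid T p).sv T v - s.sv T v| * m2 p v :=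
    mul_nonneg (abs_nonneg _) (m2_nonneg p v)
  have hlive : (s.step T p).live T v ↔ s.live T v := hr.live_iff
  by_cases hl : s.live T v ∧ 0 < T.lvl v
  · have hl' : (s.step T p).live T v ∧ 0 < T.lvl v := ⟨hlive.2 hl.1, hl.2⟩
    have h1 := h.move_le hk hp hr hl.2 hl.1
    have h2 := h.1.Φ_mid_le hk hp (hr.mh'_eq h0 hp) hl.2
    have h3 : (s.step T p).Φ T p v + (s.mid T p).Yt T p v / 2 *
        ∑ c ∈ (s.mid T p).lt T v, max 0 ((s.mid T p).z c - (s.step T p).z c) ≤
        (s.mid T p).Φ T p v := (h0.isProj_step hk hp v).gain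
    unfold loc
    rw [if_pos hl, if_pos hl']
    nlinarith
  · have hl' : ¬((s.step T p).live T v ∧ 0 < T.lvl v) := by rw [hlive]; exact hl
    have e : ∑ c ∈ T.ch v, |(s.step T p).ν T c - s.ν T c| = 0 := by
      refine sum_eq_zero fun c hc => ?_
      obtain ⟨hc1, hc2⟩ := (T.mem_ch).1 hc
      have hv : 0 < T.lvl v := by rw [← hc2, T.lvl_par c hc1]; omega
      have n1 : ¬s.live T v := fun e => hl ⟨e, hv⟩
      have n2 : ¬(s.step T p).live T v := fun e => n1 (hlive.1 e)
      rw [ν_eq T s hc1, ν_eq T _ hc1, if_neg, if_neg]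
      · simp
      · rw [live_iff hc1, hc2]; exact fun e => n1 e.2
      · rw [live_iff hc1, hc2]; exact fun e => n2 e.2
    unfold loc
    rw [if_neg hl, if_neg hl', e]
    have : 0 ≤ MM k := by linarith
    simp only [add_zero, sub_self]
    positivity

end HS

end

end Crest.Agent.R314
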