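import Crest.Agent.R314.HSTPhi

/-! Row 314: the parameters of a state of the tree algorithm. -/

set_option autoImplicit false

open Finset Crest.LogicCS.KServer

namespace Crest.Agent.R314

noncomputable section
open Classical

variable {V : Type} [Fintype V] {k : ℕ} {T : Tr V} {s : HS V k} {p : V → Fin k → ℝ} {v c : V}

theorem MM_ge (hk : 2 ≤ k) : 100000 ≤ MM k := by
  have h1 : (2 : ℝ) ≤ k := by exact_mod_cast hk
  have h2 : 1 ≤ Real.log (k + 1) := by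
    rw [Real.le_log_iff_exp_le (by linarith)]
    linarith [Real.exp_one_lt_d9]
  unfold MM
  linarith

theorem kap_nonneg (q : ℝ) : 0 ≤ kap q := by
  exact le_min zero_le_one (by positivity)

omit [Fintype V] in
theorem m2_nonneg (p : V → Fin k → ℝ) (v : V) : 0 ≤ m2 p v := by
  exact sum_nonneg fun _ _ => sq_nonneg _

theorem Tr.Good.m3_nonneg (hp : T.Good p) (v : V) : 0 ≤ m3 p v := by
  exact sum_nonneg fun i _ => pow_nonneg (hp.nonneg v i) _

theorem Tr.Good.m3_le (hp : T.Good p) (v : V) : m3 p v ≤ m2 p v := by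
  exact sum_le_sum fun i _ => pow_le_pow_of_le_one (hp.nonneg v i) (hp.le_one v i) (by norm_num)

theorem Tr.Good.root_eq (hp : T.Good p) (i : Fin k) : p T.root i = 1 := by
  have h1 : ∀ i ∈ (univ : Finset (Fin k)), p T.root i ^ 2 ≤ 1 := fun i _ =>
    pow_le_one₀ (hp.nonneg _ i) (hp.le_one _ i)
  have h2 := (sum_eq_sum_iff_of_le h1).1 (by simpa [m2] using hp.root) i (mem_univ i)
  exact (pow_eq_one_iff_of_nonneg (hp.nonneg _ i) (by norm_num)).1 h2

theorem Tr.Good.m2_le (hp : T.Good p) (v : V) : m2 p v ≤ k := by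
  have h1 : ∀ i ∈ (univ : Finset (Fin k)), p v i ^ 2 ≤ 1 := fun i _ =>
    pow_le_one₀ (hp.nonneg _ i) (hp.le_one _ i)
  simpa [m2] using sum_le_sum h1

omit [Fintype V] in
theorem Fs_eq (t : ℝ) (p : V → Fin k → ℝ) (v : V) :
    Fs t p v = m2 p v - t * (m2 p v - m3 p v) := by
  unfold Fs
  ring

namespace HS

omit [Fintype V] in
theorem J_nonneg (s : HS V k) (v : V) : 0 ≤ s.J v := by
  exact sum_nonneg fun _ _ => kap_nonneg _

theorem mem_lt : c ∈ s.lt T v ↔ c ∈ T.ch v ∧ c ≠ s.hv v ∧ 1 / 2 ≤ s.mh c := by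
  exact mem_filter

theorem live_root (T : Tr V) (s : HS V k) : s.live T T.root := by
  exact fun a ha hne => absurd (T.root_sub_iff.1 ha) hne

theorem live_iff (hc : c ≠ T.root) : s.live T c ↔ s.act T c ∧ s.live T (T.par c) := by
  constructor
  · exact fun h => ⟨h c (T.sub_refl c) hc, fun a ha => h a ((T.sub_par c).trans ha)⟩
  · rintro ⟨h1, h2⟩ a ha hne
    rcases T.sub_iff_par.1 ha with rfl | ha
    · exact h1
    · exact h2 a ha hne

theorem act_iff (hc : c ∈ T.ch v) : s.act T c ↔ c ∈ s.lt T v ∨ c = s.hv v := by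
  unfold act
  rw [mem_lt, (T.mem_ch.1 hc).2]
  tauto

theorem sv_root (T : Tr V) (s : HS V k) : s.sv T T.root = 0 := by
  refine sum_eq_zero fun a ha => ?_
  rw [T.root_sub_iff.1 (mem_filter.1 ha).2]
  simp [eta]

theorem sv_par (hc : c ≠ T.root) : s.sv T c = s.eta T c + s.sv T (T.par c) := by
  exact T.sum_anc _ hc

theorem eta_lt (hc : c ∈ s.lt T v) : s.eta T c = 60 * s.eps T c := by
  obtain ⟨h1, h2, h3⟩ := mem_lt.1 hc
  obtain ⟨h4, h5⟩ := T.mem_ch.1 h1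
  unfold eta
  rw [if_neg h4, h5, if_neg h2, if_pos h3]

theorem Ok0.eta_hv (h : s.Ok0 T) (hv : 0 < T.lvl v) : s.eta T (s.hv v) = 30 * s.ebar T v := by
  obtain ⟨h4, h5⟩ := T.mem_ch.1 (h.hv_mem v hv)
  unfold eta
  rw [if_neg h4, h5, if_pos rfl]

/-- a sum over the active children -/
theorem Ok0.sum_act_le (h : s.Ok0 T) (hv : 0 < T.lvl v) {f : V → ℝ} (hf : ∀ c ∈ T.ch v, 0 ≤ f c) :
    ∑ c ∈ s.lt T v, f c + f (s.hv v) ≤ ∑ c ∈ T.ch v, f c := by
  have h1 : s.hv v ∉ s.lt T v := fun hh => (mem_lt.1 hh).2.1 rfl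
  rw [add_comm, ← sum_insert h1]
  refine sum_le_sum_of_subset_of_nonneg ?_ fun c hc _ => hf c hc
  exact insert_subset (h.hv_mem v hv) (filter_subset _ _)

theorem Ok0.sum_act_eq (h : s.Ok0 T) (hv : 0 < T.lvl v) {f : V → ℝ}
    (hf : ∀ c ∈ T.ch v, ¬s.act T c → f c = 0) :
    ∑ c ∈ T.ch v, f c = ∑ c ∈ s.lt T v, f c + f (s.hv v) := by
  have h1 : s.hv v ∉ s.lt T v := fun hh => (mem_lt.1 hh).2.1 rfl
  rw [add_comm, ← sum_insert h1]
  refine (sum_subset (insert_subset (h.hv_mem v hv) (filter_subset _ _)) fun c hc hc' => ?_).symm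
  refine hf c hc fun ha => hc' ?_
  rw [mem_insert, or_comm]
  exact (act_iff hc).1 ha

theorem Ok0.mh_nonneg (h : s.Ok0 T) (v : V) : 0 ≤ s.mh v := by
  linarith [h.J_le v, s.J_nonneg v]

theorem Ok0.mh_pos (h : s.Ok0 T) (hc : c ∈ s.lt T v) : 0 < s.mh v := by
  obtain ⟨h1, -, h3⟩ := mem_lt.1 hc
  have h4 := single_le_sum (f := s.mh) (fun c _ => h.mh_nonneg c) h1
  linarith [h.sum_mh v]

/-- `40 / 12 ≥ e` -/
theorem Ok0.one_le_g (h : s.Ok0 T) (hc : c ∈ s.lt T v) : 1 ≤ s.g T c := by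
  obtain ⟨h1, -, h3⟩ := mem_lt.1 hc
  have h4 := single_le_sum (f := s.mh) (fun c _ => h.mh_nonneg c) h1
  have h5 := h.sum_mh v
  have h6 := h.mh_pos hc
  have h7 : 0 < s.mh c := by linarith
  unfold g
  rw [(T.mem_ch.1 h1).2, Real.le_log_iff_exp_le (by positivity), le_div_iff₀ h7]
  have h8 := Real.exp_one_lt_d9
  nlinarith

theorem Ok0.exp_neg_g (h : s.Ok0 T) (hc : c ∈ s.lt T v) :
    Real.exp (-s.g T c) = s.mh c / (40 * s.mh v) := by
  obtain ⟨h1, -, h3⟩ := mem_lt.1 hc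
  have h6 := h.mh_pos hc
  have h7 : 0 < s.mh c := by linarith
  unfold g
  rw [(T.mem_ch.1 h1).2, Real.exp_neg, Real.exp_log (by positivity), inv_div]

theorem Ok0.sig_le (h : s.Ok0 T) (hc : c ∈ s.lt T v) : s.sig T c ≤ s.mh c / (40 * s.mh v) := by
  rw [← h.exp_neg_g hc]
  exact Real.exp_le_exp.2 (by linarith [h.one_le_g hc])

theorem Ok0.sum_exp_le (h : s.Ok0 T) (v : V) :
    ∑ c ∈ s.lt T v, s.mh c / (40 * s.mh v) ≤ 3 / 10 := by
  rw [← sum_div]
  rcases (h.mh_nonneg v).eq_or_lt with h0 | h0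
  · rw [← h0]
    norm_num
  · have h1 : ∑ c ∈ s.lt T v, s.mh c ≤ ∑ c ∈ T.ch v, s.mh c :=
      sum_le_sum_of_subset_of_nonneg (filter_subset _ _) fun c _ _ => h.mh_nonneg c
    rw [div_le_iff₀ (by positivity)]
    linarith [h.sum_mh v]

theorem sig_pos (T : Tr V) (s : HS V k) (c : V) : 0 < s.sig T c := by
  exact Real.exp_pos _

theorem Ok0.eps_ge (h : s.Ok0 T) (hk : 2 ≤ k) (hc : c ∈ s.lt T v) : 1 / MM k ≤ s.eps T c := by
  have := MM_ge hk
  exact div_le_div_of_nonneg_right (h.one_le_g hc) (by linarith)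

theorem Ok0.eps_pos (h : s.Ok0 T) (hk : 2 ≤ k) (hc : c ∈ s.lt T v) : 0 < s.eps T c := by
  have := MM_ge hk
  exact lt_of_lt_of_le (div_pos one_pos (by linarith)) (h.eps_ge hk hc)

/-- `g * exp (-g) ≤ 1` -/
theorem Ok0.eps_sig_le (h : s.Ok0 T) (hk : 2 ≤ k) (hc : c ∈ s.lt T v) :
    s.eps T c * s.sig T c ≤ s.mh c / (40 * s.mh v) / MM k := by
  have hM := MM_ge hk
  rw [← h.exp_neg_g hc, eps, sig, div_mul_eq_mul_div]
  refine div_le_div_of_nonneg_right ?_ (by linarith)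
  have h1 : Real.exp (-(2 * s.g T c)) = Real.exp (-s.g T c) * Real.exp (-s.g T c) := by
    rw [← Real.exp_add]
    congr 1
    ring
  have h2 : s.g T c * Real.exp (-s.g T c) ≤ 1 := by
    rw [Real.exp_neg, ← div_eq_mul_inv, div_le_one (Real.exp_pos _)]
    linarith [Real.add_one_le_exp (s.g T c)]
  rw [h1, ← mul_assoc]
  exact mul_le_of_le_one_left (Real.exp_pos _).le h2

theorem Ok0.ebar_nonneg (h : s.Ok0 T) (hk : 2 ≤ k) (v : V) : 0 ≤ s.ebar T v := by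
  exact sum_nonneg fun c hc => mul_nonneg (h.eps_pos hk hc).le (sig_pos T s c).le

theorem Ok0.ebar_le (h : s.Ok0 T) (hk : 2 ≤ k) (v : V) : s.ebar T v ≤ 3 / 10 / MM k := by
  have hM := MM_ge hk
  refine (sum_le_sum fun c hc => h.eps_sig_le hk hc).trans ?_
  rw [← sum_div]
  exact div_le_div_of_nonneg_right (h.sum_exp_le v) (by linarith)

theorem Ok0.ebar_le' (h : s.Ok0 T) (hk : 2 ≤ k) (v : V) : s.ebar T v ≤ 1 / 1000 := by
  have hM := MM_ge hk
  refine (h.ebar_le hk v).trans ?_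
  rw [div_le_iff₀ (by linarith)]
  linarith

theorem Ok0.eta_nonneg (h : s.Ok0 T) (hk : 2 ≤ k) (c : V) : 0 ≤ s.eta T c := by
  unfold eta
  split_ifs with h1 h2 h3
  · exact le_rfl
  · linarith [h.ebar_nonneg hk (T.par c)]
  · have : c ∈ s.lt T (T.par c) := mem_lt.2 ⟨T.mem_ch.2 ⟨h1, rfl⟩, h2, h3⟩
    linarith [h.eps_pos hk this]
  · exact le_rfl

theorem Ok0.sv_nonneg (h : s.Ok0 T) (hk : 2 ≤ k) (v : V) : 0 ≤ s.sv T v := by
  exact sum_nonneg fun c _ => h.eta_nonneg hk c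

theorem Ok.eta_le (h : s.Ok T) (hk : 2 ≤ k) (c : V) : s.eta T c ≤ 1 := by
  refine le_trans ?_ (h.sv_le c)
  exact single_le_sum (f := s.eta T) (fun c _ => h.toOk0.eta_nonneg hk c)
    (mem_filter.2 ⟨mem_univ _, T.sub_refl c⟩)

theorem Ok.eps_le (h : s.Ok T) (hk : 2 ≤ k) (hc : c ∈ s.lt T v) : s.eps T c ≤ 1 / 60 := by
  have := h.eta_le hk c
  rw [eta_lt hc] at this
  linarith

/-- `Ac ≤ (log (1 + σ) + 2 g) M / g ≤ 3 M`, `Bc ≤ 3 M * 0.3 + M + 2` -/
theorem Ok.par (h : s.Ok T) (hk : 2 ≤ k) (v : V) :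
    Par (s.lt T v) (s.eps T) (s.sig T) s.z (MM k) := by
  have hM := MM_ge hk
  have hM0 : 0 < MM k := by linarith
  have hA : ∀ c ∈ s.lt T v, Ac (s.eps T c) (s.sig T c) (s.z c) ≤ 3 * MM k := by
    intro c hc
    have h1 := h.toOk0.one_le_g hc
    have h2 := sig_pos T s c
    have h3 := h.z_nonneg v c hc
    have h4 : s.sig T c ≤ 1 := Real.exp_le_one_iff.2 (by linarith)
    have h5 : Real.log ((1 + s.sig T c) / (s.z c + s.sig T c)) ≤ 3 * s.g T c := by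
      rw [Real.log_div (by positivity) (by positivity)]
      have h6 : Real.log (1 + s.sig T c) ≤ s.sig T c := by
        have := Real.log_le_sub_one_of_pos (by positivity : 0 < 1 + s.sig T c)
        linarith
      have h7 : Real.log (s.sig T c) ≤ Real.log (s.z c + s.sig T c) :=
        Real.log_le_log h2 (by linarith)
      have h8 : Real.log (s.sig T c) = -(2 * s.g T c) := Real.log_exp _
      linarith
    unfold Ac
    rw [div_le_iff₀ (h.toOk0.eps_pos hk hc)]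
    refine h5.trans (le_of_eq ?_)
    unfold eps
    field_simp
  refine ⟨by linarith, fun c hc => h.toOk0.eps_pos hk hc,
    fun c hc => (h.eps_le hk hc).trans (by norm_num), fun c _ => sig_pos T s c, h.z_nonneg v,
    h.z_sum v, hA, ?_⟩
  have h1 : ∀ c ∈ s.lt T v, s.sig T c * Ac (s.eps T c) (s.sig T c) (s.z c) + s.z c / s.eps T c
      ≤ 3 * MM k * (s.mh c / (40 * s.mh v)) + MM k * s.z c := by
    intro c hc
    have a1 := mul_le_mul_of_nonneg_left (hA c hc) (sig_pos T s c).le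
    have a2 := mul_le_mul_of_nonneg_left (h.toOk0.sig_le hc) (by positivity : 0 ≤ 3 * MM k)
    have a3 : s.z c / s.eps T c ≤ MM k * s.z c := by
      have b1 := h.toOk0.eps_ge hk hc
      rw [div_le_iff₀ hM0] at b1
      rw [div_le_iff₀ (h.toOk0.eps_pos hk hc)]
      nlinarith [h.z_nonneg v c hc]
    linarith
  have h2 := sum_le_sum h1
  rw [sum_add_distrib (f := fun c => 3 * MM k * (s.mh c / (40 * s.mh v))), ← mul_sum,
    ← mul_sum] at h2
  have h3 := h.toOk0.sum_exp_le v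
  have h4 := h.z_sum v
  have h5 : 0 ≤ ∑ c ∈ s.lt T v, s.z c := sum_nonneg (h.z_nonneg v)
  have h6 : Ah (s.lt T v) s.z ≤ 1 := by
    unfold Ah
    have b1 : 0 < 1 + (1 - ∑ c ∈ s.lt T v, s.z c) := by linarith
    have b2 := Real.log_le_sub_one_of_pos (div_pos two_pos b1)
    have b3 : 2 / (1 + (1 - ∑ c ∈ s.lt T v, s.z c)) ≤ 2 := by
      rw [div_le_iff₀ b1]
      linarith
    linarith
  have h7 := mul_le_mul_of_nonneg_left h3 (by positivity : 0 ≤ 3 * MM k)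
  have h8 := mul_le_mul_of_nonneg_left h4 hM0.le
  unfold Bc
  linarith

theorem Ok0.zs_nonneg (h : s.Ok0 T) (v : V) : 0 ≤ s.zs T v := by
  exact sub_nonneg.2 (h.z_sum v)

theorem Ok0.zs_le (h : s.Ok0 T) (v : V) : s.zs T v ≤ 1 := by
  exact sub_le_self _ (sum_nonneg (h.z_nonneg v))

theorem Ok0.xx_nonneg (h : s.Ok0 T) (hk : 2 ≤ k) (c : V) : 0 ≤ s.xx T c := by
  refine div_nonneg ?_ (by linarith [h.ebar_le' hk (T.par c)])
  split_ifs
  · exact h.zs_nonneg _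
  · exact le_max_left _ _

theorem xx_lt (hc : c ∈ s.lt T v) :
    s.xx T c = max 0 (s.z c - s.eps T c * s.sig T c) / (1 - s.ebar T v) := by
  obtain ⟨h1, h2, -⟩ := mem_lt.1 hc
  unfold xx
  rw [(T.mem_ch.1 h1).2, if_neg h2]

theorem Ok0.xx_hv (h : s.Ok0 T) (hv : 0 < T.lvl v) :
    s.xx T (s.hv v) = s.zs T v / (1 - s.ebar T v) := by
  unfold xx
  rw [(T.mem_ch.1 (h.hv_mem v hv)).2, if_pos rfl]

theorem Ok0.one_le_sum_xx (h : s.Ok0 T) (hk : 2 ≤ k) (hv : 0 < T.lvl v) :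
    1 ≤ ∑ c ∈ s.lt T v, s.xx T c + s.xx T (s.hv v) := by
  rw [sum_congr rfl fun c hc => xx_lt hc, h.xx_hv hv, ← sum_div, ← add_div,
    one_le_div (by linarith [h.ebar_le' hk v])]
  have h1 : ∑ c ∈ s.lt T v, (s.z c - s.eps T c * s.sig T c) ≤
      ∑ c ∈ s.lt T v, max 0 (s.z c - s.eps T c * s.sig T c) :=
    sum_le_sum fun c _ => le_max_right _ _
  rw [sum_sub_distrib] at h1
  unfold zs ebar
  linarith

theorem Ok0.sum_xx_le (h : s.Ok0 T) (hk : 2 ≤ k) (hv : 0 < T.lvl v) :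
    ∑ c ∈ s.lt T v, s.xx T c + s.xx T (s.hv v) ≤ 1.01 := by
  have h0 := h.ebar_le' hk v
  rw [sum_congr rfl fun c hc => xx_lt hc, h.xx_hv hv, ← sum_div, ← add_div,
    div_le_iff₀ (by linarith)]
  have h1 : ∑ c ∈ s.lt T v, max 0 (s.z c - s.eps T c * s.sig T c) ≤ ∑ c ∈ s.lt T v, s.z c :=
    sum_le_sum fun c hc => max_le (h.z_nonneg v c hc)
      (sub_le_self _ (mul_nonneg (h.eps_pos hk hc).le (sig_pos T s c).le))
  unfold zs
  linarith

theorem Hp_nonneg (T : Tr V) (s : HS V k) (v : V) : 0 ≤ s.Hp T v := by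
  exact le_max_left _ _

theorem Ok0.ν_le_J (h : s.Ok0 T) (hk : 2 ≤ k) (hc : c ≠ T.root) : s.ν T c ≤ s.J c := by
  rw [ν_eq T s hc]
  split_ifs
  · exact sub_le_self _ (mul_nonneg (Hp_nonneg T s _) (h.xx_nonneg hk c))
  · exact s.J_nonneg c

theorem Valid.Hp_le_SJ (h : s.Valid T) (v : V) : s.Hp T v ≤ s.SJ T v := by
  refine max_le ?_ (sub_le_self _ (h.2 v))
  exact add_nonneg (sum_nonneg fun c _ => s.J_nonneg c) (s.J_nonneg _)

theorem Valid.Hp_le (h : s.Valid T) (hv : 0 < T.lvl v) : s.Hp T v ≤ 24 * s.mh v := by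
  refine (h.Hp_le_SJ v).trans ((h.1.toOk0.sum_act_le hv fun c _ => s.J_nonneg c).trans ?_)
  have h1 : ∑ c ∈ T.ch v, s.J c ≤ ∑ c ∈ T.ch v, 2 * s.mh c := sum_le_sum fun c _ => h.1.J_le c
  rw [← mul_sum] at h1
  linarith [h.1.sum_mh v]

/-- `0 ≤ ν c = J c - Hp * xx c` and `xx c ≥ z c - eps * sig` -/
theorem Valid.Hp_mul_z_le (h : s.Valid T) (hk : 2 ≤ k) (hl : s.live T v) (hc : c ∈ s.lt T v) :
    s.Hp T v * s.z c ≤ 3 * s.mh c := by
  have h0 := h.1.toOk0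
  have hM := MM_ge hk
  obtain ⟨h1, -, h3⟩ := mem_lt.1 hc
  obtain ⟨h4, h5⟩ := T.mem_ch.1 h1
  have hv : 0 < T.lvl v := by
    rw [← h5, T.lvl_par c h4]
    omega
  have hlc : s.live T c := (live_iff h4).2 ⟨Or.inr h3, h5.symm ▸ hl⟩
  have h6 := h.2 c
  rw [ν_eq T s h4, if_pos hlc, h5] at h6
  have h7 : s.z c - s.eps T c * s.sig T c ≤ s.xx T c := by
    have b1 := h0.ebar_le' hk v
    have b2 := h0.ebar_nonneg hk v
    rw [xx_lt hc]
    refine (le_max_right 0 _).trans ?_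
    rw [le_div_iff₀ (by linarith)]
    exact mul_le_of_le_one_right (le_max_left _ _) (by linarith)
  have h8 := Hp_nonneg T s v
  have h9 := mul_le_mul_of_nonneg_left h7 h8
  have h10 : s.Hp T v * (s.eps T c * s.sig T c) ≤ s.mh c := by
    have b1 := h0.mh_pos hc
    have b2 := h0.mh_nonneg c
    have b3 : s.mh c / (40 * s.mh v) / MM k ≤ s.mh c / (40 * s.mh v) :=
      div_le_self (by positivity) (by linarith)
    have b4 := mul_le_mul (h.Hp_le hv) ((h0.eps_sig_le hk hc).trans b3)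
      (mul_nonneg (h0.eps_pos hk hc).le (sig_pos T s c).le) (by positivity)
    have b5 : 24 * s.mh v * (s.mh c / (40 * s.mh v)) = 24 / 40 * s.mh c := by field_simp
    linarith
  have h11 := h0.J_le c
  rw [mul_sub] at h9
  linarith

theorem Ok.Y_ge (h : s.Ok T) (hk : 2 ≤ k) (hp : T.Good p) (c : V) : -m2 p c ≤ s.Y T p c := by
  have h1 := h.eta_le hk c
  have h2 := h.toOk0.eta_nonneg hk c
  have h3 := m2_nonneg p c
  have h4 : -m2 p c ≤ s.D T p c := by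
    unfold D
    rw [Fs_eq]
    have := mul_nonneg (h.toOk0.sv_nonneg hk c) (sub_nonneg.2 (hp.m3_le c))
    linarith [s.J_nonneg c]
  have h5 := mul_le_mul_of_nonneg_left h4 (by linarith : 0 ≤ 1 - s.eta T c / 30)
  unfold Y
  nlinarith

theorem Ok.D_nonneg (h : s.Ok T) (hk : 2 ≤ k) (hp : T.Good p) (hf : s.Fresh p) (c : V) :
    0 ≤ s.D T p c := by
  unfold D
  rw [Fs_eq]
  have := mul_nonneg (h.toOk0.sv_nonneg hk c) (sub_nonneg.2 (hp.m3_le c))
  linarith [hf.le_J c]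

theorem Ok.D_le (h : s.Ok T) (hk : 2 ≤ k) (hp : T.Good p) (c : V) : s.D T p c ≤ s.J c := by
  refine sub_le_self _ (add_nonneg ?_ ?_)
  · exact mul_nonneg (sub_nonneg.2 (h.sv_le c)) (m2_nonneg p c)
  · exact mul_nonneg (h.toOk0.sv_nonneg hk c) (hp.m3_nonneg c)

theorem Ok.D_le_S (h : s.Ok T) (hk : 2 ≤ k) (hp : T.Good p) (hf : s.Fresh p) (c : V) :
    s.D T p c ≤ 30 * (m2 p c - m3 p c) := by
  unfold D
  rw [Fs_eq]
  have := mul_le_mul_of_nonneg_right (h.sv_le c) (sub_nonneg.2 (hp.m3_le c))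
  linarith [hf.J_sub c]

theorem Ok.Y_nonneg (h : s.Ok T) (hk : 2 ≤ k) (hp : T.Good p) (hf : s.Fresh p) (c : V) :
    0 ≤ s.Y T p c := by
  exact mul_nonneg (by linarith [h.eta_le hk c]) (h.D_nonneg hk hp hf c)

theorem Ok.Y_le (h : s.Ok T) (hk : 2 ≤ k) (hp : T.Good p) (hf : s.Fresh p) (c : V) :
    s.Y T p c ≤ 3 * m2 p c := by
  refine le_trans ?_ ((h.D_le hk hp c).trans (hf.J_le c))
  exact mul_le_of_le_one_left (h.D_nonneg hk hp hf c) (by linarith [h.toOk0.eta_nonneg hk c])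

theorem Ok.Yt_le (h : s.Ok T) (hk : 2 ≤ k) (hp : T.Good p) (hf : s.Fresh p) (hv : 0 < T.lvl v) :
    s.Yt T p v ≤ 3 * m2 p v := by
  have h1 : ∑ c ∈ s.lt T v, s.Y T p c ≤ ∑ c ∈ s.lt T v, 3 * m2 p c :=
    sum_le_sum fun c _ => h.Y_le hk hp hf c
  rw [← mul_sum] at h1
  have h2 := h.Y_le hk hp hf (s.hv v)
  have h3 := h.toOk0.sum_act_le hv (f := m2 p) fun c _ => m2_nonneg p c
  have h4 := hp.sa2 v
  unfold Yt
  linarith

theorem Ok0.m2_le (h : s.Ok0 T) (hf : s.Fresh p) (v : V) : m2 p v ≤ 2 * s.mh v := by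
  exact (hf.le_J v).trans (h.J_le v)

theorem Ok0.mh_le_m2 (h : s.Ok0 T) (hf : s.Fresh p) (v : V) : s.mh v ≤ 6 * m2 p v := by
  linarith [h.mh_le v, hf.J_le v]

end HS

end

end Crest.Agent.R314
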