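import Crest.Agent.R314.HSTDefs

/-! Row 314: the entropic potential of one node. -/

set_option autoImplicit false

open Finset Crest.LogicCS.KServer

namespace Crest.Agent.R314

noncomputable section
open Classical

variable {ι : Type*} {I : Finset ι} {e σ z Y : ι → ℝ} {Yh M : ℝ}

theorem Par.A_nonneg (h : Par I e σ z M) {c : ι} (hc : c ∈ I) : 0 ≤ Ac (e c) (σ c) (z c) := by
  have h1 : z c ≤ 1 := (single_le_sum h.z_nonneg hc).trans h.z_sum
  have h2 := h.σ_pos c hc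
  have h3 := h.z_nonneg c hc
  refine div_nonneg (Real.log_nonneg ?_) (h.e_pos c hc).le
  rw [le_div_iff₀ (by linarith)]
  linarith

theorem Par.Ah_nonneg (h : Par I e σ z M) : 0 ≤ Ah I z := by
  have h1 := sum_nonneg h.z_nonneg
  have h2 := h.z_sum
  refine Real.log_nonneg ?_
  rw [le_div_iff₀ (by linarith)]
  linarith

theorem Par.Ah_le (h : Par I e σ z M) : Ah I z ≤ 1 := by
  have h1 := sum_nonneg h.z_nonneg
  have h2 := h.z_sum
  have h3 : 2 / (1 + (1 - ∑ c ∈ I, z c)) ≤ 2 := by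
    rw [div_le_iff₀ (by linarith)]
    linarith
  have h4 := Real.log_le_sub_one_of_pos (x := 2 / (1 + (1 - ∑ c ∈ I, z c)))
    (div_pos two_pos (by linarith))
  unfold Ah
  linarith

theorem Par.B_nonneg (h : Par I e σ z M) : 0 ≤ Bc I e σ z := by
  have h1 : 0 ≤ ∑ c ∈ I, (σ c * Ac (e c) (σ c) (z c) + z c / e c) := sum_nonneg fun c hc =>
    add_nonneg (mul_nonneg (h.σ_pos c hc).le (h.A_nonneg hc))
      (div_nonneg (h.z_nonneg c hc) (h.e_pos c hc).le)
  have h2 := h.Ah_nonneg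
  have h3 := h.z_sum
  unfold Bc
  linarith

theorem Phi_eq : Phi I e σ z Y Yh =
    ∑ c ∈ I, (Ac (e c) (σ c) (z c) + Bc I e σ z) * Y c + (Ah I z + Bc I e σ z) * Yh := by
  simp only [Phi, add_mul, sum_add_distrib, ← mul_sum]
  ring

theorem Phi_congr {z' : ι → ℝ} (h : ∀ c ∈ I, z c = z' c) :
    Phi I e σ z Y Yh = Phi I e σ z' Y Yh := by
  have h1 : ∑ c ∈ I, z c = ∑ c ∈ I, z' c := sum_congr rfl h
  have h2 : Ah I z = Ah I z' := by rw [Ah, Ah, h1]
  have h3 : Bc I e σ z = Bc I e σ z' := by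
    rw [Bc, Bc, h1, h2, sum_congr rfl fun c hc => by rw [h c hc]]
  rw [Phi, Phi, h2, h3, sum_congr rfl fun c hc => by rw [h c hc]]

theorem Par.phi_nonneg (h : Par I e σ z M) (hY : ∀ c ∈ I, 0 ≤ Y c) (hYh : 0 ≤ Yh) :
    0 ≤ Phi I e σ z Y Yh := by
  rw [Phi_eq]
  exact add_nonneg (sum_nonneg fun c hc =>
    mul_nonneg (add_nonneg (h.A_nonneg hc) h.B_nonneg) (hY c hc))
    (mul_nonneg (add_nonneg h.Ah_nonneg h.B_nonneg) hYh)

theorem Par.phi_le (h : Par I e σ z M) (hY : ∀ c ∈ I, 0 ≤ Y c) (hYh : 0 ≤ Yh) :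
    Phi I e σ z Y Yh ≤ 5 * M * (∑ c ∈ I, Y c + Yh) := by
  rw [Phi_eq, mul_add, mul_sum]
  refine add_le_add (sum_le_sum fun c hc => mul_le_mul_of_nonneg_right ?_ (hY c hc))
    (mul_le_mul_of_nonneg_right ?_ hYh)
  · linarith [h.A_le c hc, h.B_le]
  · linarith [h.Ah_le, h.B_le, h.one_le]

theorem Par.phi_ge (h : Par I e σ z M) {a : ι → ℝ} {ah : ℝ} (ha : ∀ c ∈ I, 0 ≤ a c)
    (hah : 0 ≤ ah) (hY : ∀ c ∈ I, -a c ≤ Y c) (hYh : -ah ≤ Yh) :
    -(5 * M * (∑ c ∈ I, a c + ah)) ≤ Phi I e σ z Y Yh := by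
  have key : ∀ K y b : ℝ, 0 ≤ K → K ≤ 5 * M → 0 ≤ b → -b ≤ y → -(5 * M * b) ≤ K * y := by
    intro K y b h1 h2 h3 h4
    nlinarith [mul_nonneg h1 (sub_nonneg.2 h4), mul_nonneg (sub_nonneg.2 h2) h3]
  rw [Phi_eq, mul_add, mul_sum, neg_add, ← sum_neg_distrib]
  refine add_le_add (sum_le_sum fun c hc => key _ _ _ (add_nonneg (h.A_nonneg hc) h.B_nonneg) ?_
    (ha c hc) (hY c hc)) (key _ _ _ (add_nonneg h.Ah_nonneg h.B_nonneg) ?_ hah hYh)
  · linarith [h.A_le c hc, h.B_le]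
  · linarith [h.Ah_le, h.B_le, h.one_le]

/-- `Ah I' z' ≤ Ah I z` and `Bc' ≤ Bc + 3 M ∑_{I' \ U} σ'` (the removed coordinates have
`z / e ≥ z`); then `Phi_eq`. -/
theorem phi_reset {I' U : Finset ι} {e' σ' z' Y' : ι → ℝ} {Yh' : ℝ} (hU : U ⊆ I) (hU' : U ⊆ I')
    (h : Par I e σ z M) (h' : Par I' e' σ' z' M)
    (he : ∀ c ∈ U, e' c = e c ∧ σ' c = σ c ∧ z' c = z c) (hz : ∀ c ∈ I' \ U, z' c = 0)
    (hY : ∀ c ∈ I', 0 ≤ Y' c) (hYh : 0 ≤ Yh') :
    Phi I' e' σ' z' Y' Yh' ≤ Phi I e σ z Y Yh +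
      5 * M * (∑ c ∈ U, |Y' c - Y c| + ∑ c ∈ I' \ U, Y' c + ∑ c ∈ I \ U, max 0 (-Y c) +
        max 0 (Yh' - Yh)) + 3 * M * (∑ c ∈ I' \ U, σ' c) * (∑ c ∈ I', Y' c + Yh') := by
  have hM : 0 ≤ M := by linarith [h.one_le]
  have hz1 : ∑ c ∈ I', z' c = ∑ c ∈ U, z c := by
    rw [← sum_sdiff hU', sum_eq_zero hz, zero_add]
    exact sum_congr rfl fun c hc => (he c hc).2.2
  have hz2 : ∑ c ∈ I, z c = ∑ c ∈ I \ U, z c + ∑ c ∈ U, z c := (sum_sdiff hU).symm
  have hz3 : 0 ≤ ∑ c ∈ I \ U, z c := sum_nonneg fun c hc => h.z_nonneg c (sdiff_subset hc)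
  have hAh : Ah I' z' ≤ Ah I z := by
    have := h.z_sum
    unfold Ah
    refine Real.log_le_log (div_pos two_pos (by linarith)) ?_
    exact div_le_div_of_nonneg_left two_pos.le (by linarith) (by linarith)
  have hAU : ∀ c ∈ U, Ac (e' c) (σ' c) (z' c) = Ac (e c) (σ c) (z c) := fun c hc => by
    rw [(he c hc).1, (he c hc).2.1, (he c hc).2.2]
  have hB : Bc I' e' σ' z' ≤ Bc I e σ z + 3 * M * ∑ c ∈ I' \ U, σ' c := by
    have a1 : ∑ c ∈ U, (σ' c * Ac (e' c) (σ' c) (z' c) + z' c / e' c)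
        = ∑ c ∈ U, (σ c * Ac (e c) (σ c) (z c) + z c / e c) := sum_congr rfl fun c hc => by
      rw [(he c hc).1, (he c hc).2.1, (he c hc).2.2]
    have a2 : ∑ c ∈ I' \ U, (σ' c * Ac (e' c) (σ' c) (z' c) + z' c / e' c)
        ≤ 3 * M * ∑ c ∈ I' \ U, σ' c := by
      rw [mul_sum]
      refine sum_le_sum fun c hc => ?_
      have b1 := h'.A_le c (sdiff_subset hc)
      have b2 := h'.σ_pos c (sdiff_subset hc)
      have b3 : z' c / e' c = 0 := by rw [hz c hc, zero_div]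
      rw [b3]
      nlinarith
    have a3 : ∑ c ∈ I \ U, z c ≤ ∑ c ∈ I \ U, (σ c * Ac (e c) (σ c) (z c) + z c / e c) := by
      refine sum_le_sum fun c hc => ?_
      have hc' := sdiff_subset hc
      have b1 := mul_nonneg (h.σ_pos c hc').le (h.A_nonneg hc')
      have b2 : z c ≤ z c / e c := by
        rw [le_div_iff₀ (h.e_pos c hc')]
        exact mul_le_of_le_one_right (h.z_nonneg c hc') (h.e_le c hc')
      linarith
    unfold Bc
    rw [← sum_sdiff hU' (f := fun c => σ' c * Ac (e' c) (σ' c) (z' c) + z' c / e' c),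
      ← sum_sdiff hU (f := fun c => σ c * Ac (e c) (σ c) (z c) + z c / e c)]
    linarith
  have hB0 := h.B_nonneg
  have hB2 := h.B_le
  have hT : 0 ≤ ∑ c ∈ I', Y' c + Yh' := add_nonneg (sum_nonneg hY) hYh
  have s1 : Phi I' e' σ' z' Y' Yh' ≤
      ∑ c ∈ I', (Ac (e' c) (σ' c) (z' c) + Bc I e σ z) * Y' c + (Ah I z + Bc I e σ z) * Yh'
        + 3 * M * (∑ c ∈ I' \ U, σ' c) * (∑ c ∈ I', Y' c + Yh') := by
    have b1 := mul_le_mul_of_nonneg_right hB hT
    have b2 := mul_le_mul_of_nonneg_right hAh hYh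
    simp only [Phi, add_mul, sum_add_distrib, ← mul_sum] at b1 ⊢
    linarith
  have s2 : ∑ c ∈ U, (Ac (e' c) (σ' c) (z' c) + Bc I e σ z) * Y' c ≤
      ∑ c ∈ U, (Ac (e c) (σ c) (z c) + Bc I e σ z) * Y c + 5 * M * ∑ c ∈ U, |Y' c - Y c| := by
    rw [mul_sum, ← sum_add_distrib]
    refine sum_le_sum fun c hc => ?_
    rw [hAU c hc]
    have b1 := h.A_nonneg (hU hc)
    have b2 := h.A_le c (hU hc)
    have b3 := mul_le_mul_of_nonneg_left (le_abs_self (Y' c - Y c)) (add_nonneg b1 hB0)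
    have b4 := mul_le_mul_of_nonneg_right
      (show Ac (e c) (σ c) (z c) + Bc I e σ z ≤ 5 * M by linarith) (abs_nonneg (Y' c - Y c))
    linarith
  have s3 : ∑ c ∈ I' \ U, (Ac (e' c) (σ' c) (z' c) + Bc I e σ z) * Y' c ≤
      5 * M * ∑ c ∈ I' \ U, Y' c := by
    rw [mul_sum]
    refine sum_le_sum fun c hc => mul_le_mul_of_nonneg_right ?_ (hY c (sdiff_subset hc))
    linarith [h'.A_le c (sdiff_subset hc)]
  have s4 : -(5 * M * ∑ c ∈ I \ U, max 0 (-Y c)) ≤
      ∑ c ∈ I \ U, (Ac (e c) (σ c) (z c) + Bc I e σ z) * Y c := by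
    rw [mul_sum, ← sum_neg_distrib]
    refine sum_le_sum fun c hc => ?_
    have b1 := h.A_nonneg (sdiff_subset hc)
    have b2 := h.A_le c (sdiff_subset hc)
    have b3 := mul_le_mul_of_nonneg_left (le_max_right 0 (-Y c)) (add_nonneg b1 hB0)
    have b4 := mul_le_mul_of_nonneg_right
      (show Ac (e c) (σ c) (z c) + Bc I e σ z ≤ 5 * M by linarith) (le_max_left 0 (-Y c))
    linarith
  have s5 : (Ah I z + Bc I e σ z) * Yh' ≤
      (Ah I z + Bc I e σ z) * Yh + 5 * M * max 0 (Yh' - Yh) := by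
    have b3 := mul_le_mul_of_nonneg_left (le_max_right 0 (Yh' - Yh)) (add_nonneg h.Ah_nonneg hB0)
    have b4 := mul_le_mul_of_nonneg_right
      (show Ah I z + Bc I e σ z ≤ 5 * M by linarith [h.Ah_le, h.one_le]) (le_max_left 0 (Yh' - Yh))
    linarith
  rw [← sum_sdiff hU' (f := fun c => (Ac (e' c) (σ' c) (z' c) + Bc I e σ z) * Y' c)] at s1
  rw [Phi_eq (I := I), ← sum_sdiff hU (f := fun c => (Ac (e c) (σ c) (z c) + Bc I e σ z) * Y c)]
  linarith

/-- One coordinate of the projection, `z' = min u ((z + σ) exp (e lam) - σ)`, `p ≤ u`. With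
`μ = log ((z' + σ) / (z + σ)) / e ≤ lam` the left side minus `lam (p - z')` equals
`(z' - p) (lam - μ) + ((z' + σ) log ((z' + σ) / (z + σ)) - (z' - z)) / e`; the first term vanishes
if the cap is not reached, the second is a Bregman divergence. -/
theorem proj_coord {e σ z p u lam : ℝ} (he : 0 < e) (hσ : 0 < σ) (hz : 0 ≤ z) (hp : 0 ≤ p)
    (hu : p ≤ u) (hl : 0 ≤ lam) {z' : ℝ} (hz' : z' = min u ((z + σ) * Real.exp (e * lam) - σ)) :
    lam * (p - z') ≤ ((p + σ) * Real.log ((z' + σ) / (z + σ)) - (z' - z)) / e := by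
  have hy : 0 < z + σ := by linarith
  have hw : 0 < (z + σ) * Real.exp (e * lam) := by positivity
  have hx : 0 < z' + σ := by
    rw [hz']
    rcases min_choice u ((z + σ) * Real.exp (e * lam) - σ) with h | h <;> rw [h] <;> linarith
  have hL : Real.log ((z' + σ) / (z + σ)) ≤ e * lam := by
    rw [Real.log_le_iff_le_exp (div_pos hx hy), div_le_iff₀ hy]
    have := min_le_right u ((z + σ) * Real.exp (e * lam) - σ)
    linarith
  have hB : z' - z ≤ (z' + σ) * Real.log ((z' + σ) / (z + σ)) := by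
    have h1 := Real.one_sub_inv_le_log_of_pos (div_pos hx hy)
    have h2 := mul_le_mul_of_nonneg_left h1 hx.le
    have h3 : (z' + σ) * (1 - ((z' + σ) / (z + σ))⁻¹) = z' - z := by
      field_simp
      ring
    linarith
  have hK : 0 ≤ (z' - p) * (e * lam - Real.log ((z' + σ) / (z + σ))) := by
    rcases min_choice u ((z + σ) * Real.exp (e * lam) - σ) with h | h
    · refine mul_nonneg ?_ (sub_nonneg.2 hL)
      rw [hz', h]
      linarith
    · have : (z' + σ) / (z + σ) = Real.exp (e * lam) := by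
        rw [hz', h, div_eq_iff hy.ne']
        ring
      rw [this, Real.log_exp, sub_self, mul_zero]
  rw [le_div_iff₀ he]
  nlinarith

/-- if moreover `u + σ = (1 + e) (p + σ)` a decrease gains `(z - u) / (1 + e)` -/
theorem proj_coord_gain {e σ z p lam : ℝ} (he : 0 < e) (he1 : e ≤ 1) (hσ : 0 < σ) (hz : 0 ≤ z)
    (hp : 0 ≤ p) (hl : 0 ≤ lam) {z' : ℝ}
    (hz' : z' = min ((1 + e) * p + e * σ) ((z + σ) * Real.exp (e * lam) - σ)) :
    lam * (p - z') + max 0 (z - z') / 2 ≤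
      ((p + σ) * Real.log ((z' + σ) / (z + σ)) - (z' - z)) / e := by
  have hu : p ≤ (1 + e) * p + e * σ := by nlinarith
  rcases le_or_gt z z' with h | h
  · rw [max_eq_left (by linarith), zero_div, add_zero]
    exact proj_coord he hσ hz hp hu hl hz'
  · have hy : 0 < z + σ := by linarith
    have hw : z ≤ (z + σ) * Real.exp (e * lam) - σ := by
      have := Real.one_le_exp (mul_nonneg he.le hl)
      nlinarith
    have hzu : z' = (1 + e) * p + e * σ := by
      rcases min_choice ((1 + e) * p + e * σ) ((z + σ) * Real.exp (e * lam) - σ) with h1 | h1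
      · rw [hz', h1]
      · rw [hz', h1] at h
        linarith
    have hx : z' + σ = (1 + e) * (p + σ) := by rw [hzu]; ring
    have hps : 0 < p + σ := by linarith
    have hx0 : 0 < z' + σ := by rw [hx]; positivity
    have h1 := Real.one_sub_inv_le_log_of_pos (div_pos hx0 hy)
    have h2 := mul_le_mul_of_nonneg_left h1 hps.le
    have h3 : (p + σ) * (1 - ((z' + σ) / (z + σ))⁻¹) = -((z - z') / (1 + e)) := by
      have : z - z' = (z + σ) - (1 + e) * (p + σ) := by rw [← hx]; ring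
      rw [this, hx]
      field_simp
      ring
    have h4 : (z - z') / (1 + e) ≤ (z - z') * (1 - e / 2) := by
      rw [div_le_iff₀ (by linarith)]
      have : 1 ≤ (1 - e / 2) * (1 + e) := by nlinarith
      nlinarith
    have h5 : lam * (p - z') ≤ 0 := mul_nonpos_of_nonneg_of_nonpos hl (by linarith)
    have h6 : lam * (p - z') * e ≤ 0 := mul_nonpos_of_nonpos_of_nonneg h5 he.le
    rw [max_eq_right (by linarith), le_div_iff₀ he]
    nlinarith

/-- If the total `Yt` vanishes take `z' = z`. Otherwise `p c = Y c / Yt`, and the heavy coordinate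
`1 - ∑ z` has `e = σ = 1`, `u = p = Yh / Yt`. The sum of all new coordinates is continuous in
`lam`, at most `1` at `lam = 0` and equal to the sum of the caps, at least `1`, for large `lam`
(intermediate value theorem); sum `proj_coord_gain` and `proj_coord`, using `∑ p = ∑ z' = 1`. -/
theorem exists_proj (he : ∀ c ∈ I, 0 < e c) (he1 : ∀ c ∈ I, e c ≤ 1) (hσ : ∀ c ∈ I, 0 < σ c)
    (hz : ∀ c ∈ I, 0 ≤ z c) (hz1 : ∑ c ∈ I, z c ≤ 1) (hY : ∀ c ∈ I, 0 ≤ Y c) (hYh : 0 ≤ Yh) :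
    ∃ z', Proj I e σ z Y Yh z' := by
  have hT : 0 ≤ ∑ c ∈ I, Y c + Yh := add_nonneg (sum_nonneg hY) hYh
  rcases hT.eq_or_lt with hT | hT
  · refine ⟨z, hz, hz1, fun c hc => ?_, ?_, ?_⟩
    · rw [← hT]
      have := mul_nonneg (by linarith [he c hc] : 0 ≤ 1 + e c) (hY c hc)
      linarith
    · rw [← hT, zero_mul]
      exact hYh
    · rw [← hT]
      simp
  set Yt := ∑ c ∈ I, Y c + Yh with hYt
  set p : ι → ℝ := fun c => Y c / Yt with hp
  set ph : ℝ := Yh / Yt with hph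
  set zh : ℝ := 1 - ∑ c ∈ I, z c with hzh
  have hp0 : ∀ c ∈ I, 0 ≤ p c := fun c hc => div_nonneg (hY c hc) hT.le
  have hph0 : 0 ≤ ph := div_nonneg hYh hT.le
  have hzh0 : 0 ≤ zh := by linarith
  have hYp : ∀ c, Y c = Yt * p c := fun c => by simp only [hp]; field_simp
  have hYph : Yh = Yt * ph := by simp only [hph]; field_simp
  have hsum : ∑ c ∈ I, p c + ph = 1 := by
    simp only [hp, hph]
    rw [← sum_div, ← add_div, div_self hT.ne']
  set f : ℝ → ι → ℝ := fun lam c =>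
    min ((1 + e c) * p c + e c * σ c) ((z c + σ c) * Real.exp (e c * lam) - σ c) with hf
  set fh : ℝ → ℝ := fun lam => min ph ((zh + 1) * Real.exp (1 * lam) - 1) with hfh
  have hcont : Continuous fun lam => ∑ c ∈ I, f lam c + fh lam := by
    simp only [hf, hfh]
    fun_prop
  have h0 : ∑ c ∈ I, f 0 c + fh 0 ≤ 1 := by
    have a1 : ∑ c ∈ I, f 0 c ≤ ∑ c ∈ I, z c := sum_le_sum fun c _ =>
      (min_le_right _ _).trans (by simp)
    have a2 : fh 0 ≤ zh := (min_le_right _ _).trans (by simp)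
    linarith
  have hbig : ∀ e σ z u : ℝ, 0 < e → 0 < σ → 0 ≤ z →
      ∀ᶠ lam in Filter.atTop, u ≤ (z + σ) * Real.exp (e * lam) - σ := by
    intro e σ z u he hσ hz
    filter_upwards [Filter.eventually_ge_atTop (u / (σ * e)), Filter.eventually_ge_atTop 0]
      with lam h1 h2
    rw [div_le_iff₀ (mul_pos hσ he)] at h1
    have h3 := Real.add_one_le_exp (e * lam)
    have h4 := mul_le_mul_of_nonneg_left h3 (by linarith : 0 ≤ z + σ)
    have h5 := mul_nonneg hz (mul_nonneg he.le h2)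
    nlinarith
  obtain ⟨b, hb1, hb2, hb0⟩ := (((I.eventually_all).2 fun c hc =>
    hbig (e c) (σ c) (z c) (p c) (he c hc) (hσ c hc) (hz c hc)).and
      ((hbig 1 1 zh ph one_pos one_pos hzh0).and (Filter.eventually_ge_atTop 0))).exists
  have hu : ∀ c ∈ I, p c ≤ (1 + e c) * p c + e c * σ c := fun c hc => by
    nlinarith [mul_nonneg (he c hc).le (hp0 c hc), mul_pos (he c hc) (hσ c hc)]
  have h1 : 1 ≤ ∑ c ∈ I, f b c + fh b := by
    have a1 : ∑ c ∈ I, p c ≤ ∑ c ∈ I, f b c := sum_le_sum fun c hc => le_min (hu c hc) (hb1 c hc)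
    have a2 : ph ≤ fh b := le_min le_rfl hb2
    linarith
  obtain ⟨lam, ⟨hl, -⟩, hlam⟩ := intermediate_value_Icc hb0 hcont.continuousOn ⟨h0, h1⟩
  simp only at hlam
  have hge : ∀ e σ z : ℝ, 0 < e → 0 < σ → 0 ≤ z → 0 ≤ (z + σ) * Real.exp (e * lam) - σ := by
    intro e σ z he hσ hz
    have := Real.one_le_exp (mul_nonneg he.le hl)
    nlinarith
  have hf0 : ∀ c ∈ I, 0 ≤ f lam c := fun c hc =>
    le_min ((hp0 c hc).trans (hu c hc)) (hge _ _ _ (he c hc) (hσ c hc) (hz c hc))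
  have hfh0 : 0 ≤ fh lam := le_min hph0 (hge _ _ _ one_pos one_pos hzh0)
  have hfh1 : 1 - ∑ c ∈ I, f lam c = fh lam := by linarith
  refine ⟨f lam, hf0, by linarith, fun c hc => ?_, ?_, ?_⟩
  · have := mul_le_mul_of_nonneg_left (min_le_left ((1 + e c) * p c + e c * σ c)
      ((z c + σ c) * Real.exp (e c * lam) - σ c)) hT.le
    rw [← hYt, hYp c]
    simp only [hf]
    linarith
  · rw [← hYt, hfh1, hYph]
    exact mul_le_mul_of_nonneg_left (min_le_left _ _) hT.le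
  · have hA : ∀ c ∈ I, Ac (e c) (σ c) (z c) = Ac (e c) (σ c) (f lam c)
        + Real.log ((f lam c + σ c) / (z c + σ c)) / e c := by
      intro c hc
      have a1 : 0 < f lam c + σ c := by linarith [hf0 c hc, hσ c hc]
      have a2 : 0 < z c + σ c := by linarith [hz c hc, hσ c hc]
      have a3 : 0 < 1 + σ c := by linarith [hσ c hc]
      rw [Ac, Ac, ← add_div, Real.log_div a3.ne' a1.ne', Real.log_div a3.ne' a2.ne',
        Real.log_div a1.ne' a2.ne']
      ring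
    have hAh : Ah I z = Ah I (f lam) + Real.log ((fh lam + 1) / (zh + 1)) := by
      have a1 : 0 < fh lam + 1 := by linarith
      have a2 : 0 < zh + 1 := by linarith
      rw [Ah, Ah, hfh1, ← hzh, add_comm 1 zh, add_comm 1 (fh lam), Real.log_div two_ne_zero a1.ne',
        Real.log_div two_ne_zero a2.ne', Real.log_div a1.ne' a2.ne']
      ring
    have g1 : ∑ c ∈ I, (lam * (p c - f lam c) + max 0 (z c - f lam c) / 2) ≤
        ∑ c ∈ I, ((p c + σ c) * Real.log ((f lam c + σ c) / (z c + σ c)) - (f lam c - z c)) / e c :=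
      sum_le_sum fun c hc =>
        proj_coord_gain (he c hc) (he1 c hc) (hσ c hc) (hz c hc) (hp0 c hc) hl rfl
    have g2 : lam * (ph - fh lam) ≤
        ((ph + 1) * Real.log ((fh lam + 1) / (zh + 1)) - (fh lam - zh)) / 1 :=
      proj_coord one_pos one_pos hzh0 hph0 le_rfl hl rfl
    rw [div_one] at g2
    rw [sum_add_distrib, ← mul_sum, sum_sub_distrib,
      ← sum_div I (fun c => max 0 (z c - f lam c)) 2] at g1
    have e1 : ∑ c ∈ I, Ac (e c) (σ c) (z c) * Y c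
          + Yt * ∑ c ∈ I, (σ c * Ac (e c) (σ c) (z c) + z c / e c)
        = ∑ c ∈ I, Ac (e c) (σ c) (f lam c) * Y c
          + Yt * ∑ c ∈ I, (σ c * Ac (e c) (σ c) (f lam c) + f lam c / e c)
          + Yt * ∑ c ∈ I,
            ((p c + σ c) * Real.log ((f lam c + σ c) / (z c + σ c)) - (f lam c - z c)) / e c := by
      simp only [mul_sum, ← sum_add_distrib]
      refine sum_congr rfl fun c hc => ?_
      rw [hA c hc, hYp c]
      ring
    have g3 := mul_le_mul_of_nonneg_left (add_le_add g1 g2) hT.le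
    have e2 : lam * (∑ c ∈ I, p c - ∑ c ∈ I, f lam c) + lam * (ph - fh lam) = 0 := by
      have : ∑ c ∈ I, p c - ∑ c ∈ I, f lam c = -(ph - fh lam) := by linarith
      rw [this]
      ring
    have e3 : Yt * (lam * (∑ c ∈ I, p c - ∑ c ∈ I, f lam c) + lam * (ph - fh lam)) = 0 := by
      rw [e2, mul_zero]
    have e4 : Real.log ((fh lam + 1) / (zh + 1)) * Yh
        = Yt * (ph * Real.log ((fh lam + 1) / (zh + 1))) := by rw [hYph]; ring
    simp only [Phi, Bc]
    rw [← hYt, hfh1, ← hzh, hAh]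
    linarith

end

end Crest.Agent.R314
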