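import Crest.Agent.R314.HSTPar

/-! Row 314: one step of the tree algorithm preserves the invariants. -/

set_option autoImplicit false

open Finset Crest.LogicCS.KServer

namespace Crest.Agent.R314

noncomputable section
open Classical

variable {V : Type} [Fintype V] {k : ℕ} {T : Tr V} {s : HS V k} {p : V → Fin k → ℝ} {v c : V}

/-- `q ∈ [7 p / 8, 8 p / 7]` -/
theorem kap_close {p q : ℝ} (hp : 0 ≤ p) (hp1 : p ≤ 1) (hq : 0 ≤ q) (h : |p - q| ≤ max p q / 8) :
    p ^ 2 ≤ kap q ∧ kap q ≤ 3 * p ^ 2 ∧ kap q - p ^ 3 ≤ 30 * (p ^ 2 - p ^ 3) := by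
  obtain ⟨h1, h2⟩ := abs_le.1 h
  have h3 : 7 * p ≤ 8 * q ∧ 7 * q ≤ 8 * p := by
    rcases le_total p q with h' | h'
    · rw [max_eq_right h'] at h1 h2
      constructor <;> linarith
    · rw [max_eq_left h'] at h1 h2
      constructor <;> linarith
  have h4 : kap q ≤ 3 * p ^ 2 := (min_le_right _ _).trans (by nlinarith [h3.2])
  refine ⟨le_min (by nlinarith) (by nlinarith [h3.1]), h4, ?_⟩
  rcases le_total p (1 / 2) with h' | h'
  · nlinarith [mul_nonneg (sq_nonneg p) (sub_nonneg.2 h')]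
  · have h5 : kap q ≤ 1 := min_le_left _ _
    have h6 : 0 ≤ 29 * p ^ 2 - p - 1 := by nlinarith
    nlinarith [mul_nonneg (sub_nonneg.2 hp1) h6]

theorem abs_kap_sub_le {p q : ℝ} (hp : 0 ≤ p) (hq : 0 ≤ q) (h : max p q / 8 < |p - q|) :
    |kap p - kap q| ≤ 32 * (p - q) ^ 2 := by
  have h1 : |kap p - kap q| ≤ |2 * p ^ 2 - 2 * q ^ 2| := by
    have := abs_min_sub_min_le_max 1 (2 * p ^ 2) 1 (2 * q ^ 2)
    rwa [sub_self, abs_zero, max_eq_right (abs_nonneg _)] at this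
  have h2 : |2 * p ^ 2 - 2 * q ^ 2| = 2 * (p + q) * |p - q| := by
    rw [show 2 * p ^ 2 - 2 * q ^ 2 = 2 * (p + q) * (p - q) by ring, abs_mul,
      abs_of_nonneg (by positivity)]
  have h3 : p + q ≤ 16 * |p - q| := by linarith [le_max_left p q, le_max_right p q]
  rw [← sq_abs (p - q)]
  nlinarith [mul_le_mul_of_nonneg_right h3 (abs_nonneg (p - q))]

theorem hstep_log_le {x : ℝ} (h0 : 0 < x) (h : x ≤ 512) : Real.log x ≤ 6.3 := by
  have h1 : Real.log x ≤ Real.log (2 ^ 9) := Real.log_le_log h0 (by linarith)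
  rw [Real.log_pow] at h1
  have := Real.log_two_lt_d9
  push_cast at h1
  linarith

theorem hstep_log_ge {x y : ℝ} (hx : 0 < x) (hy : 0 < y) :
    1 - y / x ≤ Real.log x - Real.log y := by
  have := Real.one_sub_inv_le_log_of_pos (div_pos hx hy)
  rwa [inv_div, Real.log_div hx.ne' hy.ne'] at this

theorem hstep_lvl_pos (hc : c ∈ T.ch v) : 0 < T.lvl v := by
  obtain ⟨h1, h2⟩ := T.mem_ch.1 hc
  rw [← h2, T.lvl_par c h1]
  exact Nat.succ_pos _

theorem Proj.hstep_congr {ι : Type*} {I : Finset ι} {e σ z Y z' z'' : ι → ℝ} {Yh : ℝ}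
    (h : Proj I e σ z Y Yh z') (he : ∀ c ∈ I, z'' c = z' c) : Proj I e σ z Y Yh z'' := by
  have h1 : ∑ c ∈ I, z'' c = ∑ c ∈ I, z' c := sum_congr rfl he
  refine ⟨fun c hc => he c hc ▸ h.nonneg c hc, h1 ▸ h.sum_le, fun c hc => he c hc ▸ h.cap c hc,
    h1 ▸ h.cap_h, ?_⟩
  have h2 : ∑ c ∈ I, max 0 (z c - z'' c) = ∑ c ∈ I, max 0 (z c - z' c) :=
    sum_congr rfl fun c hc => by rw [he c hc]
  rw [Phi_congr he, h2]
  exact h.gain

namespace HS

/-- With `ℓ v = log (max (m2 p v) (1 / 288))` one has, for `c ≠ root` and `v = par c`,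
`eta c ≤ 9600 / M * (ℓ v - ℓ c)`. Light `c`: `m2 c ≥ 1 / 12`, the heavy sibling has
`m2 ≥ m2 c / 24`, so `Δ = log (m2 v / m2 c) ≥ log (25 / 24) ≥ 1 / 25` and
`g ≤ log 480 + Δ ≤ 160 Δ`. Heavy `c` with a light sibling: `m2 c ≥ 1 / 288` and
`30 ebar ≤ 9 / M * ∑ light, m2 / m2 v ≤ 9 / M * (1 - m2 c / m2 v)`. Otherwise `eta c = 0` and `ℓ`
is monotone. -/
theorem Ok0.eta_le_log (h : s.Ok0 T) (hk : 2 ≤ k) (hp : T.Good p) (hf : s.Fresh p)
    (hc : c ≠ T.root) : s.eta T c ≤ 9600 / MM k *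
      (Real.log (max (m2 p (T.par c)) (1 / 288)) - Real.log (max (m2 p c) (1 / 288))) := by
  have hM : 0 < MM k := lt_of_lt_of_le (by norm_num) (MM_ge hk)
  obtain ⟨v, hv⟩ : ∃ v, v = T.par c := ⟨_, rfl⟩
  rw [← hv]
  have hcv : c ∈ T.ch v := T.mem_ch.2 ⟨hc, hv.symm⟩
  have hl := hstep_lvl_pos hcv
  have hmono : m2 p c ≤ m2 p v :=
    (single_le_sum (fun a _ => m2_nonneg p a) hcv).trans (hp.sa2 v)
  have h0 : 0 ≤ 9600 / MM k *
      (Real.log (max (m2 p v) (1 / 288)) - Real.log (max (m2 p c) (1 / 288))) :=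
    mul_nonneg (by positivity) (sub_nonneg.2 (Real.log_le_log
      (lt_max_of_lt_right (by norm_num)) (max_le_max_right _ hmono)))
  have hsum := (h.sum_act_le hl (f := m2 p) fun a _ => m2_nonneg p a).trans (hp.sa2 v)
  by_cases h1 : c = s.hv v
  · rcases (s.lt T v).eq_empty_or_nonempty with he | ⟨a, ha⟩
    · have : s.eta T c = 0 := by rw [h1, h.eta_hv hl, ebar, he, sum_empty, mul_zero]
      rwa [this]
    · obtain ⟨ha1, -, ha2⟩ := mem_lt.1 ha
      have h2 := h.hv_ge v a ha1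
      rw [← h1] at h2 hsum
      have h3 : 1 / 288 ≤ m2 p c := by linarith [h.mh_le_m2 hf c]
      have hc0 : 0 < m2 p c := lt_of_lt_of_le (by norm_num) h3
      have hv0 : 0 < m2 p v := hc0.trans_le hmono
      rw [max_eq_left h3, max_eq_left (h3.trans hmono)]
      have h4 : s.ebar T v ≤ ∑ a ∈ s.lt T v, 3 / 10 * (m2 p a / m2 p v) / MM k := by
        refine sum_le_sum fun a ha => (h.eps_sig_le hk ha).trans ?_
        refine div_le_div_of_nonneg_right ?_ hM.le
        have h5 := h.mh_pos ha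
        rw [← mul_div_assoc, div_le_div_iff₀ (by positivity) hv0]
        nlinarith [mul_le_mul (h.mh_le_m2 hf a) (h.m2_le hf v) hv0.le
          (mul_nonneg (by norm_num) (m2_nonneg p a))]
      rw [← sum_div, ← mul_sum, ← sum_div] at h4
      have h5 : (∑ a ∈ s.lt T v, m2 p a) / m2 p v ≤ 1 - m2 p c / m2 p v := by
        rw [le_sub_iff_add_le, ← add_div, div_le_one hv0]
        exact hsum
      have h6 := hstep_log_ge hv0 hc0
      have h7 : 0 ≤ Real.log (m2 p v) - Real.log (m2 p c) :=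
        sub_nonneg.2 (Real.log_le_log hc0 hmono)
      have h8 : s.eta T c = 30 * s.ebar T v := by rw [h1, h.eta_hv hl]
      rw [h8, div_mul_eq_mul_div, le_div_iff₀ hM]
      rw [le_div_iff₀ hM] at h4
      linarith
  · by_cases h2 : 1 / 2 ≤ s.mh c
    · have hlt : c ∈ s.lt T v := mem_lt.2 ⟨hcv, h1, h2⟩
      have h3 : 1 / 288 ≤ m2 p c := by linarith [h.mh_le_m2 hf c]
      have hc0 : 0 < m2 p c := lt_of_lt_of_le (by norm_num) h3
      have hv0 : 0 < m2 p v := hc0.trans_le hmono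
      have hm0 : 0 < s.mh c := lt_of_lt_of_le (by norm_num) h2
      rw [max_eq_left h3, max_eq_left (h3.trans hmono)]
      have h4 : m2 p c ≤ ∑ a ∈ s.lt T v, m2 p a := single_le_sum (fun a _ => m2_nonneg p a) hlt
      have h5 : m2 p c / m2 p v ≤ 24 / 25 := by
        rw [div_le_iff₀ hv0]
        linarith [h.hv_ge v c hcv, h.mh_le_m2 hf (s.hv v), h.m2_le hf c]
      have h6 := hstep_log_ge hv0 hc0
      have h7 : s.g T c ≤ Real.log 480 + (Real.log (m2 p v) - Real.log (m2 p c)) := by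
        rw [← Real.log_div hv0.ne' hc0.ne', ← Real.log_mul (by norm_num) (by positivity), g, ← hv]
        have := h.mh_pos hlt
        refine Real.log_le_log (by positivity) ?_
        rw [← mul_div_assoc, div_le_div_iff₀ hm0 hc0]
        nlinarith [mul_le_mul (h.mh_le_m2 hf v) (h.m2_le hf c) hc0.le
          (mul_nonneg (by norm_num) hv0.le)]
      have h8 := hstep_log_le (x := 480) (by norm_num) (by norm_num)
      rw [eta_lt hlt, eps, div_mul_eq_mul_div, ← mul_div_assoc]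
      exact div_le_div_of_nonneg_right (by linarith) hM.le
    · have : s.eta T c = 0 := by rw [eta, if_neg hc, ← hv, if_neg h1, if_neg h2]
      rwa [this]

/-- telescoping: `sv ≤ 9600 / M * (log k + log 288)`, `log 288 ≤ 6`, `1 ≤ log (k+1)` -/
theorem Ok0.sv_le_one (h : s.Ok0 T) (hk : 2 ≤ k) (hp : T.Good p) (hf : s.Fresh p) (v : V) :
    s.sv T v ≤ 1 := by
  have hM := MM_ge hk
  have hM0 : 0 < MM k := lt_of_lt_of_le (by norm_num) hM
  have h1 : s.sv T v ≤ 9600 / MM k *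
      (Real.log (max (m2 p T.root) (1 / 288)) - Real.log (max (m2 p v) (1 / 288))) := by
    induction v using T.down_ind with
    | h0 => rw [sv_root, sub_self, mul_zero]
    | h c hc ih =>
      rw [sv_par hc]
      linarith [h.eta_le_log hk hp hf hc]
  have hk' : (2 : ℝ) ≤ k := by exact_mod_cast hk
  have h2 : Real.log (max (m2 p T.root) (1 / 288)) ≤ Real.log (k + 1) :=
    Real.log_le_log (lt_max_of_lt_right (by norm_num))
      (max_le (by rw [hp.root]; linarith) (by linarith))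
  have h3 : -6.3 ≤ Real.log (max (m2 p v) (1 / 288)) := by
    have h4 := Real.log_le_log (by norm_num) (le_max_right (m2 p v) (1 / 288))
    rw [one_div, Real.log_inv] at h4
    have := hstep_log_le (x := 288) (by norm_num) (by norm_num)
    rw [one_div]
    linarith
  refine h1.trans ?_
  rw [div_mul_eq_mul_div, div_le_one hM0]
  unfold MM at hM ⊢
  linarith

theorem Ok0.hstep_ph' (h : s.Ok0 T) (hp : T.Good p) (v : V) (i : Fin k) :
    0 ≤ s.ph' p v i ∧ s.ph' p v i ≤ 1 ∧ |p v i - s.ph' p v i| ≤ max (p v i) (s.ph' p v i) / 8 := by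
  unfold ph'
  split_ifs with h1
  · exact ⟨h.ph_nonneg v i, h.ph_le v i, h1⟩
  · refine ⟨hp.nonneg v i, hp.le_one v i, ?_⟩
    rw [sub_self, abs_zero, max_self]
    linarith [hp.nonneg v i]

omit [Fintype V] in
theorem hstep_J'_nonneg (s : HS V k) (p : V → Fin k → ℝ) (v : V) : 0 ≤ s.J' p v :=
  sum_nonneg fun _ _ => kap_nonneg _

omit [Fintype V] in
theorem hstep_mh' (s : HS V k) (p : V → Fin k → ℝ) (v : V) :
    s.mh' p v ≤ 2 * s.J' p v ∧ s.J' p v ≤ 2 * s.mh' p v := by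
  have := s.hstep_J'_nonneg p v
  unfold mh'
  split_ifs with h1
  · exact h1.symm
  · constructor <;> linarith

theorem hstep_hv' (T : Tr V) (s : HS V k) (p : V → Fin k → ℝ) (v : V) :
    (s.hv' T p v = s.hv v ∧ ∀ c ∈ T.ch v, s.mh' p c ≤ 2 * s.mh' p (s.hv v)) ∨
      (s.hv' T p v ∈ T.ch v ∧ 2 * s.mh' p (s.hv v) < s.mh' p (s.hv' T p v) ∧
        ∀ c ∈ T.ch v, s.mh' p c ≤ s.mh' p (s.hv' T p v)) := by
  unfold hv'
  split_ifs with h1
  · have h2 := (exists_max_image (T.ch v) (s.mh' p) ⟨_, h1.choose_spec.1⟩).choose_spec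
    exact Or.inr ⟨h2.1, h1.choose_spec.2.trans_le (h2.2 _ h1.choose_spec.1), h2.2⟩
  · exact Or.inl ⟨rfl, fun c hc => not_lt.1 fun h2 => h1 ⟨c, hc, h2⟩⟩

theorem Ok0.hstep_ph'_root (h : s.Ok0 T) (hp : T.Good p) (i : Fin k) : s.ph' p T.root i = 1 := by
  unfold ph'
  split_ifs
  · exact h.ph_root i
  · exact hp.root_eq i

theorem Ok0.fresh_mid (h : s.Ok0 T) (hp : T.Good p) : (s.mid T p).Fresh p := by
  have h1 := fun v i => kap_close (hp.nonneg v i) (hp.le_one v i) (h.hstep_ph' hp v i).1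
    (h.hstep_ph' hp v i).2.2
  refine ⟨fun v => sum_le_sum fun i _ => (h1 v i).1, fun v => ?_, fun v => ?_⟩
  · rw [m2, mul_sum]
    exact sum_le_sum fun i _ => (h1 v i).2.1
  · rw [m2, m3, J, ← sum_sub_distrib, ← sum_sub_distrib, mul_sum]
    exact sum_le_sum fun i _ => (h1 v i).2.2

theorem Ok0.fresh_step (h : s.Ok0 T) (hp : T.Good p) : (s.step T p).Fresh p :=
  ⟨(h.fresh_mid hp).le_J, (h.fresh_mid hp).J_le, (h.fresh_mid hp).J_sub⟩

theorem Ok0.mh'_root (h : s.Ok0 T) (hp : T.Good p) : s.mh' p T.root = s.mh T.root := by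
  unfold mh'
  split_ifs
  · rfl
  · rw [h.mh_root, J']
    simp [h.hstep_ph'_root hp, kap]

theorem hstep_not_chg (hc : c ∈ T.ch v) (hn : ¬s.Chg T p c) :
    s.mh' p c = s.mh c ∧ (c = s.hv' T p v ↔ c = s.hv v) := by
  obtain ⟨h1, rfl⟩ := T.mem_ch.1 hc
  simp only [Chg, not_and, not_or, ne_eq, not_not] at hn
  obtain ⟨h2, h3⟩ := hn h1
  refine ⟨h2, ?_⟩
  by_cases h4 : s.hv' T p (T.par c) = s.hv (T.par c)
  · rw [h4]
  · exact iff_of_false (h3 h4).2 (h3 h4).1

/-- an unchanged child keeps its role -/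
theorem mem_lt_mid (hc : c ∈ T.ch v) (hn : ¬s.Chg T p c) :
    c ∈ (s.mid T p).lt T v ↔ c ∈ s.lt T v := by
  obtain ⟨h1, h2⟩ := hstep_not_chg hc hn
  rw [mem_lt, mem_lt]
  change c ∈ T.ch v ∧ ¬c = s.hv' T p v ∧ 1 / 2 ≤ s.mh' p c ↔ _
  rw [h1, h2]

theorem eq_hv_mid (hc : c ∈ T.ch v) (hn : ¬s.Chg T p c) : c = s.hv' T p v ↔ c = s.hv v :=
  (hstep_not_chg hc hn).2

theorem Ok0.ok_mid (h : s.Ok0 T) (hk : 2 ≤ k) (hp : T.Good p) : (s.mid T p).Ok T := by
  have hf := h.fresh_mid hp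
  have h0 : (s.mid T p).Ok0 T := by
    refine ⟨fun v i => (h.hstep_ph' hp v i).1, fun v i => (h.hstep_ph' hp v i).2.1,
      h.hstep_ph'_root hp, fun v => (s.hstep_mh' p v).1, fun v => (s.hstep_mh' p v).2,
      (h.mh'_root hp).trans h.mh_root, fun v => ?_, fun v hv => ?_, fun v c hc => ?_,
      fun v c hc => ?_, fun v => ?_⟩
    · have h1 : ∑ c ∈ T.ch v, (s.mid T p).mh c ≤ ∑ c ∈ T.ch v, 6 * m2 p c :=
        sum_le_sum fun c _ => by
          have h2 : (s.mid T p).mh c ≤ 2 * (s.mid T p).J c := (s.hstep_mh' p c).1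
          linarith [hf.J_le c]
      rw [← mul_sum] at h1
      have h2 : (s.mid T p).J v ≤ 2 * (s.mid T p).mh v := (s.hstep_mh' p v).2
      linarith [hp.sa2 v, hf.le_J v]
    · rcases hstep_hv' T s p v with h1 | h1
      · exact (show (s.mid T p).hv v = s.hv v from h1.1) ▸ h.hv_mem v hv
      · exact h1.1
    · change s.mh' p c ≤ 2 * s.mh' p (s.hv' T p v)
      rcases hstep_hv' T s p v with h1 | h1
      · rw [h1.1]
        exact h1.2 c hc
      · linarith [h1.2.2 c hc, (s.hstep_mh' p (s.hv' T p v)).2, s.hstep_J'_nonneg p (s.hv' T p v)]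
    · change 0 ≤ if s.Chg T p c then 0 else s.z c
      split_ifs with h1
      · exact le_rfl
      · exact h.z_nonneg v c ((mem_lt_mid (mem_lt.1 hc).1 h1).1 hc)
    · refine le_trans ?_ (h.z_sum v)
      change ∑ c ∈ (s.mid T p).lt T v, (if s.Chg T p c then 0 else s.z c) ≤ _
      rw [sum_ite, sum_const_zero, zero_add]
      refine sum_le_sum_of_subset_of_nonneg (fun c hc => ?_) fun c hc _ => h.z_nonneg v c hc
      obtain ⟨h1, h2⟩ := mem_filter.1 hc
      exact (mem_lt_mid (mem_lt.1 h1).1 h2).1 h1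
  exact ⟨h0, h0.sv_le_one hk hp hf⟩

theorem Ok0.isProj_step (h : s.Ok0 T) (hk : 2 ≤ k) (hp : T.Good p) (v : V) :
    (s.mid T p).IsProj T p v (s.step T p).z := by
  have hm := h.ok_mid hk hp
  have hf := h.fresh_mid hp
  have h1 : ∃ z', (s.mid T p).IsProj T p v z' :=
    exists_proj (fun c hc => hm.toOk0.eps_pos hk hc)
      (fun c hc => (hm.eps_le hk hc).trans (by norm_num)) (fun c _ => sig_pos T _ c)
      (hm.z_nonneg v) (hm.z_sum v) (fun c _ => hm.Y_nonneg hk hp hf c) (hm.Y_nonneg hk hp hf _)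
  refine Proj.hstep_congr (Classical.epsilon_spec h1) fun c hc => ?_
  obtain rfl := (T.mem_ch.1 (mem_lt.1 hc).1).2
  rfl

theorem Ok0.ok_step (h : s.Ok0 T) (hk : 2 ≤ k) (hp : T.Good p) : (s.step T p).Ok T :=
  have hm := h.ok_mid hk hp
  ⟨⟨hm.ph_nonneg, hm.ph_le, hm.ph_root, hm.mh_le, hm.J_le, hm.mh_root, hm.sum_mh, hm.hv_mem,
    hm.hv_ge, fun v => (h.isProj_step hk hp v).nonneg, fun v => (h.isProj_step hk hp v).sum_le⟩,
    hm.sv_le⟩

theorem Ok0.cap_step (h : s.Ok0 T) (hk : 2 ≤ k) (hp : T.Good p) : (s.step T p).Cap T p :=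
  fun v _ => ⟨(h.isProj_step hk hp v).cap, (h.isProj_step hk hp v).cap_h⟩

theorem Ok0.mu_nonneg (h : s.Ok0 T) (p : V → Fin k → ℝ) (c : V) : 0 ≤ s.mu p c :=
  (h.mh_nonneg c).trans (le_max_left _ _)

theorem Ok0.hstep_node (h : s.Ok0 T) (hp : T.Good p) (v : V) :
    400000 * ∑ i, (s.ph' p v i ^ 2 - 2 * s.ph' p v i * p v i) + 11000 * |s.J' p v - s.mh' p v| +
      200 * |s.J' p v - s.J v| + 5400 * (if s.mh' p v ≠ s.mh v then s.mu p v else 0) ≤
      400000 * ∑ i, (s.ph v i ^ 2 - 2 * s.ph v i * p v i) + 11000 * |s.J v - s.mh v| := by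
  have h1 : |s.J' p v - s.J v| ≤ 32 * (∑ i, (s.ph v i ^ 2 - 2 * s.ph v i * p v i) -
      ∑ i, (s.ph' p v i ^ 2 - 2 * s.ph' p v i * p v i)) := by
    rw [J', J, ← sum_sub_distrib, ← sum_sub_distrib, mul_sum]
    refine (abs_sum_le_sum_abs _ _).trans (sum_le_sum fun i _ => ?_)
    unfold ph'
    split_ifs with h2
    · simp
    · refine (abs_kap_sub_le (hp.nonneg v i) (h.ph_nonneg v i) (not_le.1 h2)).trans_eq ?_
      ring
  have h2 : |s.J' p v - s.mh v| ≤ |s.J' p v - s.J v| + |s.J v - s.mh v| := abs_sub_le _ _ _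
  have h3 := abs_nonneg (s.J' p v - s.J v)
  have h4 := abs_nonneg (s.J v - s.mh v)
  by_cases h5 : s.J' p v ≤ 2 * s.mh v ∧ s.mh v ≤ 2 * s.J' p v
  · have h6 : s.mh' p v = s.mh v := if_pos h5
    rw [h6, if_neg (not_not.2 rfl)]
    linarith
  · have h6 : s.mh' p v = s.J' p v := if_neg h5
    have h7 : s.mu p v ≤ 2 * |s.J' p v - s.mh v| := by
      have h8 := le_abs_self (s.J' p v - s.mh v)
      have h9 := neg_abs_le (s.J' p v - s.mh v)
      have := h.mh_nonneg v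
      have := s.hstep_J'_nonneg p v
      rw [mu, h6]
      rcases not_and_or.1 h5 with h10 | h10 <;> rw [not_le] at h10 <;>
        exact max_le (by linarith) (by linarith)
    have h8 : (if s.mh' p v ≠ s.mh v then s.mu p v else 0) ≤ s.mu p v := by
      split_ifs
      · exact le_rfl
      · exact h.mu_nonneg p v
    have h9 : |s.J' p v - s.mh' p v| = 0 := by rw [h6, sub_self, abs_zero]
    linarith

/-- an update of `ph` lowers the first term by `(p - ph)² ≥ |Δ kap| / 32`; an update of `mh`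
lowers the second one by `|J' - mh| ≥ mu / 2` -/
theorem Ok0.Kp_step (h : s.Ok0 T) (hk : 2 ≤ k) (hp : T.Good p) :
    (s.step T p).Kp T p + 200 * MM k * ∑ c, T.w c * |s.J' p c - s.J c| +
      5400 * MM k * ∑ c with s.mh' p c ≠ s.mh c, T.w c * s.mu p c ≤ s.Kp T p := by
  have hM : 0 ≤ MM k := le_trans (by norm_num) (MM_ge hk)
  have h1 := sum_le_sum (s := univ) fun v _ =>
    mul_le_mul_of_nonneg_left (h.hstep_node hp v) (mul_nonneg hM (T.w_pos v).le)
  refine le_of_eq_of_le ?_ (h1.trans_eq ?_)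
  · change 400000 * MM k * ∑ v, T.w v * ∑ i, (s.ph' p v i ^ 2 - 2 * s.ph' p v i * p v i) +
      11000 * MM k * ∑ v, T.w v * |s.J' p v - s.mh' p v| + _ + _ = _
    rw [sum_filter, mul_sum, mul_sum, mul_sum, mul_sum, ← sum_add_distrib, ← sum_add_distrib,
      ← sum_add_distrib]
    refine sum_congr rfl fun v _ => ?_
    split_ifs <;> ring
  · rw [Kp, mul_sum, mul_sum, ← sum_add_distrib]
    exact sum_congr rfl fun v _ => by ring

/-- If the heavy child changes from `a` to `a'` then `2 mh' a < mh' a'` and `mh a' ≤ 2 mh a`, so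
one of them has a new `mh` and pays for the other. -/
theorem Ok0.sum_chg_ch (h : s.Ok0 T) (p : V → Fin k → ℝ) (v : V) :
    ∑ c ∈ T.ch v with s.Chg T p c, s.mu p c ≤
      3 * ∑ c ∈ T.ch v with s.mh' p c ≠ s.mh c, s.mu p c := by
  set R := (T.ch v).filter fun c => s.mh' p c ≠ s.mh c with hR
  have h0 : 0 ≤ ∑ c ∈ R, s.mu p c := sum_nonneg fun c _ => h.mu_nonneg p c
  have h1 : ∀ c ∈ R, s.mu p c ≤ ∑ c ∈ R, s.mu p c := fun c hc =>
    single_le_sum (fun a _ => h.mu_nonneg p a) hc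
  have hC : ∀ c ∈ (T.ch v).filter (s.Chg T p), c ∈ R ∨
      (s.hv' T p v ≠ s.hv v ∧ (c = s.hv v ∨ c = s.hv' T p v)) := fun c hc => by
    obtain ⟨h2, h3⟩ := mem_filter.1 hc
    have h4 := h3.2
    rw [(T.mem_ch.1 h2).2] at h4
    exact h4.imp_left fun h5 => mem_filter.2 ⟨h2, h5⟩
  have key : ∀ d, s.mu p d ≤ 2 * ∑ c ∈ R, s.mu p c →
      (∀ c ∈ (T.ch v).filter (s.Chg T p), c = d ∨ c ∈ R) →
      ∑ c ∈ T.ch v with s.Chg T p c, s.mu p c ≤ 3 * ∑ c ∈ R, s.mu p c := fun d hd hs => by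
    have h2 : ∑ c ∈ T.ch v with s.Chg T p c, s.mu p c ≤ ∑ c ∈ insert d R, s.mu p c :=
      sum_le_sum_of_subset_of_nonneg (fun c hc => mem_insert.2 (hs c hc))
        fun c _ _ => h.mu_nonneg p c
    by_cases h3 : d ∈ R
    · rw [insert_eq_of_mem h3] at h2
      linarith
    · rw [sum_insert h3] at h2
      linarith
  rcases hstep_hv' T s p v with h2 | ⟨h2, h3, -⟩
  · have h3 : ∑ c ∈ T.ch v with s.Chg T p c, s.mu p c ≤ ∑ c ∈ R, s.mu p c :=
      sum_le_sum_of_subset_of_nonneg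
        (fun c hc => (hC c hc).resolve_right fun h4 => h4.1 h2.1) fun c _ _ => h.mu_nonneg p c
    linarith
  · have h4 := h.hv_mem v (hstep_lvl_pos h2)
    have h5 := h.hv_ge v _ h2
    have hn : ∀ c ∈ T.ch v, c ∉ R → s.mh' p c = s.mh c := fun c hc hc' =>
      not_not.1 fun h6 => hc' (mem_filter.2 ⟨hc, h6⟩)
    by_cases h6 : s.hv' T p v ∈ R
    · refine key (s.hv v) ?_ fun c hc => ?_
      · by_cases h7 : s.hv v ∈ R
        · linarith [h1 _ h7]
        · have h8 := hn _ h4 h7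
          have h9 : s.mh' p (s.hv' T p v) ≤ s.mu p (s.hv' T p v) := le_max_right _ _
          rw [mu, h8, max_self]
          linarith [h1 _ h6, h.mh_nonneg (s.hv v)]
      · rcases hC c hc with h7 | ⟨-, h7 | h7⟩
        · exact Or.inr h7
        · exact Or.inl h7
        · exact Or.inr (h7 ▸ h6)
    · have h7 := hn _ h2 h6
      have h8 : s.hv v ∈ R := by
        by_contra h9
        linarith [hn _ h4 h9]
      refine key (s.hv' T p v) ?_ fun c hc => ?_
      · have h9 : s.mh (s.hv v) ≤ s.mu p (s.hv v) := le_max_left _ _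
        rw [mu, h7, max_self]
        linarith [h1 _ h8]
      · rcases hC c hc with h9 | ⟨-, h9 | h9⟩
        · exact Or.inr h9
        · exact Or.inr (h9 ▸ h8)
        · exact Or.inl h9

theorem Ok0.sum_chg (h : s.Ok0 T) (p : V → Fin k → ℝ) :
    ∑ c with s.Chg T p c, T.w c * s.mu p c ≤
      3 * ∑ c with s.mh' p c ≠ s.mh c, T.w c * s.mu p c := by
  have e : ∀ (q : V → Prop) [DecidablePred q], ∑ c with c ≠ T.root ∧ q c, T.w c * s.mu p c
      = ∑ v, T.w v / 16 * ∑ c ∈ T.ch v with q c, s.mu p c := fun q _ => by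
    rw [← filter_filter, sum_filter, ← T.sum_ch]
    refine sum_congr rfl fun v _ => ?_
    rw [sum_filter, mul_sum]
    refine sum_congr rfl fun c hc => ?_
    obtain ⟨h1, rfl⟩ := T.mem_ch.1 hc
    rw [T.w_par h1]
    split_ifs <;> ring
  have h1 : ∑ c with s.Chg T p c, T.w c * s.mu p c
      = ∑ c with c ≠ T.root ∧ s.Chg T p c, T.w c * s.mu p c :=
    sum_congr (filter_congr fun c _ => ⟨fun h => ⟨h.1, h⟩, fun h => h.2⟩) fun _ _ => rfl
  have h2 : ∑ c with c ≠ T.root ∧ s.mh' p c ≠ s.mh c, T.w c * s.mu p c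
      ≤ ∑ c with s.mh' p c ≠ s.mh c, T.w c * s.mu p c :=
    sum_le_sum_of_subset_of_nonneg
      (fun c hc => mem_filter.2 ⟨mem_univ c, (mem_filter.1 hc).2.2⟩)
      fun c _ _ => mul_nonneg (T.w_pos c).le (h.mu_nonneg p c)
  rw [h1, e]
  rw [e] at h2
  refine le_trans ?_ (mul_le_mul_of_nonneg_left h2 (by norm_num))
  rw [mul_sum]
  refine sum_le_sum fun v _ => ?_
  have h3 := mul_le_mul_of_nonneg_left (h.sum_chg_ch p v)
    (div_nonneg (T.w_pos v).le (by norm_num : (0 : ℝ) ≤ 16))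
  linarith

end HS

end

end Crest.Agent.R314
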