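import Crest.Agent.R314.Det

/-! Row 314: Kuhn's theorem for finite mixtures of deterministic algorithms. -/

set_option autoImplicit false

open Finset Crest.LogicCS.KServer

namespace Crest.Agent.R314

noncomputable section
open Classical

theorem kuhn_sum_zip {X : Type*} {k : ℕ} (L : List (X × Fin k)) (σ : List X)
    (hL : L.map Prod.fst = σ) (f : List (X × Fin k) → ℝ) :
    ∑ j : Fin σ.length → Fin k,
      (if L = σ.zip (List.ofFn j) then 1 else 0) * f (σ.zip (List.ofFn j)) = f L := by
  have hlen : σ.length = L.length := by rw [← hL, List.length_map]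
  have hs : ∀ j : Fin σ.length → Fin k, (σ.zip (List.ofFn j)).map Prod.snd = List.ofFn j :=
    fun j => List.map_snd_zip (by simp)
  have h0 : L = σ.zip (List.ofFn fun t : Fin σ.length => (L[t.1]'(hlen ▸ t.2)).2) := by
    refine List.ext_getElem (by simp [hlen]) fun t h1 h2 => ?_
    subst hL
    simp
  rw [sum_eq_single fun t : Fin σ.length => (L[t.1]'(hlen ▸ t.2)).2]
  · rw [if_pos h0, one_mul, ← h0]
  · intro j _ hj
    rw [if_neg, zero_mul]
    intro h
    refine hj (List.ofFn_injective ?_)
    rw [← hs, ← h, ← hs, ← h0]
  · simp

/-- `prob reqs past i` is the conditional probability, given that the algorithm `A o` made the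
choices `past` on the proper prefixes of `reqs`, that it now chooses `i` (any fixed law if the
conditioning event has weight `0`). Prove, generalising the history `(reqs, past)`, that
`weight (reqs, past) * pathProb reqs past l` is the weight of the `o` consistent with the history
and with `dch (A o) reqs (l.map fst) = l`. -/
theorem exists_policy_of_mixture {X : Type*} [MetricSpace X] {k : ℕ} (hk : 0 < k) {O : Type*}
    [Fintype O] (wt : O → ℝ) (h0 : ∀ o, 0 ≤ wt o) (h1 : ∑ o, wt o = 1) (A : O → List X → Fin k) :
    ∃ Pol : Policy X k, ∀ (s : Fin k → X) (σ : List X),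
      expCost Pol s σ = ∑ o, wt o * dcost (A o) s σ := by
  let Cn : O → List X → List (Fin k) → Prop := fun o R past =>
    (dch (A o) [] R).map Prod.snd = past
  let W : List X → List (Fin k) → ℝ := fun R past => ∑ o, wt o * if Cn o R past then 1 else 0
  let W' : List X → List (Fin k) → Fin k → ℝ := fun R past i =>
    ∑ o, wt o * if Cn o R.dropLast past ∧ A o R = i then 1 else 0
  have hW' : ∀ R past i, 0 ≤ W' R past i := fun R past i =>
    sum_nonneg fun o _ => mul_nonneg (h0 o) (by split_ifs <;> norm_num)
  have hsum : ∀ R past, ∑ i, W' R past i = W R.dropLast past := by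
    intro R past
    simp only [W', W]
    rw [sum_comm]
    refine sum_congr rfl fun o _ => ?_
    rw [← mul_sum]
    congr 1
    by_cases h : Cn o R.dropLast past <;> simp [h]
  let Pol : Policy X k :=
    { prob := fun R past i => if W R.dropLast past = 0 then (if i = ⟨0, hk⟩ then 1 else 0)
        else W' R past i / W R.dropLast past
      prob_nonneg := fun R past i => by
        split_ifs
        · norm_num
        · norm_num
        · exact div_nonneg (hW' _ _ _) (hsum R past ▸ sum_nonneg fun i _ => hW' _ _ i)
      prob_sum := fun R past => by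
        split_ifs with h
        · simp
        · rw [← sum_div, hsum, div_self h] }
  have hCn : ∀ o R past r i, Cn o (R ++ [r]) (past ++ [i]) ↔ Cn o R past ∧ A o (R ++ [r]) = i := by
    intro o R past r i
    simp only [Cn, dch_append, dch_cons, dch_nil, List.nil_append, List.map_append, List.map_cons,
      List.map_nil, List.append_singleton_inj]
  have hstep : ∀ R past r i, W R past * Pol.prob (R ++ [r]) past i = W (R ++ [r]) (past ++ [i]) := by
    intro R past r i
    have e : W (R ++ [r]) (past ++ [i]) = W' (R ++ [r]) past i := by
      simp only [W, W', hCn, List.dropLast_concat]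
    simp only [Pol, List.dropLast_concat, e]
    by_cases h : W R past = 0
    · rw [h, zero_mul]
      have h2 := hsum (R ++ [r]) past
      rw [List.dropLast_concat, h, sum_eq_zero_iff_of_nonneg fun i _ => hW' _ _ i] at h2
      exact (h2 i (mem_univ _)).symm
    · rw [if_neg h, mul_div_cancel₀ _ h]
  have key : ∀ (l : List (X × Fin k)) R past, W R past * pathProb Pol R past l =
      ∑ o, wt o * if Cn o R past ∧ dch (A o) R (l.map Prod.fst) = l then 1 else 0 := by
    intro l
    induction l with
    | nil => intro R past; simp [pathProb, W, dch_nil]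
    | cons a l ih =>
      intro R past
      obtain ⟨r, i⟩ := a
      rw [pathProb, ← mul_assoc, hstep, ih]
      simp only [hCn, List.map_cons, dch_cons, List.cons.injEq, Prod.mk.injEq, true_and, and_assoc]
  refine ⟨Pol, fun s σ => ?_⟩
  have hW0 : W [] [] = 1 := by simp [W, Cn, dch_nil, h1]
  have e : ∀ j : Fin σ.length → Fin k, pathProb Pol [] [] (σ.zip (List.ofFn j)) =
      ∑ o, wt o * if dch (A o) [] σ = σ.zip (List.ofFn j) then 1 else 0 := by
    intro j
    have h := key (σ.zip (List.ofFn j)) [] []
    rw [hW0, one_mul, List.map_fst_zip (by simp)] at h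
    simpa [Cn, dch_nil] using h
  unfold expCost
  simp only [e, sum_mul]
  rw [sum_comm]
  refine sum_congr rfl fun o _ => ?_
  simp only [mul_assoc]
  rw [← mul_sum, dcost, ← kuhn_sum_zip _ σ (map_fst_dch (A o) [] σ) (pathCost s)]

end

end Crest.Agent.R314
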