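import Crest.Agent.R314.Tree

/-! Row 314: conditional expectations along the request filtration. -/

set_option autoImplicit false

open Finset Crest.LogicCS.KServer

namespace Crest.Agent.R314

noncomputable section
open Classical

variable {X Ω : Type*} {x : ℕ → Ω → X}

theorem Same.refl (x : ℕ → Ω → X) (t : ℕ) (ω : Ω) : Same x t ω ω := by
  intro s _ _; rfl

theorem Same.symm {t : ℕ} {ω ω' : Ω} (h : Same x t ω ω') : Same x t ω' ω := by
  intro s h1 h2; exact (h s h1 h2).symm

theorem Same.trans {t : ℕ} {a b c : Ω} (h : Same x t a b) (h' : Same x t b c) : Same x t a c := by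
  intro s h1 h2; exact (h s h1 h2).trans (h' s h1 h2)

theorem Same.mono {s t : ℕ} {ω ω' : Ω} (h : Same x t ω ω') (hst : s ≤ t) : Same x s ω ω' := by
  intro r h1 h2; exact h r h1 (h2.trans hst)

theorem Adapted.mono {α : Type*} {s t : ℕ} {f : Ω → α} (h : Adapted x s f) (hst : s ≤ t) :
    Adapted x t f := by
  intro ω ω' hs; exact h ω ω' (hs.mono hst)

theorem adapted_req {t : ℕ} (ht : 1 ≤ t) : Adapted x t (x t) := by
  intro ω ω' hs; exact hs t ht le_rfl

variable [Fintype Ω] {P : Ω → ℝ}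

theorem adapted_cE (t : ℕ) (f : Ω → ℝ) : Adapted x t (cE P x t f) := by
  intro ω ω' hs
  have : (univ.filter fun a => Same x t ω a) = univ.filter fun a => Same x t ω' a := by
    ext a
    simp only [mem_filter, mem_univ, true_and]
    exact ⟨fun h => hs.symm.trans h, fun h => hs.trans h⟩
  simp only [cE, this]

theorem cE_mono (hP : ∀ ω, 0 < P ω) {t : ℕ} {f g : Ω → ℝ} {ω : Ω}
    (h : ∀ ω', Same x t ω ω' → f ω' ≤ g ω') : cE P x t f ω ≤ cE P x t g ω := by
  unfold cE
  refine div_le_div_of_nonneg_right ?_ (sum_nonneg fun a _ => (hP a).le)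
  refine sum_le_sum fun a ha => ?_
  exact mul_le_mul_of_nonneg_left (h a (mem_filter.1 ha).2) (hP a).le

theorem cE_congr {t : ℕ} {f g : Ω → ℝ} {ω : Ω}
    (h : ∀ ω', Same x t ω ω' → f ω' = g ω') : cE P x t f ω = cE P x t g ω := by
  unfold cE
  congr 1
  refine sum_congr rfl fun a ha => ?_
  rw [h a (mem_filter.1 ha).2]

theorem cE_den_pos (hP : ∀ ω, 0 < P ω) (t : ℕ) (ω : Ω) : 0 < ∑ ω' with Same x t ω ω', P ω' :=
  sum_pos (fun a _ => hP a) ⟨ω, mem_filter.2 ⟨mem_univ _, Same.refl x t ω⟩⟩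

theorem cE_const (hP : ∀ ω, 0 < P ω) (t : ℕ) (c : ℝ) (ω : Ω) : cE P x t (fun _ => c) ω = c := by
  unfold cE
  rw [← sum_mul, mul_div_assoc, mul_comm]
  exact div_mul_cancel₀ _ (cE_den_pos hP t ω).ne'

theorem cE_add (t : ℕ) (f g : Ω → ℝ) (ω : Ω) :
    cE P x t (fun ω' => f ω' + g ω') ω = cE P x t f ω + cE P x t g ω := by
  unfold cE
  simp only [mul_add, sum_add_distrib, add_div]

theorem cE_sub (t : ℕ) (f g : Ω → ℝ) (ω : Ω) :
    cE P x t (fun ω' => f ω' - g ω') ω = cE P x t f ω - cE P x t g ω := by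
  unfold cE
  simp only [mul_sub, sum_sub_distrib, sub_div]

theorem cE_const_mul (t : ℕ) (c : ℝ) (f : Ω → ℝ) (ω : Ω) :
    cE P x t (fun ω' => c * f ω') ω = c * cE P x t f ω := by
  unfold cE
  rw [← mul_div_assoc, mul_sum]
  congr 1
  exact sum_congr rfl fun a _ => by ring

theorem cE_sum {ι : Type*} (I : Finset ι) (t : ℕ) (f : ι → Ω → ℝ) (ω : Ω) :
    cE P x t (fun ω' => ∑ i ∈ I, f i ω') ω = ∑ i ∈ I, cE P x t (f i) ω := by
  unfold cE
  rw [← sum_div, sum_comm]
  simp only [mul_sum]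

theorem cE_of_adapted (hP : ∀ ω, 0 < P ω) {t : ℕ} {f : Ω → ℝ} (hf : Adapted x t f) (ω : Ω) :
    cE P x t f ω = f ω := by
  rw [cE_congr (g := fun _ => f ω) (fun ω' h => (hf ω ω' h).symm), cE_const hP]

theorem exists_pos_of_cE_pos (hP : ∀ ω, 0 < P ω) {t : ℕ} {f : Ω → ℝ} {ω : Ω}
    (h : 0 < cE P x t f ω) : ∃ ω', Same x t ω ω' ∧ 0 < f ω' := by
  by_contra hc
  push Not at hc
  have := cE_mono hP (g := fun _ => (0 : ℝ)) hc
  rw [cE_const hP] at this
  exact absurd h (not_lt.2 this)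

/-- tower property -/
theorem sum_mul_cE (hP : ∀ ω, 0 < P ω) {t : ℕ} {g : Ω → ℝ} (hg : Adapted x t g) (f : Ω → ℝ) :
    ∑ ω, P ω * (g ω * cE P x t f ω) = ∑ ω, P ω * (g ω * f ω) := by
  have h1 : ∀ ω, P ω * (g ω * cE P x t f ω) =
      ∑ a, if Same x t ω a then P ω * (P a * (g a * f a)) / ∑ b with Same x t a b, P b else 0 := by
    intro ω
    rw [← sum_filter]
    unfold cE
    rw [← mul_div_assoc, ← mul_div_assoc, mul_sum, mul_sum, sum_div]
    refine sum_congr rfl fun a ha => ?_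
    have hs := (mem_filter.1 ha).2
    have : (univ.filter fun b => Same x t ω b) = univ.filter fun b => Same x t a b := by
      ext b
      simp only [mem_filter, mem_univ, true_and]
      exact ⟨fun h => hs.symm.trans h, fun h => hs.trans h⟩
    rw [this, hg ω a hs]
    ring
  simp only [h1]
  rw [sum_comm]
  refine sum_congr rfl fun a _ => ?_
  have h2 : ∀ ω, (if Same x t ω a then P ω * (P a * (g a * f a)) / ∑ b with Same x t a b, P b
      else 0) = if Same x t a ω then P ω * ((P a * (g a * f a)) / ∑ b with Same x t a b, P b)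
      else 0 := by
    intro ω
    by_cases h : Same x t ω a
    · rw [if_pos h, if_pos h.symm, mul_div_assoc]
    · rw [if_neg h, if_neg fun h' => h h'.symm]
  simp only [h2]
  rw [← sum_filter, ← sum_mul, mul_comm]
  exact div_mul_cancel₀ _ (cE_den_pos hP t a).ne'

theorem cE_mul_cE (t : ℕ) (f g : Ω → ℝ) (ω : Ω) :
    cE P x t f ω * cE P x t g ω = cE P x t (fun a => cE P x t (fun b => f a * g b) ω) ω := by
  simp only [cE_const_mul]
  rw [mul_comm, ← cE_const_mul]
  exact cE_congr fun a _ => mul_comm _ _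

theorem cE_mul_cE₃ (t : ℕ) (f g h : Ω → ℝ) (ω : Ω) :
    cE P x t f ω * (cE P x t g ω * cE P x t h ω) = cE P x t (fun a => cE P x t (fun b =>
      cE P x t (fun c => f a * (g b * h c)) ω) ω) ω := by
  rw [cE_mul_cE t g h, cE_mul_cE]
  refine cE_congr fun a _ => cE_congr fun b _ => ?_
  rw [← cE_const_mul]

theorem ind_mul (i a b : ℕ) : (if i < a then (1 : ℝ) else 0) * (if i < b then (1 : ℝ) else 0) =
    if i < min a b then 1 else 0 := by
  by_cases h1 : i < a <;> by_cases h2 : i < b <;> simp [h1, h2]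

theorem sum_ind {k n : ℕ} (h : n ≤ k) : ∑ i : Fin k, (if (i : ℕ) < n then (1 : ℝ) else 0) = n := by
  rw [Fin.sum_univ_eq_sum_range (fun i => if i < n then (1 : ℝ) else 0) k, ← sum_filter]
  have : (range k).filter (fun i => i < n) = range n := by
    ext i
    simp only [mem_filter, mem_range]
    omega
  rw [this]
  simp

theorem sum_abs_ind {k a b : ℕ} (ha : a ≤ k) (hb : b ≤ k) :
    ∑ i : Fin k, |(if (i : ℕ) < a then (1 : ℝ) else 0) - (if (i : ℕ) < b then (1 : ℝ) else 0)| =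
      |(a : ℝ) - b| := by
  wlog hab : a ≤ b generalizing a b
  · rw [abs_sub_comm, ← this hb ha (le_of_not_ge hab)]
    exact sum_congr rfl fun i _ => abs_sub_comm _ _
  have h1 : ∀ i : Fin k, |(if (i : ℕ) < a then (1 : ℝ) else 0) - (if (i : ℕ) < b then (1 : ℝ) else 0)| =
      (if (i : ℕ) < b then (1 : ℝ) else 0) - (if (i : ℕ) < a then (1 : ℝ) else 0) := by
    intro i
    by_cases h1 : (i : ℕ) < a
    · have h2 : (i : ℕ) < b := by omega
      simp [h1, h2]
    · by_cases h2 : (i : ℕ) < b <;> simp [h1, h2]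
  simp only [h1, sum_sub_distrib, sum_ind ha, sum_ind hb]
  have : (a : ℝ) ≤ b := by exact_mod_cast hab
  rw [abs_sub_comm, abs_of_nonneg (by linarith)]

/-- posterior tail probabilities of the numbers of tokens in the subtrees -/
def post {V : Type} [Fintype V] (T : Tr V) {k : ℕ} (P : Ω → ℝ) (x : ℕ → Ω → X) (t : ℕ)
    (loc : Ω → Fin k → V) (ω : Ω) (v : V) (i : Fin k) : ℝ :=
  cE P x t (fun ω' => if (i : ℕ) < T.cnt (loc ω') v then 1 else 0) ω

/-- `m2` and `m3` are expectations of the minimum of two or three independent copies: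
`∑ i, [i < a] [i < b] = min a b` for `a, b ≤ k`, and the minimum is superadditive -/
theorem good_post {V : Type} [Fintype V] (T : Tr V) {k : ℕ} (hP : ∀ ω, 0 < P ω) (t : ℕ)
    (loc : Ω → Fin k → V) (ω : Ω) : T.Good (post T P x t loc ω) := by
  have hm2 : ∀ v, m2 (post T P x t loc ω) v = cE P x t (fun a => cE P x t (fun b =>
      ((min (T.cnt (loc a) v) (T.cnt (loc b) v) : ℕ) : ℝ)) ω) ω := by
    intro v
    unfold m2 post
    simp only [sq, cE_mul_cE, ← cE_sum, ind_mul]
    refine cE_congr fun a _ => cE_congr fun b _ => ?_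
    exact sum_ind ((min_le_left _ _).trans (T.cnt_le _ _))
  have hm3 : ∀ v, m3 (post T P x t loc ω) v = cE P x t (fun a => cE P x t (fun b =>
      cE P x t (fun c => ((min (T.cnt (loc a) v) (min (T.cnt (loc b) v) (T.cnt (loc c) v)) : ℕ) : ℝ))
        ω) ω) ω := by
    intro v
    unfold m3 post
    simp only [pow_three, cE_mul_cE₃, ← cE_sum, ind_mul]
    refine cE_congr fun a _ => cE_congr fun b _ => cE_congr fun c _ => ?_
    exact sum_ind ((min_le_left _ _).trans (T.cnt_le _ _))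
  have hsa : ∀ a v, ∑ c ∈ T.ch v, T.cnt (loc a) c ≤ T.cnt (loc a) v := by
    intro a v
    rw [T.cnt_eq (loc a) v]
    exact Nat.le_add_left _ _
  refine ⟨fun v i => ?_, fun v i => ?_, fun v => ?_, fun v => ?_, ?_⟩
  · unfold post
    conv_lhs => rw [← cE_const (x := x) hP t 0 ω]
    exact cE_mono hP fun a _ => by split_ifs <;> norm_num
  · unfold post
    conv_rhs => rw [← cE_const (x := x) hP t 1 ω]
    exact cE_mono hP fun a _ => by split_ifs <;> norm_num
  · simp only [hm2, ← cE_sum]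
    refine cE_mono hP fun a _ => cE_mono hP fun b _ => ?_
    rw [← Nat.cast_sum, Nat.cast_le, le_min_iff]
    exact ⟨(sum_le_sum fun c _ => min_le_left _ _).trans (hsa a v),
      (sum_le_sum fun c _ => min_le_right _ _).trans (hsa b v)⟩
  · simp only [hm3, ← cE_sum]
    refine cE_mono hP fun a _ => cE_mono hP fun b _ => cE_mono hP fun d _ => ?_
    rw [← Nat.cast_sum, Nat.cast_le, le_min_iff, le_min_iff]
    exact ⟨(sum_le_sum fun c _ => min_le_left _ _).trans (hsa a v),
      (sum_le_sum fun c _ => (min_le_right _ _).trans (min_le_left _ _)).trans (hsa b v),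
      (sum_le_sum fun c _ => (min_le_right _ _).trans (min_le_right _ _)).trans (hsa d v)⟩
  · rw [hm2]
    simp only [T.cnt_root, min_self, cE_const hP]

theorem sum_post {V : Type} [Fintype V] (T : Tr V) {k : ℕ} (t : ℕ)
    (loc : Ω → Fin k → V) (ω : Ω) (v : V) :
    ∑ i, post T P x t loc ω v i = cE P x t (fun ω' => (T.cnt (loc ω') v : ℝ)) ω := by
  unfold post
  rw [← cE_sum]
  exact cE_congr fun a _ => sum_ind (T.cnt_le _ _)

theorem m2_post_le {V : Type} [Fintype V] (T : Tr V) {k : ℕ} (hP : ∀ ω, 0 < P ω) (t : ℕ)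
    (loc : Ω → Fin k → V) (ω : Ω) (v : V) :
    m2 (post T P x t loc ω) v ≤ cE P x t (fun ω' => (T.cnt (loc ω') v : ℝ)) ω := by
  rw [← sum_post]
  unfold m2
  refine sum_le_sum fun i _ => ?_
  have h0 := (good_post (x := x) T hP t loc ω).nonneg v i
  have h1 := (good_post (x := x) T hP t loc ω).le_one v i
  nlinarith

theorem one_le_m3_post {V : Type} [Fintype V] (T : Tr V) {k : ℕ} (hP : ∀ ω, 0 < P ω) (t : ℕ)
    (loc : Ω → Fin k → V) (ω : Ω) (v : V)
    (h : ∀ ω', Same x t ω ω' → ∃ i, T.Sub (loc ω' i) v) : 1 ≤ m3 (post T P x t loc ω) v := by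
  obtain ⟨i0, -⟩ := h ω (Same.refl x t ω)
  have hk : 0 < k := lt_of_le_of_lt (Nat.zero_le _) i0.2
  have h1 : post T P x t loc ω v ⟨0, hk⟩ = 1 := by
    unfold post
    rw [cE_congr (g := fun _ => (1 : ℝ)), cE_const hP]
    intro a ha
    obtain ⟨i, hi⟩ := h a ha
    rw [if_pos]
    exact card_pos.2 ⟨i, by simpa using hi⟩
  unfold m3
  calc (1 : ℝ) = post T P x t loc ω v ⟨0, hk⟩ ^ 3 := by rw [h1]; norm_num
    _ ≤ _ := single_le_sum (f := fun i => post T P x t loc ω v i ^ 3)
        (fun i _ => pow_nonneg ((good_post (x := x) T hP t loc ω).nonneg v i) 3) (mem_univ _)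

theorem sum_abs_post_sub_le {V : Type} [Fintype V] (T : Tr V) {k : ℕ} (hP : ∀ ω, 0 < P ω) (t : ℕ)
    (loc loc' : Ω → Fin k → V) (ω : Ω) (v : V) :
    ∑ i, |post T P x t loc ω v i - post T P x t loc' ω v i| ≤
      cE P x t (fun ω' => |(T.cnt (loc ω') v : ℝ) - T.cnt (loc' ω') v|) ω := by
  have h1 : ∀ i : Fin k, |post T P x t loc ω v i - post T P x t loc' ω v i| ≤
      cE P x t (fun a => |(if (i : ℕ) < T.cnt (loc a) v then (1 : ℝ) else 0) -
        (if (i : ℕ) < T.cnt (loc' a) v then (1 : ℝ) else 0)|) ω := by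
    intro i
    unfold post
    rw [abs_le]
    constructor
    · rw [neg_le, neg_sub, ← cE_sub]
      exact cE_mono hP fun a _ => by rw [abs_sub_comm]; exact le_abs_self _
    · rw [← cE_sub]
      exact cE_mono hP fun a _ => le_abs_self _
  refine (sum_le_sum fun i _ => h1 i).trans ?_
  rw [← cE_sum]
  exact cE_mono hP fun a _ => (sum_abs_ind (T.cnt_le _ _) (T.cnt_le _ _)).le

end

end Crest.Agent.R314
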