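import Crest.Agent.R314.Tree

/-! Row 314: online rounding on the tree. -/

set_option autoImplicit false

open Finset Crest.LogicCS.KServer

namespace Crest.Agent.R314

noncomputable section
open Classical

variable {V : Type} [Fintype V] (T : Tr V) {N k : ℕ}

/-- distance of the count vector at `v` from being balanced: the least, over `j : ℕ`, of
`∑ n, dist (cnt (loc n) v) [j, j+1]` -/
def Tr.imb (loc : Fin N → Fin k → V) (v : V) : ℕ :=
  sInf (Set.range fun j : ℕ => ∑ n, ((j - T.cnt (loc n) v) + (T.cnt (loc n) v - (j + 1))))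

/-- imbalance of a vector -/
def roundImb (c : Fin N → ℕ) : ℕ :=
  sInf (Set.range fun j : ℕ => ∑ n, ((j - c n) + (c n - (j + 1))))

omit [Fintype V] in
theorem round_imb_eq (loc : Fin N → Fin k → V) (v : V) :
    T.imb loc v = roundImb fun n => T.cnt (loc n) v := rfl

theorem roundImb_le (c : Fin N → ℕ) (j : ℕ) :
    roundImb c ≤ ∑ n, ((j - c n) + (c n - (j + 1))) := Nat.sInf_le ⟨j, rfl⟩

theorem roundImb_ex (c : Fin N → ℕ) :
    ∃ j : ℕ, ∑ n, ((j - c n) + (c n - (j + 1))) = roundImb c :=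
  Nat.sInf_mem (s := Set.range fun j : ℕ => ∑ n, ((j - c n) + (c n - (j + 1)))) ⟨_, 0, rfl⟩

theorem round_sum_one (f g : Fin N → ℕ) (n₀ : Fin N) (h : ∀ n, n ≠ n₀ → f n = g n) :
    ∑ n, f n + g n₀ = ∑ n, g n + f n₀ := by
  rw [← add_sum_erase _ f (mem_univ n₀), ← add_sum_erase _ g (mem_univ n₀),
    sum_congr rfl fun n hn => h n (ne_of_mem_erase hn)]
  ring

theorem round_sum_two (f g : Fin N → ℕ) {n₁ n₂ : Fin N} (h12 : n₁ ≠ n₂)
    (h : ∀ n, n ≠ n₁ → n ≠ n₂ → f n = g n) :
    ∑ n, f n + (g n₁ + g n₂) = ∑ n, g n + (f n₁ + f n₂) := by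
  have h2 : n₂ ∈ univ.erase n₁ := mem_erase.2 ⟨h12.symm, mem_univ _⟩
  rw [← add_sum_erase _ f (mem_univ n₁), ← add_sum_erase _ g (mem_univ n₁),
    ← add_sum_erase _ f h2, ← add_sum_erase _ g h2,
    sum_congr rfl fun n hn => h n (ne_of_mem_erase (mem_of_mem_erase hn)) (ne_of_mem_erase hn)]
  ring

theorem roundImb_step {c c' : Fin N → ℕ} (n₀ : Fin N) (h : ∀ n, n ≠ n₀ → c' n = c n)
    (h1 : c' n₀ ≤ c n₀ + 1) (h2 : c n₀ ≤ c' n₀ + 1) : roundImb c' ≤ roundImb c + 1 := by
  obtain ⟨j, hj⟩ := roundImb_ex c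
  have h3 := roundImb_le c' j
  have h4 := round_sum_one (fun n => (j - c' n) + (c' n - (j + 1)))
    (fun n => (j - c n) + (c n - (j + 1))) n₀ (fun n hn => by simp only [h n hn])
  omega

theorem roundImb_transfer {c c' : Fin N → ℕ} {n₁ n₂ : Fin N} (h12 : n₁ ≠ n₂)
    (h : ∀ n, n ≠ n₁ → n ≠ n₂ → c' n = c n) (h1 : c' n₁ + 1 = c n₁) (h2 : c' n₂ = c n₂ + 1)
    (hlt : c n₂ < c n₁) : roundImb c' ≤ roundImb c := by
  obtain ⟨j, hj⟩ := roundImb_ex c
  have h3 := roundImb_le c' j
  have h4 := round_sum_two (fun n => (j - c' n) + (c' n - (j + 1)))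
    (fun n => (j - c n) + (c n - (j + 1))) h12 (fun n hn hn' => by simp only [h n hn hn'])
  omega

theorem roundImb_strict {c : Fin N → ℕ} (hc : ∃ n n', c n' + 1 < c n) :
    ∃ n₁ n₂, c n₂ + 2 ≤ c n₁ ∧ ∀ c' : Fin N → ℕ, (∀ n, n ≠ n₁ → n ≠ n₂ → c' n = c n) →
      c' n₁ + 1 = c n₁ → c' n₂ = c n₂ + 1 → roundImb c' < roundImb c := by
  obtain ⟨m, m', hm⟩ := hc
  obtain ⟨n₁, -, hn₁⟩ := exists_max_image univ c ⟨m, mem_univ _⟩
  obtain ⟨n₂, -, hn₂⟩ := exists_min_image univ c ⟨m, mem_univ _⟩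
  have h0 : c n₂ + 2 ≤ c n₁ := by
    have := hn₁ m (mem_univ _)
    have := hn₂ m' (mem_univ _)
    omega
  have h12 : n₁ ≠ n₂ := by
    rintro rfl
    omega
  refine ⟨n₁, n₂, h0, fun c' h h1 h2 => ?_⟩
  obtain ⟨j, hj⟩ := roundImb_ex c
  have h3 := roundImb_le c' j
  have h4 := round_sum_two (fun n => (j - c' n) + (c' n - (j + 1)))
    (fun n => (j - c n) + (c n - (j + 1))) h12 (fun n hn hn' => by simp only [h n hn hn'])
  have hA : ¬(j + 2 ≤ c n₁ ∧ j + 1 ≤ c n₂) := by
    rintro ⟨a1, a2⟩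
    have h5 := roundImb_le c (j + 1)
    have h6 : ∑ n, ((j + 1 - c n) + (c n - (j + 1 + 1))) < ∑ n, ((j - c n) + (c n - (j + 1))) := by
      refine sum_lt_sum (fun n _ => ?_) ⟨n₁, mem_univ _, by omega⟩
      have := hn₂ n (mem_univ _)
      omega
    omega
  have hB : ¬(c n₂ + 1 ≤ j ∧ c n₁ ≤ j) := by
    rintro ⟨a1, a2⟩
    have h5 := roundImb_le c (j - 1)
    have h6 : ∑ n, ((j - 1 - c n) + (c n - (j - 1 + 1))) < ∑ n, ((j - c n) + (c n - (j + 1))) := by
      refine sum_lt_sum (fun n _ => ?_) ⟨n₂, mem_univ _, by omega⟩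
      have := hn₁ n (mem_univ _)
      omega
    omega
  omega

/-- move one token -/
def roundMv (loc : Fin N → Fin k → V) (n₀ : Fin N) (i₀ : Fin k) (u : V) : Fin N → Fin k → V :=
  fun n i => if n = n₀ ∧ i = i₀ then u else loc n i

omit [Fintype V] in
theorem roundMv_ne (loc : Fin N → Fin k → V) {n₀ n : Fin N} (i₀ : Fin k) (u : V) (h : n ≠ n₀) :
    roundMv loc n₀ i₀ u n = loc n := by
  funext i
  simp [roundMv, h]

omit [Fintype V] in
theorem round_cnt_mv (loc : Fin N → Fin k → V) (n₀ : Fin N) (i₀ : Fin k) (u v : V) :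
    T.cnt (roundMv loc n₀ i₀ u n₀) v + (if T.Sub (loc n₀ i₀) v then 1 else 0) =
      T.cnt (loc n₀) v + (if T.Sub u v then 1 else 0) := by
  have h := round_sum_one (fun i => if T.Sub (roundMv loc n₀ i₀ u n₀ i) v then 1 else 0)
    (fun i => if T.Sub (loc n₀ i) v then 1 else 0) i₀ (fun i hi => by simp [roundMv, hi])
  unfold Tr.cnt
  rw [card_filter, card_filter]
  simpa only [roundMv, and_self, if_true] using h

theorem round_cost_mv (loc : Fin N → Fin k → V) (n₀ : Fin N) (i₀ : Fin k) (u : V) :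
    ∑ n, ∑ i, T.td (loc n i) (roundMv loc n₀ i₀ u n i) = T.td (loc n₀ i₀) u := by
  rw [sum_eq_single n₀, sum_eq_single i₀]
  · simp [roundMv]
  · intro i _ hi
    simp [roundMv, hi, T.td_self]
  · simp
  · intro n _ hn
    simp [roundMv, hn, T.td_self]
  · simp

theorem round_cost_tri (l₁ l₂ l₃ : Fin N → Fin k → V) :
    ∑ n, ∑ i, T.td (l₁ n i) (l₃ n i) ≤
      ∑ n, ∑ i, T.td (l₁ n i) (l₂ n i) + ∑ n, ∑ i, T.td (l₂ n i) (l₃ n i) := by
  rw [← sum_add_distrib]
  refine sum_le_sum fun n _ => ?_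
  rw [← sum_add_distrib]
  exact sum_le_sum fun i _ => T.td_triangle _ _ _

theorem round_parked {a : V → ℕ} {loc : Fin N → Fin k → V} (h : T.Cons loc a) {v : V}
    (hv : ∑ c ∈ T.ch v, a c < a v) : ∃ n i, loc n i = v := by
  by_contra hn
  push Not at hn
  have h1 : ∀ n, T.cnt (loc n) v = ∑ c ∈ T.ch v, T.cnt (loc n) c := by
    intro n
    rw [T.cnt_eq, filter_false_of_mem (fun i _ => hn n i), card_empty, zero_add]
  rw [← h v, sum_congr rfl fun n _ => h1 n, sum_comm, sum_congr rfl fun c _ => h c] at hv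
  exact lt_irrefl _ hv

omit [Fintype V] in
/-- the ancestors of `v` and of its parent -/
theorem round_sub_par_iff {v u : V} (hu : u ≠ v) : T.Sub v u ↔ T.Sub (T.par v) u := by
  rw [T.sub_iff_par]
  exact ⟨fun h => h.resolve_left hu.symm, Or.inr⟩

omit [Fintype V] in
/-- effect of a move which changes the ancestors at one node only -/
theorem round_move {a : V → ℕ} {loc : Fin N → Fin k → V} (h : T.Cons loc a) (n₀ : Fin N)
    (i₀ : Fin k) (u v : V) (hu : ∀ z, z ≠ v → (T.Sub (loc n₀ i₀) z ↔ T.Sub u z)) :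
    ∃ a' : V → ℕ, T.Cons (roundMv loc n₀ i₀ u) a' ∧ (∀ z, z ≠ v → a' z = a z) ∧
      a' v + (if T.Sub (loc n₀ i₀) v then 1 else 0) = a v + (if T.Sub u v then 1 else 0) ∧
      (∀ z, z ≠ v → T.imb (roundMv loc n₀ i₀ u) z = T.imb loc z) ∧
      T.imb (roundMv loc n₀ i₀ u) v ≤ T.imb loc v + 1 := by
  have h1 : ∀ z, z ≠ v → ∀ n, T.cnt (roundMv loc n₀ i₀ u n) z = T.cnt (loc n) z := by
    intro z hz n
    by_cases hn : n = n₀
    · subst hn
      have := round_cnt_mv T loc n i₀ u z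
      rw [if_congr (hu z hz) rfl rfl] at this
      omega
    · rw [roundMv_ne _ _ _ hn]
  have h2 := round_cnt_mv T loc n₀ i₀ u v
  refine ⟨fun z => ∑ n, T.cnt (roundMv loc n₀ i₀ u n) z, fun _ => rfl, ?_, ?_, ?_, ?_⟩
  · intro z hz
    rw [← h z]
    exact sum_congr rfl fun n _ => h1 z hz n
  · have h3 := round_sum_one (fun n => T.cnt (roundMv loc n₀ i₀ u n) v)
      (fun n => T.cnt (loc n) v) n₀ (fun n hn => by simp only [roundMv_ne _ _ _ hn])
    simp only [h v] at h3 ⊢
    omega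
  · intro z hz
    rw [round_imb_eq, round_imb_eq]
    congr 1
    funext n
    exact h1 z hz n
  · rw [round_imb_eq, round_imb_eq]
    refine roundImb_step n₀ (fun n hn => by simp only [roundMv_ne _ _ _ hn]) ?_ ?_
    · split_ifs at h2 <;> omega
    · split_ifs at h2 <;> omega

theorem round_sum_one' (f g : V → ℝ) (v : V) (h : ∀ z, z ≠ v → f z = g z) :
    ∑ z, f z + g v = ∑ z, g z + f v := by
  rw [← add_sum_erase _ f (mem_univ v), ← add_sum_erase _ g (mem_univ v),
    sum_congr rfl fun n hn => h n (ne_of_mem_erase hn)]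
  ring

/-- descent into children where the giver has more tokens -/
theorem round_desc (l l' : Fin k → V) (v : V) : T.cnt l' v < T.cnt l v →
    ∃ i, T.Sub (l i) v ∧ ∀ u, T.Sub (l i) u → T.Sub u v → T.cnt l' u < T.cnt l u := by
  induction v using T.up_ind with
  | h v ih =>
    intro hv
    by_cases hc : ∃ c ∈ T.ch v, T.cnt l' c < T.cnt l c
    · obtain ⟨c, hc, hlt⟩ := hc
      obtain ⟨i, hi, hi'⟩ := ih c hc hlt
      obtain ⟨hc0, hc1⟩ := T.mem_ch.1 hc
      refine ⟨i, hi.trans (hc1 ▸ T.sub_par c), fun u h1 h2 => ?_⟩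
      rcases h1.total hi with h3 | h3
      · exact hi' u h1 h3
      · rcases T.sub_iff_par.1 h3 with rfl | h4
        · exact hlt
        · rw [hc1] at h4
          rw [h2.eq_of_lvl_eq (le_antisymm h2.lvl_le h4.lvl_le)]
          exact hv
    · push Not at hc
      have h1 := sum_le_sum hc
      have h2 := T.cnt_eq l v
      have h3 := T.cnt_eq l' v
      obtain ⟨i, hi⟩ := card_pos.1 (show 0 < #{i | l i = v} by omega)
      have hi' : l i = v := (mem_filter.1 hi).2
      refine ⟨i, hi' ▸ T.sub_refl _, fun u h4 h5 => ?_⟩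
      rw [hi'] at h4
      rw [h5.eq_of_lvl_eq (le_antisymm h5.lvl_le h4.lvl_le)]
      exact hv

theorem round_desc' (l l' : Fin k → V) {v : V} (hv : T.cnt l' v < T.cnt l v) :
    ∃ i, T.Sub (l i) v ∧ ∀ u, T.Sub (l i) u → ¬T.Sub (T.par v) u → T.cnt l' u < T.cnt l u := by
  obtain ⟨i, hi, hi'⟩ := round_desc T l l' v hv
  refine ⟨i, hi, fun u h1 h2 => ?_⟩
  rcases h1.total hi with h3 | h3
  · exact hi' u h1 h3
  · rcases T.sub_iff_par.1 h3 with rfl | h4
    · exact hv
    · exact absurd h4 h2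

theorem round_desc_out (l l' : Fin k → V) {v : V} (hv : v ≠ T.root)
    (h1 : T.cnt l v + 2 ≤ T.cnt l' v) (h2 : T.cnt l' (T.par v) ≤ T.cnt l (T.par v) + 1) :
    ∃ i, T.Sub (l i) (T.par v) ∧ ¬T.Sub (l i) v ∧
      ∀ u, T.Sub (l i) u → ¬T.Sub (T.par v) u → T.cnt l' u < T.cnt l u := by
  have hvc : v ∈ T.ch (T.par v) := T.mem_ch.2 ⟨hv, rfl⟩
  by_cases hc : ∃ c ∈ (T.ch (T.par v)).erase v, T.cnt l' c < T.cnt l c
  · obtain ⟨c, hc, hlt⟩ := hc
    obtain ⟨hc0, hc1⟩ := T.mem_ch.1 (mem_of_mem_erase hc)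
    obtain ⟨i, hi, hi'⟩ := round_desc' T l l' hlt
    refine ⟨i, hi.trans (hc1 ▸ T.sub_par c), fun h => ne_of_mem_erase hc (hi.unique h ?_),
      hc1 ▸ hi'⟩
    have e1 := T.lvl_par c hc0
    have e2 := T.lvl_par v hv
    rw [hc1] at e1
    omega
  · push Not at hc
    have h3 := sum_le_sum hc
    have h4 := T.cnt_eq l (T.par v)
    have h5 := T.cnt_eq l' (T.par v)
    rw [← add_sum_erase _ _ hvc] at h4 h5
    obtain ⟨i, hi⟩ := card_pos.1 (show 0 < #{i | l i = T.par v} by omega)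
    have hi' : l i = T.par v := (mem_filter.1 hi).2
    exact ⟨i, hi' ▸ T.sub_refl _, hi' ▸ T.not_par_sub hv, fun u h h' => absurd (hi' ▸ h) h'⟩

/-- one swap -/
theorem round_swap {a : V → ℕ} {loc : Fin N → Fin k → V} (h : T.Cons loc a) (hb : ¬T.Bal loc) :
    ∃ loc' v, T.Cons loc' a ∧ ∑ n, ∑ i, T.td (loc n i) (loc' n i) ≤ 5 * T.w v ∧
      (∀ z, T.imb loc' z ≤ T.imb loc z) ∧ T.imb loc' v < T.imb loc v := by
  have hne : (univ.filter fun v => ∃ n n', T.cnt (loc n') v + 1 < T.cnt (loc n) v).Nonempty := by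
    unfold Tr.Bal at hb
    push Not at hb
    obtain ⟨v, n, n', hv⟩ := hb
    exact ⟨v, mem_filter.2 ⟨mem_univ _, n, n', hv⟩⟩
  obtain ⟨v, hv, hmax⟩ := exists_max_image _ T.lvl hne
  have hv' := (mem_filter.1 hv).2
  have hroot : v ≠ T.root := by
    rintro rfl
    obtain ⟨n, n', hn⟩ := hv'
    rw [T.cnt_root, T.cnt_root] at hn
    omega
  obtain ⟨n₁, n₂, h12, hstrict⟩ := roundImb_strict (c := fun n => T.cnt (loc n) v) hv'
  have hne12 : n₁ ≠ n₂ := by
    rintro rfl
    omega
  have hp : T.cnt (loc n₁) (T.par v) ≤ T.cnt (loc n₂) (T.par v) + 1 := by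
    by_contra hn
    have := hmax (T.par v) (mem_filter.2 ⟨mem_univ _, n₁, n₂, by omega⟩)
    have := T.lvl_par v hroot
    omega
  obtain ⟨i₁, a1, a2⟩ := round_desc' T (loc n₁) (loc n₂) (v := v) (by omega)
  obtain ⟨i₂, b1, b2, b3⟩ := round_desc_out T (loc n₂) (loc n₁) hroot h12 hp
  have a0 : T.Sub (loc n₁ i₁) (T.par v) := a1.trans (T.sub_par v)
  set l₁ := roundMv loc n₁ i₁ (loc n₂ i₂) with hl₁
  set l₂ := roundMv l₁ n₂ i₂ (loc n₁ i₁) with hl₂
  have e1 : l₁ n₂ = loc n₂ := roundMv_ne _ _ _ hne12.symm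
  have e2 : l₂ n₁ = l₁ n₁ := roundMv_ne _ _ _ hne12
  have c0 : ∀ n, n ≠ n₁ → n ≠ n₂ → l₂ n = loc n := fun n p1 p2 => by
    rw [hl₂, roundMv_ne _ _ _ p2, hl₁, roundMv_ne _ _ _ p1]
  have c1 : ∀ z, T.cnt (l₂ n₁) z + (if T.Sub (loc n₁ i₁) z then 1 else 0) =
      T.cnt (loc n₁) z + (if T.Sub (loc n₂ i₂) z then 1 else 0) := fun z => by
    rw [e2]; exact round_cnt_mv T loc n₁ i₁ _ z
  have c2 : ∀ z, T.cnt (l₂ n₂) z + (if T.Sub (loc n₂ i₂) z then 1 else 0) =
      T.cnt (loc n₂) z + (if T.Sub (loc n₁ i₁) z then 1 else 0) := fun z => by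
    have := round_cnt_mv T l₁ n₂ i₂ (loc n₁ i₁) z
    rwa [e1] at this
  refine ⟨l₂, v, fun z => ?_, ?_, fun z => ?_, ?_⟩
  · have h3 := round_sum_two (fun n => T.cnt (l₂ n) z) (fun n => T.cnt (loc n) z) hne12
      (fun n p1 p2 => by simp only [c0 n p1 p2])
    have := c1 z
    have := c2 z
    simp only [h z] at h3
    omega
  · refine (round_cost_tri T loc l₁ l₂).trans ?_
    rw [hl₂, round_cost_mv, hl₁, round_cost_mv, ← hl₁, e1]
    have t1 := T.td_le_of_sub a0 b1
    have t2 := T.td_le_of_sub b1 a0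
    rw [T.w_par hroot] at t1 t2
    have := T.w_pos v
    linarith
  · rw [round_imb_eq, round_imb_eq]
    have d1 := c1 z
    have d2 := c2 z
    by_cases p1 : T.Sub (loc n₁ i₁) z <;> by_cases p2 : T.Sub (loc n₂ i₂) z <;>
      simp only [p1, p2, if_true, if_false] at d1 d2
    · apply le_of_eq
      congr 1
      funext n
      by_cases q1 : n = n₁
      · rw [q1]; omega
      by_cases q2 : n = n₂
      · rw [q2]; omega
      rw [c0 n q1 q2]
    · exact roundImb_transfer hne12 (fun n q1 q2 => by simp only [c0 n q1 q2]) (by omega)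
        (by omega) (a2 z p1 fun q => p2 (b1.trans q))
    · exact roundImb_transfer hne12.symm (fun n q1 q2 => by simp only [c0 n q2 q1]) (by omega)
        (by omega) (b3 z p2 fun q => p1 (a0.trans q))
    · apply le_of_eq
      congr 1
      funext n
      by_cases q1 : n = n₁
      · rw [q1]; omega
      by_cases q2 : n = n₂
      · rw [q2]; omega
      rw [c0 n q1 q2]
  · have d1 := c1 v
    have d2 := c2 v
    simp only [a1, b2, if_true, if_false] at d1 d2
    exact hstrict (fun n => T.cnt (l₂ n) v) (fun n q1 q2 => by simp only [c0 n q1 q2])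
      (by omega) (by omega)

/-- Up-moves: while some `v` has `a v > b v`, a lowest such `v` has a token parked at it (its
children have `a = b`); move that token to the parent. Each move costs `w v` and raises `imb v` by
at most one. -/
theorem round_up {a b : V → ℕ} (hba : ∀ v, b v ≤ a v) (hb : T.SA fun v => (b v : ℝ))
    (hr : b T.root = a T.root) {loc : Fin N → Fin k → V} (h : T.Cons loc a) :
    ∃ loc', T.Cons loc' b ∧
      ∑ n, ∑ i, T.td (loc n i) (loc' n i) ≤ ∑ v, T.w v * ((a v : ℝ) - b v) ∧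
      ∀ v, T.imb loc' v ≤ T.imb loc v + (a v - b v) := by
  induction hs : ∑ v, (a v - b v) using Nat.strong_induction_on generalizing a loc with
  | _ s ih =>
    by_cases hne : (univ.filter fun v => b v < a v).Nonempty
    swap
    · have e : a = b := by
        funext v
        by_contra hn
        exact hne ⟨v, mem_filter.2 ⟨mem_univ _, lt_of_le_of_ne (hba v) (Ne.symm hn)⟩⟩
      subst e
      exact ⟨loc, h, by simp [T.td_self], by simp⟩
    obtain ⟨v, hv, hmin⟩ := exists_min_image _ T.lvl hne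
    have hv' := (mem_filter.1 hv).2
    have hroot : v ≠ T.root := by
      rintro rfl
      omega
    have hch : ∀ c ∈ T.ch v, a c = b c := by
      intro c hc
      obtain ⟨hc0, hc1⟩ := T.mem_ch.1 hc
      by_contra hn
      have := hmin c (mem_filter.2 ⟨mem_univ _, lt_of_le_of_ne (hba c) (Ne.symm hn)⟩)
      have e := T.lvl_par c hc0
      rw [hc1] at e
      omega
    have hlt : ∑ c ∈ T.ch v, a c < a v := by
      have e : ∑ c ∈ T.ch v, a c = ∑ c ∈ T.ch v, b c := sum_congr rfl hch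
      have h1 : ∑ c ∈ T.ch v, (b c : ℝ) ≤ b v := hb v
      have : ∑ c ∈ T.ch v, b c ≤ b v := by exact_mod_cast h1
      omega
    obtain ⟨n₀, i₀, h0⟩ := round_parked T h hlt
    obtain ⟨a', c1, c2, c3, c4, c5⟩ := round_move T h n₀ i₀ (T.par v) v
      (fun z hz => by rw [h0]; exact round_sub_par_iff T hz)
    rw [h0, if_pos (T.sub_refl v), if_neg (T.not_par_sub hroot)] at c3
    have hba' : ∀ z, b z ≤ a' z := fun z => by
      by_cases hz : z = v
      · rw [hz]; omega
      · rw [c2 z hz]; exact hba z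
    have hlt' : ∑ z, (a' z - b z) < s := by
      rw [← hs]
      refine sum_lt_sum (fun z _ => ?_) ⟨v, mem_univ _, by omega⟩
      by_cases hz : z = v
      · rw [hz]; omega
      · rw [c2 z hz]
    obtain ⟨loc', d1, d2, d3⟩ := ih _ hlt' hba' (by rw [c2 _ hroot.symm]; exact hr) c1 rfl
    refine ⟨loc', d1, ?_, fun z => ?_⟩
    · refine (round_cost_tri T loc (roundMv loc n₀ i₀ (T.par v)) loc').trans ?_
      rw [round_cost_mv, h0, T.td_par hroot]
      have e := round_sum_one' (fun z => T.w z * ((a' z : ℝ) - b z))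
        (fun z => T.w z * ((a z : ℝ) - b z)) v (fun z hz => by simp only [c2 z hz])
      have c3' : (a v : ℝ) = a' v + 1 := by exact_mod_cast (by omega : a v = a' v + 1)
      simp only [c3'] at e
      linarith
    · have := d3 z
      by_cases hz : z = v
      · subst hz; omega
      · rw [c4 z hz, c2 z hz] at this
        exact this

/-- Down-moves: a highest `v` with `b v < a v` has a token parked at its parent. -/
theorem round_down {a b : V → ℕ} (hba : ∀ v, b v ≤ a v) (ha : T.SA fun v => (a v : ℝ))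
    (hr : b T.root = a T.root) {loc : Fin N → Fin k → V} (h : T.Cons loc b) :
    ∃ loc', T.Cons loc' a ∧
      ∑ n, ∑ i, T.td (loc n i) (loc' n i) ≤ ∑ v, T.w v * ((a v : ℝ) - b v) ∧
      ∀ v, T.imb loc' v ≤ T.imb loc v + (a v - b v) := by
  induction hs : ∑ v, (a v - b v) using Nat.strong_induction_on generalizing b loc with
  | _ s ih =>
    by_cases hne : (univ.filter fun v => b v < a v).Nonempty
    swap
    · have e : b = a := by
        funext v
        by_contra hn
        exact hne ⟨v, mem_filter.2 ⟨mem_univ _, lt_of_le_of_ne (hba v) hn⟩⟩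
      subst e
      exact ⟨loc, h, by simp [T.td_self], by simp⟩
    obtain ⟨v, hv, hmax⟩ := exists_max_image _ T.lvl hne
    have hv' := (mem_filter.1 hv).2
    have hroot : v ≠ T.root := by
      rintro rfl
      omega
    have hp : b (T.par v) = a (T.par v) := by
      by_contra hn
      have := hmax _ (mem_filter.2 ⟨mem_univ _, lt_of_le_of_ne (hba _) hn⟩)
      have e := T.lvl_par v hroot
      omega
    have hlt : ∑ c ∈ T.ch (T.par v), b c < b (T.par v) := by
      have h0 : ∑ c ∈ T.ch (T.par v), (a c : ℝ) ≤ a (T.par v) := ha (T.par v)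
      have h1 : ∑ c ∈ T.ch (T.par v), a c ≤ a (T.par v) := by exact_mod_cast h0
      have h2 : ∑ c ∈ T.ch (T.par v), b c < ∑ c ∈ T.ch (T.par v), a c :=
        sum_lt_sum (fun c _ => hba c) ⟨v, T.mem_ch.2 ⟨hroot, rfl⟩, hv'⟩
      omega
    obtain ⟨n₀, i₀, h0⟩ := round_parked T h hlt
    obtain ⟨b', c1, c2, c3, c4, c5⟩ := round_move T h n₀ i₀ v v
      (fun z hz => by rw [h0]; exact (round_sub_par_iff T hz).symm)
    rw [h0, if_pos (T.sub_refl v), if_neg (T.not_par_sub hroot)] at c3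
    have hba' : ∀ z, b' z ≤ a z := fun z => by
      by_cases hz : z = v
      · rw [hz]; omega
      · rw [c2 z hz]; exact hba z
    have hlt' : ∑ z, (a z - b' z) < s := by
      rw [← hs]
      refine sum_lt_sum (fun z _ => ?_) ⟨v, mem_univ _, by omega⟩
      by_cases hz : z = v
      · rw [hz]; omega
      · rw [c2 z hz]
    obtain ⟨loc', d1, d2, d3⟩ := ih _ hlt' hba' (by rw [c2 _ hroot.symm]; exact hr) c1 rfl
    refine ⟨loc', d1, ?_, fun z => ?_⟩
    · refine (round_cost_tri T loc (roundMv loc n₀ i₀ v) loc').trans ?_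
      rw [round_cost_mv, h0, T.td_comm, T.td_par hroot]
      have e := round_sum_one' (fun z => T.w z * ((a z : ℝ) - b' z))
        (fun z => T.w z * ((a z : ℝ) - b z)) v (fun z hz => by simp only [c2 z hz])
      have c3' : (b' v : ℝ) = b v + 1 := by exact_mod_cast (by omega : b' v = b v + 1)
      simp only [c3'] at e
      linarith
    · have := d3 z
      by_cases hz : z = v
      · subst hz; omega
      · rw [c4 z hz, c2 z hz] at this
        exact this

/-- Swaps: take a highest unbalanced `v` (not the root), copies `n₁, n₂` such that moving one unit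
from `n₁` to `n₂` lowers `imb v` (`cnt n₁ ≥ cnt n₂ + 2`); the parent is balanced, so outside the
subtree of `v` but below the parent `n₂` has more tokens than `n₁`. Descending always into a
child where the giver has strictly more tokens gives two tokens whose exchange costs at most
`2 * (16 w v) / 7 ≤ 5 w v` and raises no `imb` (transfer from a larger to a smaller entry). -/
theorem round_bal {a : V → ℕ} {loc : Fin N → Fin k → V} (h : T.Cons loc a) :
    ∃ loc', T.Cons loc' a ∧ T.Bal loc' ∧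
      ∑ n, ∑ i, T.td (loc n i) (loc' n i) ≤ 5 * ∑ v, T.w v * T.imb loc v := by
  induction hs : ∑ v, T.imb loc v using Nat.strong_induction_on generalizing loc with
  | _ s ih =>
    by_cases hb : T.Bal loc
    · refine ⟨loc, h, hb, ?_⟩
      simp only [T.td_self, sum_const_zero]
      exact mul_nonneg (by norm_num)
        (sum_nonneg fun v _ => mul_nonneg (T.w_pos v).le (Nat.cast_nonneg _))
    obtain ⟨l₁, v, c1, c2, c3, c4⟩ := round_swap T h hb
    have hlt : ∑ z, T.imb l₁ z < s := hs ▸ sum_lt_sum (fun z _ => c3 z) ⟨v, mem_univ _, c4⟩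
    obtain ⟨loc', d1, d2, d3⟩ := ih _ hlt c1 rfl
    refine ⟨loc', d1, d2, (round_cost_tri T loc l₁ loc').trans ?_⟩
    have e : T.w v + ∑ z, T.w z * T.imb l₁ z ≤ ∑ z, T.w z * T.imb loc z := by
      rw [← add_sum_erase _ _ (mem_univ v), ← add_sum_erase _ (fun z => T.w z * T.imb loc z)
        (mem_univ v), ← add_assoc]
      refine add_le_add ?_ (sum_le_sum fun z _ =>
        mul_le_mul_of_nonneg_left (by exact_mod_cast c3 z) (T.w_pos z).le)
      have : (T.imb l₁ v : ℝ) + 1 ≤ T.imb loc v := by exact_mod_cast c4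
      have := mul_le_mul_of_nonneg_left this (T.w_pos v).le
      linarith
    linarith

theorem imb_eq_zero_of_bal {loc : Fin N → Fin k → V} (h : T.Bal loc) (v : V) :
    T.imb loc v = 0 := by
  rw [round_imb_eq]
  rcases Nat.eq_zero_or_pos N with rfl | hN
  · exact Nat.le_zero.1 ((roundImb_le _ 0).trans (by simp))
  obtain ⟨n₀, -, hn₀⟩ := exists_min_image univ (fun n => T.cnt (loc n) v) ⟨⟨0, hN⟩, mem_univ _⟩
  refine Nat.le_zero.1 ((roundImb_le _ (T.cnt (loc n₀) v)).trans (le_of_eq ?_))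
  refine sum_eq_zero fun n _ => ?_
  have h1 := hn₀ n (mem_univ _)
  have h2 := h v n n₀
  omega

theorem round_step {a a' : V → ℕ} (ha : T.SA fun v => (a v : ℝ)) (ha' : T.SA fun v => (a' v : ℝ))
    (hr : a T.root = a' T.root) {loc : Fin N → Fin k → V} (h : T.Cons loc a) (hb : T.Bal loc) :
    ∃ lb l' : Fin N → Fin k → V, T.Cons lb (fun v => min (a v) (a' v)) ∧ T.Cons l' a' ∧ T.Bal l' ∧
      ∑ n, ∑ i, T.td (loc n i) (lb n i) ≤ ∑ v, T.w v * |(a v : ℝ) - a' v| ∧
      ∑ n, ∑ i, T.td (lb n i) (l' n i) ≤ 6 * ∑ v, T.w v * |(a v : ℝ) - a' v| := by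
  have hsa : T.SA fun v => ((min (a v) (a' v) : ℕ) : ℝ) := by
    intro v
    simp only [Nat.cast_min]
    exact le_min ((sum_le_sum fun c _ => min_le_left _ _).trans (ha v))
      ((sum_le_sum fun c _ => min_le_right _ _).trans (ha' v))
  obtain ⟨lb, c1, c2, c3⟩ := round_up T (a := a) (b := fun v => min (a v) (a' v))
    (fun v => min_le_left _ _) hsa (by simp [hr]) h
  obtain ⟨l₁, d1, d2, d3⟩ := round_down T (a := a') (b := fun v => min (a v) (a' v))
    (fun v => min_le_right _ _) ha' (by simp [hr]) c1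
  obtain ⟨l', e1, e2, e3⟩ := round_bal T d1
  refine ⟨lb, l', c1, e1, e2, c2.trans (sum_le_sum fun v _ => ?_), ?_⟩
  · refine mul_le_mul_of_nonneg_left ?_ (T.w_pos v).le
    rcases le_total (a v) (a' v) with p | p
    · simp [min_eq_left p]
    · rw [min_eq_right p]; exact le_abs_self _
  · have f1 : ∑ v, T.w v * ((a' v : ℝ) - (min (a v) (a' v) : ℕ)) ≤
        ∑ v, T.w v * |(a v : ℝ) - a' v| := by
      refine sum_le_sum fun v _ => mul_le_mul_of_nonneg_left ?_ (T.w_pos v).le
      rcases le_total (a v) (a' v) with p | p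
      · rw [min_eq_left p, abs_sub_comm]; exact le_abs_self _
      · simp [min_eq_right p]
    have f2 : ∑ v, T.w v * (T.imb l₁ v : ℝ) ≤ ∑ v, T.w v * |(a v : ℝ) - a' v| := by
      refine sum_le_sum fun v _ => mul_le_mul_of_nonneg_left ?_ (T.w_pos v).le
      have g1 := c3 v
      have g2 := d3 v
      rw [imb_eq_zero_of_bal T hb] at g1
      rcases le_total (a v) (a' v) with p | p
      · rw [min_eq_left p] at g1 g2
        have : T.imb l₁ v + a v ≤ a' v := by omega
        have : (T.imb l₁ v : ℝ) + a v ≤ a' v := by exact_mod_cast this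
        rw [abs_sub_comm]
        linarith [le_abs_self ((a' v : ℝ) - a v)]
      · rw [min_eq_right p] at g1 g2
        have : T.imb l₁ v + a' v ≤ a v := by omega
        have : (T.imb l₁ v : ℝ) + a' v ≤ a v := by exact_mod_cast this
        linarith [le_abs_self ((a v : ℝ) - a' v)]
    linarith [round_cost_tri T lb l₁ l']

theorem exists_token_of_bal {a : V → ℕ} {loc : Fin N → Fin k → V} (h : T.Cons loc a)
    (hb : T.Bal loc) {v : V} (hv : T.lvl v = 0) (hN : N ≤ a v) (n : Fin N) : ∃ i, loc n i = v := by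
  have hpos : 0 < T.cnt (loc n) v := by
    by_contra h0
    have h1 : ∑ m, T.cnt (loc m) v < ∑ _m : Fin N, 1 := by
      refine sum_lt_sum (fun m _ => ?_) ⟨n, mem_univ _, by omega⟩
      have := hb v m n
      omega
    rw [h v] at h1
    simp only [sum_const, card_univ, Fintype.card_fin, smul_eq_mul, mul_one] at h1
    omega
  obtain ⟨i, hi⟩ := card_pos.1 hpos
  have hi' : T.Sub (loc n i) v := (mem_filter.1 hi).2
  have := hi'.lvl_le
  exact ⟨i, hi'.eq_of_lvl_eq (by omega)⟩

theorem Tr.Cons.pos {T : Tr V} {a : V → ℕ} {loc : Fin N → Fin k → V} (h : T.Cons loc a)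
    {n : Fin N} {i : Fin k} {v : V} (hv : T.Sub (loc n i) v) : 0 < a v := by
  rw [← h v]
  refine lt_of_lt_of_le ?_ (single_le_sum (f := fun n => T.cnt (loc n) v)
    (fun _ _ => Nat.zero_le _) (mem_univ n))
  exact card_pos.2 ⟨i, mem_filter.2 ⟨mem_univ _, hv⟩⟩

theorem Tr.Cons.sum_eq {T : Tr V} {a : V → ℕ} {loc : Fin N → Fin k → V} (h : T.Cons loc a)
    (f : V → ℝ) : ∑ n, ∑ i, f (loc n i) = ∑ v, T.park (fun u => (a u : ℝ)) v * f v := by
  have h1 : ∀ v, T.park (fun u => (a u : ℝ)) v = ∑ n, (#{i | loc n i = v} : ℝ) := by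
    intro v
    have e : a v = ∑ n, #{i | loc n i = v} + ∑ c ∈ T.ch v, a c := by
      rw [← h v, sum_congr rfl fun n _ => T.cnt_eq (loc n) v, sum_add_distrib, sum_comm,
        sum_congr rfl fun c _ => h c]
    unfold Tr.park
    simp only
    rw [e]
    push_cast
    ring
  simp only [h1, sum_mul]
  rw [sum_comm (s := (univ : Finset V))]
  refine sum_congr rfl fun n _ => ?_
  rw [← sum_fiberwise univ (loc n)]
  refine sum_congr rfl fun v _ => ?_
  rw [sum_congr rfl fun i hi => congrArg f (mem_filter.1 hi).2, sum_const, nsmul_eq_mul]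

end

end Crest.Agent.R314
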