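import Crest.Agent.R314.Det
import Crest.Agent.R314.Prob
import Crest.Agent.R314.Round

/-! Row 314: from the fractional tree algorithm to a deterministic algorithm on the space. -/

set_option autoImplicit false

open Finset Crest.LogicCS.KServer

namespace Crest.Agent.R314

noncomputable section
open Classical

/-- the offline servers, seen in the tree at time `t` -/
def Virt.loc {V : Type} [Fintype V] {T : Tr V} {X Ω : Type} [MetricSpace X] {x : ℕ → Ω → X}
    {Tm : ℕ} (Vt : Virt T x Tm) {k : ℕ} (s : Fin k → X) (j : ℕ → Ω → Fin k) (t : ℕ) (ω : Ω)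
    (i : Fin k) : V :=
  Vt.node t ω (cfg s (fun t => x t ω) (fun t => j t ω) t i)

theorem virt_adapted_post {k : ℕ} {X : Type} {V : Type} [Fintype V] (T : Tr V) {Ω : Type}
    [Fintype Ω] (P : Ω → ℝ) (x : ℕ → Ω → X) (t : ℕ) (loc : Ω → Fin k → V) :
    Adapted x t (post T P x t loc) := by
  intro ω ω' h
  funext v i
  exact adapted_cE t _ ω ω' h

theorem virt_valid {k : ℕ} {X : Type} {V : Type} [Fintype V] {T : Tr V} {Λ : ℝ}
    (H : HSTAlg T k Λ) {Ω : Type} [Fintype Ω] {P : Ω → ℝ} (hP : ∀ ω, 0 < P ω)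
    (x : ℕ → Ω → X) (loc : ℕ → Ω → Fin k → V) (S : ℕ → Ω → H.S) (h0 : ∀ ω, S 0 ω = H.init)
    (hS : ∀ t ω, S (t + 1) ω = H.step (S t ω) (post T P x (t + 1) (loc (t + 1)) ω)) (t : ℕ)
    (ω : Ω) : H.Valid (S t ω) := by
  induction t with
  | zero => rw [h0]; exact H.valid_init
  | succ t ih => rw [hS]; exact H.valid_step _ _ ih (good_post T hP _ _ _)

theorem virt_adapted {k : ℕ} {X : Type} {V : Type} [Fintype V] {T : Tr V} {Λ : ℝ}
    (H : HSTAlg T k Λ) {Ω : Type} [Fintype Ω] {P : Ω → ℝ}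
    (x : ℕ → Ω → X) (loc : ℕ → Ω → Fin k → V) (S : ℕ → Ω → H.S) (h0 : ∀ ω, S 0 ω = H.init)
    (hS : ∀ t ω, S (t + 1) ω = H.step (S t ω) (post T P x (t + 1) (loc (t + 1)) ω)) (t : ℕ) :
    Adapted x t (S t) := by
  induction t with
  | zero => intro ω ω' _; rw [h0, h0]
  | succ t ih =>
    intro ω ω' h
    rw [hS, hS, ih ω ω' (h.mono (Nat.le_succ t)), virt_adapted_post T P x _ _ ω ω' h]

theorem virt_sum_univ_sub {V : Type} [Fintype V] (T : Tr V) (f : V → ℝ) :
    ∑ u with T.Sub u T.root, f u = ∑ u, f u := by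
  rw [filter_true_of_mem fun u _ => T.sub_root u]

/-- The fractional movement. Run `S 0 = init`, `S (t+1) = step (S t) (p (t+1))` with
`p t = post T P x t (Vt.loc s j t)`. By `amort`, `concave`, the tower property `sum_mul_cE`
(`G (S t) (p t)` is adapted to `t`, hence to `t+1`), `G_le`, `∑ i, |[i < a] - [i < b]| = |a - b|`,
`Tr.sum_w_cnt_le`, `pot_init`, `pot_ge` and `Tr.SA.sum_w_le`. -/
theorem frac_move {k : ℕ} {X : Type} [MetricSpace X] {V : Type} [Fintype V] {T : Tr V} {Λ : ℝ}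
    (hΛ : 1 ≤ Λ) (H : HSTAlg T k Λ) {Ω : Type} [Fintype Ω] {P : Ω → ℝ} (hP : ∀ ω, 0 < P ω)
    (hP1 : ∑ ω, P ω = 1) (x : ℕ → Ω → X) (loc : ℕ → Ω → Fin k → V) (Tm : ℕ)
    (S : ℕ → Ω → H.S) (h0 : ∀ ω, S 0 ω = H.init)
    (hS : ∀ t ω, S (t + 1) ω = H.step (S t ω) (post T P x (t + 1) (loc (t + 1)) ω)) :
    ∑ t ∈ range Tm, ∑ ω, P ω * ∑ v, T.w v * |H.ν (S (t + 1) ω) v - H.ν (S t ω) v| ≤
      Λ * (∑ t ∈ range Tm, ∑ ω, P ω * ∑ i, T.td (loc t ω i) (loc (t + 1) ω i) +
        2 * k * T.w T.root) := by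
  have hV := virt_valid H hP x loc S h0 hS
  have hA := virt_adapted H x loc S h0 hS
  have hG : ∀ t ω, T.Good (post T P x t (loc t) ω) := fun t ω => good_post T hP t _ ω
  set Φ : ℕ → ℝ := fun t => ∑ ω, P ω * H.Pot (S t ω) (post T P x t (loc t) ω) with hΦ
  have hstep : ∀ t, ∑ ω, P ω * ∑ v, T.w v * |H.ν (S (t + 1) ω) v - H.ν (S t ω) v| + Φ (t + 1) ≤
      Φ t + Λ * ∑ ω, P ω * ∑ i, T.td (loc t ω i) (loc (t + 1) ω i) := by
    intro t
    set G : Ω → V → Fin k → ℝ := fun ω => H.G (S t ω) (post T P x t (loc t) ω) with hGdef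
    have hGad : ∀ v i, Adapted x t (fun ω => G ω v i) := by
      intro v i ω ω' h
      simp only [hGdef]
      rw [hA t ω ω' h, virt_adapted_post T P x _ _ ω ω' h]
    have h1 : ∑ ω, P ω * ∑ v, ∑ i, G ω v i *
          (post T P x (t + 1) (loc (t + 1)) ω v i - post T P x t (loc t) ω v i) =
        ∑ ω, P ω * ∑ v, ∑ i, G ω v i *
          ((if (i : ℕ) < T.cnt (loc (t + 1) ω) v then 1 else 0) -
            (if (i : ℕ) < T.cnt (loc t ω) v then 1 else 0)) := by
      simp only [mul_sum]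
      rw [sum_comm, sum_comm (s := (univ : Finset Ω))]
      refine sum_congr rfl fun v _ => ?_
      rw [sum_comm, sum_comm (s := (univ : Finset Ω))]
      refine sum_congr rfl fun i _ => ?_
      simp only [mul_sub, sum_sub_distrib]
      rw [← sum_mul_cE hP ((hGad v i).mono (Nat.le_succ t))
        (fun ω => if (i : ℕ) < T.cnt (loc (t + 1) ω) v then 1 else 0), ← sum_mul_cE hP (hGad v i)
        (fun ω => if (i : ℕ) < T.cnt (loc t ω) v then 1 else 0)]
      rfl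
    have h2 : ∀ ω, ∑ v, ∑ i, G ω v i *
          ((if (i : ℕ) < T.cnt (loc (t + 1) ω) v then 1 else 0) -
            (if (i : ℕ) < T.cnt (loc t ω) v then 1 else 0)) ≤
        Λ * ∑ i, T.td (loc t ω i) (loc (t + 1) ω i) := by
      intro ω
      refine le_trans ?_ (mul_le_mul_of_nonneg_left (T.sum_w_cnt_le _ _) (by linarith))
      rw [mul_sum]
      refine sum_le_sum fun v _ => ?_
      rw [abs_sub_comm, ← sum_abs_ind (T.cnt_le _ _) (T.cnt_le _ _), ← mul_assoc, mul_sum]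
      refine sum_le_sum fun i _ => (le_abs_self _).trans ?_
      rw [abs_mul]
      exact mul_le_mul_of_nonneg_right (H.G_le _ _ (hV t ω) (hG t ω) v i) (abs_nonneg _)
    have h3 : ∀ ω, ∑ v, T.w v * |H.ν (S (t + 1) ω) v - H.ν (S t ω) v| +
        H.Pot (S (t + 1) ω) (post T P x (t + 1) (loc (t + 1)) ω) ≤
        H.Pot (S t ω) (post T P x t (loc t) ω) + ∑ v, ∑ i, G ω v i *
          (post T P x (t + 1) (loc (t + 1)) ω v i - post T P x t (loc t) ω v i) := by
      intro ω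
      rw [hS]
      exact (H.amort _ _ (hV t ω) (hG _ ω)).trans (H.concave _ _ _ (hV t ω) (hG t ω) (hG _ ω))
    have h4 := sum_le_sum fun ω (_ : ω ∈ (univ : Finset Ω)) =>
      mul_le_mul_of_nonneg_left (h3 ω) (hP ω).le
    have h5 := sum_le_sum fun ω (_ : ω ∈ (univ : Finset Ω)) =>
      mul_le_mul_of_nonneg_left (h2 ω) (hP ω).le
    simp only [mul_add, sum_add_distrib] at h4
    rw [h1] at h4
    have h6 : ∑ ω, P ω * (Λ * ∑ i, T.td (loc t ω i) (loc (t + 1) ω i)) =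
        Λ * ∑ ω, P ω * ∑ i, T.td (loc t ω i) (loc (t + 1) ω i) := by
      rw [mul_sum]
      exact sum_congr rfl fun ω _ => by ring
    simp only [hΦ]
    linarith
  have htel : ∀ n, ∑ t ∈ range n, ∑ ω, P ω * ∑ v, T.w v * |H.ν (S (t + 1) ω) v - H.ν (S t ω) v| +
      Φ n ≤ Λ * ∑ t ∈ range n, ∑ ω, P ω * ∑ i, T.td (loc t ω i) (loc (t + 1) ω i) := by
    intro n
    induction n with
    | zero =>
      simp only [range_zero, sum_empty, zero_add, mul_zero, hΦ]
      refine sum_nonpos fun ω _ => mul_nonpos_of_nonneg_of_nonpos (hP ω).le ?_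
      rw [h0]
      exact H.pot_init _ (hG 0 ω)
    | succ n ih =>
      rw [sum_range_succ, sum_range_succ, mul_add]
      linarith [hstep n]
  have hw := T.w_pos T.root
  cases Tm with
  | zero =>
    simp only [range_zero, sum_empty, zero_add]
    positivity
  | succ n =>
    have h1 : -(Λ * (2 * k * T.w T.root)) ≤ Φ (n + 1) := by
      have h2 : ∀ ω, -(Λ * (2 * k * T.w T.root)) ≤
          H.Pot (S (n + 1) ω) (post T P x (n + 1) (loc (n + 1)) ω) := by
        intro ω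
        rw [hS]
        refine le_trans (neg_le_neg (mul_le_mul_of_nonneg_left ?_ (by linarith)))
          (H.pot_ge _ _ (hV n ω) (hG _ ω))
        have h3 := (hG (n + 1) ω).sa2.sum_w_le
          (fun v => sum_nonneg fun i _ => sq_nonneg _) T.root
        rw [virt_sum_univ_sub, (hG (n + 1) ω).root] at h3
        linarith
      calc -(Λ * (2 * k * T.w T.root)) = ∑ ω, P ω * -(Λ * (2 * k * T.w T.root)) := by
            rw [← sum_mul, hP1, one_mul]
        _ ≤ _ := sum_le_sum fun ω _ => mul_le_mul_of_nonneg_left (h2 ω) (hP ω).le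
    have := htel (n + 1)
    rw [mul_add]
    linarith

theorem virt_sa_min {V : Type} [Fintype V] {T : Tr V} {a a' : V → ℕ}
    (ha : T.SA fun v => (a v : ℝ)) (ha' : T.SA fun v => (a' v : ℝ)) :
    T.SA fun v => ((min (a v) (a' v) : ℕ) : ℝ) := by
  intro v
  simp only [Nat.cast_min]
  exact le_min ((sum_le_sum fun c _ => min_le_left _ _).trans (ha v))
    ((sum_le_sum fun c _ => min_le_right _ _).trans (ha' v))

/-- one step of the rounded algorithm -/
theorem virt_step {V : Type} [Fintype V] {T : Tr V} {X : Type} [MetricSpace X] {N k : ℕ}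
    {pos pos' : V → X} {κ κ' inc : V → ℝ} {a a' : V → ℕ} {l lb l' : Fin N → Fin k → V}
    (ha : T.SA fun v => (a v : ℝ)) (ha' : T.SA fun v => (a' v : ℝ))
    (hl : T.Cons l a) (hlb : T.Cons lb fun v => min (a v) (a' v)) (hl' : T.Cons l' a')
    (hc1 : ∑ n, ∑ i, T.td (l n i) (lb n i) ≤ ∑ v, T.w v * |(a v : ℝ) - a' v|)
    (hc2 : ∑ n, ∑ i, T.td (lb n i) (l' n i) ≤ 6 * ∑ v, T.w v * |(a v : ℝ) - a' v|)
    (h1 : ∀ c, c ≠ T.root → 0 < a c → dist (pos c) (pos (T.par c)) ≤ 187 * T.w c)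
    (h2 : ∀ c, c ≠ T.root → 0 < a' c → dist (pos' c) (pos' (T.par c)) ≤ 187 * T.w c)
    (h3 : ∀ v, 0 < a v → 0 < a' v → dist (pos v) (pos' v) ≤ T.w v * (κ v + inc v - κ' v))
    (hκ0 : ∀ v, 0 ≤ κ v) (hκ1 : ∀ v, κ v ≤ 1) (hκ0' : ∀ v, 0 ≤ κ' v) (hκ1' : ∀ v, κ' v ≤ 1) :
    ∑ n, ∑ i, dist (pos (l n i)) (pos' (l' n i)) +
        ∑ v, T.park (fun u => (a' u : ℝ)) v * (T.w v * κ' v) ≤
      1326 * ∑ v, T.w v * |(a v : ℝ) - a' v| +
        ∑ v, T.park (fun u => (a u : ℝ)) v * (T.w v * κ v) +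
        ∑ v, T.park (fun u => ((min (a u) (a' u) : ℕ) : ℝ)) v * (T.w v * inc v) := by
  set D := ∑ v, T.w v * |(a v : ℝ) - a' v| with hD
  set b : V → ℝ := fun u => ((min (a u) (a' u) : ℕ) : ℝ) with hb
  have hba : ∀ u, b u ≤ a u := fun u => Nat.cast_le.2 (min_le_left _ _)
  have hba' : ∀ u, b u ≤ a' u := fun u => Nat.cast_le.2 (min_le_right _ _)
  have hab : ∀ u, (a u : ℝ) - b u ≤ |(a u : ℝ) - a' u| := by
    intro u
    simp only [hb, Nat.cast_min]
    rcases le_total (a u : ℝ) (a' u) with h | h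
    · rw [min_eq_left h, sub_self]; exact abs_nonneg _
    · rw [min_eq_right h]; exact le_abs_self _
  have hab' : ∀ u, (a' u : ℝ) - b u ≤ |(a u : ℝ) - a' u| := by
    intro u
    simp only [hb, Nat.cast_min]
    rcases le_total (a u : ℝ) (a' u) with h | h
    · rw [min_eq_left h, abs_sub_comm]; exact le_abs_self _
    · rw [min_eq_right h, sub_self]; exact abs_nonneg _
  have hbsa : T.SA b := virt_sa_min ha ha'
  have e1 : ∑ n, ∑ i, dist (pos (l n i)) (pos (lb n i)) ≤ 187 * D := by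
    refine le_trans ?_ (mul_le_mul_of_nonneg_left hc1 (by norm_num))
    simp only [mul_sum]
    refine sum_le_sum fun n _ => sum_le_sum fun i _ => T.dist_le_td pos (by norm_num)
      (fun c hc hr => h1 c hr (hl.pos hc)) fun c hc hr => h1 c hr ?_
    exact lt_of_lt_of_le (hlb.pos hc) (min_le_left _ _)
  have e3 : ∑ n, ∑ i, dist (pos' (lb n i)) (pos' (l' n i)) ≤ 187 * (6 * D) := by
    refine le_trans ?_ (mul_le_mul_of_nonneg_left hc2 (by norm_num))
    simp only [mul_sum]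
    refine sum_le_sum fun n _ => sum_le_sum fun i _ => T.dist_le_td pos' (by norm_num)
      (fun c hc hr => h2 c hr ?_) fun c hc hr => h2 c hr (hl'.pos hc)
    exact lt_of_lt_of_le (hlb.pos hc) (min_le_right _ _)
  have e2 : ∑ n, ∑ i, dist (pos (lb n i)) (pos' (lb n i)) ≤
      ∑ v, T.park b v * (T.w v * (κ v + inc v - κ' v)) := by
    rw [← hlb.sum_eq]
    refine sum_le_sum fun n _ => sum_le_sum fun i _ => ?_
    have h := hlb.pos (n := n) (i := i) (T.sub_refl _)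
    exact h3 _ (lt_of_lt_of_le h (min_le_left _ _)) (lt_of_lt_of_le h (min_le_right _ _))
  have e4 : ∑ v, T.park b v * (T.w v * κ v) ≤
      ∑ v, T.park (fun u => (a u : ℝ)) v * (T.w v * κ v) + 16 * D := by
    have h4 : ∑ v, ∑ c ∈ T.ch v, 16 * (T.w c * |(a c : ℝ) - a' c|) ≤ 16 * D := by
      rw [T.sum_ch, hD, mul_sum]
      refine sum_le_sum_of_subset_of_nonneg (filter_subset _ _) fun c _ _ => ?_
      have := T.w_pos c
      positivity
    refine le_trans ?_ (add_le_add le_rfl h4)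
    rw [← sum_add_distrib]
    refine sum_le_sum fun v _ => ?_
    have h5 : ∑ c ∈ T.ch v, 16 * (T.w c * |(a c : ℝ) - a' c|) =
        T.w v * ∑ c ∈ T.ch v, |(a c : ℝ) - a' c| := by
      rw [mul_sum]
      refine sum_congr rfl fun c hc => ?_
      obtain ⟨hc1, rfl⟩ := T.mem_ch.1 hc
      rw [T.w_par hc1]
      ring
    have h6 : T.park b v - T.park (fun u => (a u : ℝ)) v ≤ ∑ c ∈ T.ch v, |(a c : ℝ) - a' c| := by
      have h7 := sum_le_sum fun c (_ : c ∈ T.ch v) => hab c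
      rw [sum_sub_distrib] at h7
      simp only [Tr.park]
      linarith [hba v]
    have h8 : 0 ≤ ∑ c ∈ T.ch v, |(a c : ℝ) - a' c| := sum_nonneg fun c _ => abs_nonneg _
    have hw := (T.w_pos v).le
    rw [h5]
    have h9 := mul_le_mul_of_nonneg_right h6 (mul_nonneg hw (hκ0 v))
    have h10 := mul_le_mul_of_nonneg_left (mul_le_mul_of_nonneg_left (hκ1 v) hw) h8
    linarith
  have e5 : ∑ v, T.park (fun u => (a' u : ℝ)) v * (T.w v * κ' v) ≤
      ∑ v, T.park b v * (T.w v * κ' v) + D := by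
    rw [hD, ← sum_add_distrib]
    refine sum_le_sum fun v _ => ?_
    have h6 : T.park (fun u => (a' u : ℝ)) v - T.park b v ≤ |(a v : ℝ) - a' v| := by
      have h7 := sum_le_sum fun c (_ : c ∈ T.ch v) => hba' c
      simp only [Tr.park]
      linarith [hab' v]
    have hw := (T.w_pos v).le
    have h9 := mul_le_mul_of_nonneg_right h6 (mul_nonneg hw (hκ0' v))
    have h10 := mul_le_mul_of_nonneg_left (mul_le_mul_of_nonneg_left (hκ1' v) hw)
      (abs_nonneg ((a v : ℝ) - a' v))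
    linarith
  have e6 : ∑ n, ∑ i, dist (pos (l n i)) (pos' (l' n i)) ≤
      ∑ n, ∑ i, dist (pos (l n i)) (pos (lb n i)) + ∑ n, ∑ i, dist (pos (lb n i)) (pos' (lb n i)) +
        ∑ n, ∑ i, dist (pos' (lb n i)) (pos' (l' n i)) := by
    simp only [← sum_add_distrib]
    exact sum_le_sum fun n _ => sum_le_sum fun i _ => dist_triangle4 _ _ _ _
  have e7 : ∑ v, T.park b v * (T.w v * (κ v + inc v - κ' v)) =
      ∑ v, T.park b v * (T.w v * κ v) + ∑ v, T.park b v * (T.w v * inc v) -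
        ∑ v, T.park b v * (T.w v * κ' v) := by
    rw [← sum_add_distrib, ← sum_sub_distrib]
    exact sum_congr rfl fun v _ => by ring
  linarith

theorem virt_floor_sa {V : Type} [Fintype V] {T : Tr V} {f : V → ℝ} (hf : T.SA f)
    (h0 : ∀ v, 0 ≤ f v) (N : ℕ) : T.SA fun v => ((⌊(N : ℝ) * f v⌋₊ : ℕ) : ℝ) := by
  intro v
  rw [← Nat.cast_sum, Nat.cast_le]
  refine Nat.le_floor ?_
  rw [Nat.cast_sum]
  refine le_trans (sum_le_sum fun c _ => Nat.floor_le (mul_nonneg N.cast_nonneg (h0 c))) ?_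
  rw [← mul_sum]
  exact mul_le_mul_of_nonneg_left (hf v) N.cast_nonneg

theorem virt_floor_sub {N : ℕ} {y y' : ℝ} (hy : 0 ≤ y) (hy' : 0 ≤ y') :
    |((⌊(N : ℝ) * y⌋₊ : ℕ) : ℝ) - (⌊(N : ℝ) * y'⌋₊ : ℕ)| ≤ N * |y' - y| + 1 := by
  have h1 := Nat.floor_le (mul_nonneg N.cast_nonneg hy)
  have h2 := Nat.floor_le (mul_nonneg N.cast_nonneg hy')
  have h3 := Nat.lt_floor_add_one ((N : ℝ) * y)
  have h4 := Nat.lt_floor_add_one ((N : ℝ) * y')
  have h5 := mul_le_mul_of_nonneg_left (le_abs_self (y' - y)) (N.cast_nonneg : (0 : ℝ) ≤ N)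
  have h6 := mul_le_mul_of_nonneg_left (neg_abs_le (y' - y)) (N.cast_nonneg : (0 : ℝ) ≤ N)
  rw [abs_le]
  constructor <;> linarith

/-- Take `N` large, `a t = ⌊N ν (S t)⌋₊`, `N` copies of `k` tokens all starting at the root and
moved by `round_step` (a choice function of `(a t, a (t+1), tokens)`, so everything is adapted).
Copy `n` follows the shadow positions `pos t (token n i)` (`pathCost_le_shadow`,
`exists_alg_of_adapted`); at time `t+1` it has a token at the leaf of the request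
(`one_le_m3_post`, `ν_ge`, `exists_token_of_bal`, `pos_leaf`). One step is
`pos t l → pos t lb → pos (t+1) lb → pos (t+1) l'`. If `a t c > 0` and `c ≠ root` then `t ≥ 1`,
`m2 (p t) c > 0`, so some point `y` has `Sub (node t ω y) c` (`ν_le`, `m2_post_le`,
`exists_pos_of_cE_pos`, `node_ad`), and `near` gives `dist (pos t c) (pos t (par c)) ≤ 187 w c`:
`Tr.dist_le_td` with `D = 187` for the first and third moves. The middle move costs at most
`∑ v, park b v * w v * (κ t v + inc (t+1) v - κ (t+1) v)`, `b = min (a t) (a (t+1))`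
(`Tr.Cons.sum_eq`, `drift`, `pos_root`); use the potential `∑ v, park (a t) v * w v * κ t v`,
`park b v - park a v ≤ ∑ c ∈ ch v, (a c - b c)`, `park a' v - park b v ≤ a' v - b v`, and `hD`
for `f = b / N`. The best copy is at most the average. -/
theorem virt_main {k : ℕ} (hk : 0 < k) {X : Type} [MetricSpace X] {V : Type} [Fintype V]
    {T : Tr V} {Λ : ℝ} (hΛ : 1 ≤ Λ) (H : HSTAlg T k Λ) {Ω : Type} [Fintype Ω] {P : Ω → ℝ}
    (hP : ∀ ω, 0 < P ω) (hP1 : ∑ ω, P ω = 1) (x : ℕ → Ω → X) (j : ℕ → Ω → Fin k)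
    (s : Fin k → X) (Tm : ℕ) (Vt : Virt T x Tm) (Drag : ℕ → Ω → ℝ)
    (hD : ∀ t < Tm, ∀ (ω : Ω) (f : V → ℝ), T.SA f → (∀ v, 0 ≤ f v) → f T.root = k →
      (∀ v, v ≠ T.root →
        f v ≤ 3 * cE P x (t + 1) (fun ω' => (T.cnt (Vt.loc s j (t + 1) ω') v : ℝ)) ω) →
      ∑ v, T.park f v * (T.w v * Vt.inc (t + 1) ω v) ≤ Drag (t + 1) ω) :
    ∃ A : List X → Fin k, ∑ ω, P ω * dcost A s (reqs (fun t => x t ω) Tm) ≤
      3000 * Λ * (∑ t ∈ range Tm, ∑ ω, P ω *
          ∑ i, T.td (Vt.loc s j t ω i) (Vt.loc s j (t + 1) ω i) + k * T.w T.root) +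
        ∑ t ∈ range Tm, ∑ ω, P ω * Drag (t + 1) ω + 1 := by
  -- the fractional algorithm
  let S : ℕ → Ω → H.S := fun t => Nat.rec (fun _ => H.init)
    (fun t St ω => H.step (St ω) (post T P x (t + 1) (Vt.loc s j (t + 1)) ω)) t
  have h0 : ∀ ω, S 0 ω = H.init := fun _ => rfl
  have hS : ∀ t ω, S (t + 1) ω = H.step (S t ω) (post T P x (t + 1) (Vt.loc s j (t + 1)) ω) :=
    fun _ _ => rfl
  clear_value S
  have hV := virt_valid H hP x (Vt.loc s j) S h0 hS
  have hA := virt_adapted H x (Vt.loc s j) S h0 hS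
  have hfrac := frac_move hΛ H hP hP1 x (Vt.loc s j) Tm S h0 hS
  have hG : ∀ t ω, T.Good (post T P x t (Vt.loc s j t) ω) := fun t ω => good_post T hP t _ ω
  have hν0 : ∀ t ω v, 0 ≤ H.ν (S t ω) v := by
    rintro (_ | t) ω v
    · rw [h0, H.ν_init]
      split_ifs <;> positivity
    · rw [hS]
      exact H.ν_nonneg _ _ (hV t ω) (hG _ ω) v
  have hνr : ∀ t ω, H.ν (S t ω) T.root = k := by
    rintro (_ | t) ω
    · rw [h0, H.ν_init, if_pos rfl]
    · rw [hS]
      exact H.ν_root _ _ (hV t ω) (hG _ ω)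
  have hνsa : ∀ t ω, T.SA (H.ν (S t ω)) := by
    rintro (_ | t) ω
    · intro v
      refine le_trans (le_of_eq (sum_eq_zero fun c hc => ?_)) (hν0 0 ω v)
      rw [h0, H.ν_init, if_neg (T.mem_ch.1 hc).1]
    · rw [hS]
      exact H.ν_sa _ _ (hV t ω) (hG _ ω)
  have hνle : ∀ t ω v, v ≠ T.root → H.ν (S (t + 1) ω) v ≤
      3 * cE P x (t + 1) (fun ω' => (T.cnt (Vt.loc s j (t + 1) ω') v : ℝ)) ω := by
    intro t ω v hv
    rw [hS]
    exact (H.ν_le _ _ (hV t ω) (hG _ ω) v hv).trans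
      (mul_le_mul_of_nonneg_left (m2_post_le T hP _ _ ω v) (by norm_num))
  -- the number of copies
  obtain ⟨N, hN⟩ := exists_nat_gt (1326 * (Tm * ∑ v, T.w v))
  have hW : 0 ≤ ∑ v, T.w v := sum_nonneg fun v _ => (T.w_pos v).le
  have hNpos : (0 : ℝ) < N := lt_of_le_of_lt (by positivity) hN
  have hNpos' : 0 < N := Nat.cast_pos.1 hNpos
  let a : ℕ → Ω → V → ℕ := fun t ω v => ⌊(N : ℝ) * H.ν (S t ω) v⌋₊
  have ha : ∀ t ω v, a t ω v = ⌊(N : ℝ) * H.ν (S t ω) v⌋₊ := fun _ _ _ => rfl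
  have hasa : ∀ t ω, T.SA fun v => (a t ω v : ℝ) := fun t ω => virt_floor_sa (hνsa t ω) (hν0 t ω) N
  have har : ∀ t ω, a t ω T.root = N * k := by
    intro t ω
    rw [ha, hνr, ← Nat.cast_mul, Nat.floor_natCast]
  have ha0 : ∀ ω v, v ≠ T.root → a 0 ω v = 0 := by
    intro ω v hv
    rw [ha, h0, H.ν_init, if_neg hv, mul_zero, Nat.floor_zero]
  have hale : ∀ t ω v, (a t ω v : ℝ) ≤ N * H.ν (S t ω) v := fun t ω v =>
    Nat.floor_le (mul_nonneg hNpos.le (hν0 t ω v))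
  have haA : ∀ t, Adapted x t (a t) := by
    intro t ω ω' h
    funext v
    rw [ha, ha, hA t ω ω' h]
  have haD : ∀ t ω, ∑ v, T.w v * |(a t ω v : ℝ) - a (t + 1) ω v| ≤
      N * ∑ v, T.w v * |H.ν (S (t + 1) ω) v - H.ν (S t ω) v| + ∑ v, T.w v := by
    intro t ω
    rw [mul_sum, ← sum_add_distrib]
    refine sum_le_sum fun v _ => ?_
    have := mul_le_mul_of_nonneg_left (virt_floor_sub (N := N) (hν0 t ω v) (hν0 (t + 1) ω v))
      (T.w_pos v).le
    simp only [ha]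
    linarith
  have hage : ∀ t ω, N ≤ a (t + 1) ω (Vt.node (t + 1) ω (x (t + 1) ω)) := by
    intro t ω
    rw [ha]
    refine Nat.le_floor (le_mul_of_one_le_right hNpos.le ?_)
    rw [hS]
    refine H.ν_ge _ _ (hV t ω) (hG _ ω) _ (one_le_m3_post T hP _ _ ω _ fun ω' h => ?_)
    refine ⟨j (t + 1) ω', ?_⟩
    rw [Virt.loc, cfg_succ, Function.update_self, ← Vt.node_ad _ ω ω' h,
      ← h (t + 1) (Nat.le_add_left _ _) le_rfl]
    exact T.sub_refl _
  have hocc : ∀ t ω c, c ≠ T.root → 0 < a t ω c → ∃ y, T.Sub (Vt.node t ω y) c := by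
    rintro (_ | t) ω c hc hpos
    · rw [ha0 ω c hc] at hpos
      exact absurd hpos (lt_irrefl _)
    · have h1 : (0 : ℝ) < a (t + 1) ω c := Nat.cast_pos.2 hpos
      have h2 : 0 < H.ν (S (t + 1) ω) c :=
        (mul_pos_iff_of_pos_left hNpos).1 (h1.trans_le (hale _ ω c))
      have h3 := hνle t ω c hc
      obtain ⟨ω', hω', h4⟩ := exists_pos_of_cE_pos (x := x) (t := t + 1) (ω := ω)
        (f := fun ω' => (T.cnt (Vt.loc s j (t + 1) ω') c : ℝ)) hP (by linarith)
      obtain ⟨i, hi⟩ := card_pos.1 (Nat.cast_pos.1 h4)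
      rw [Vt.node_ad _ ω ω' hω']
      exact ⟨_, (mem_filter.1 hi).2⟩
  have hedge : ∀ t ≤ Tm, ∀ ω c, c ≠ T.root → 0 < a t ω c →
      dist (Vt.pos t ω c) (Vt.pos t ω (T.par c)) ≤ 187 * T.w c := by
    intro t ht ω c hc hpos
    obtain ⟨y, hy⟩ := hocc t ω c hc hpos
    have h1 := Vt.near t ht ω y c hy
    have h2 := Vt.near t ht ω y _ (hy.trans (T.sub_par c))
    rw [T.w_par hc] at h2
    linarith [dist_triangle_right (Vt.pos t ω c) (Vt.pos t ω (T.par c)) y]
  clear_value a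
  -- the tokens
  have hF : ∀ (b b' : V → ℕ) (l : Fin N → Fin k → V), ∃ lb l' : Fin N → Fin k → V,
      (T.SA fun v => (b v : ℝ)) → (T.SA fun v => (b' v : ℝ)) → b T.root = b' T.root →
      T.Cons l b → T.Bal l → T.Cons lb (fun v => min (b v) (b' v)) ∧ T.Cons l' b' ∧ T.Bal l' ∧
        ∑ n, ∑ i, T.td (l n i) (lb n i) ≤ ∑ v, T.w v * |(b v : ℝ) - b' v| ∧
        ∑ n, ∑ i, T.td (lb n i) (l' n i) ≤ 6 * ∑ v, T.w v * |(b v : ℝ) - b' v| := by
    intro b b' l
    by_cases h : (T.SA fun v => (b v : ℝ)) ∧ (T.SA fun v => (b' v : ℝ)) ∧ b T.root = b' T.root ∧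
        T.Cons l b ∧ T.Bal l
    · obtain ⟨lb, l', h'⟩ := round_step T h.1 h.2.1 h.2.2.1 h.2.2.2.1 h.2.2.2.2
      exact ⟨lb, l', fun _ _ _ _ _ => h'⟩
    · exact ⟨l, l, fun h1 h2 h3 h4 h5 => absurd ⟨h1, h2, h3, h4, h5⟩ h⟩
  choose Fb F hF using hF
  let L : ℕ → Ω → Fin N → Fin k → V := fun t => Nat.rec (fun _ _ _ => T.root)
    (fun t Lt ω => F (a t ω) (a (t + 1) ω) (Lt ω)) t
  have hL0 : ∀ ω n i, L 0 ω n i = T.root := fun _ _ _ => rfl
  have hL : ∀ t ω, L (t + 1) ω = F (a t ω) (a (t + 1) ω) (L t ω) := fun _ _ => rfl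
  clear_value L
  have hLA : ∀ t, Adapted x t (L t) := by
    intro t
    induction t with
    | zero => intro ω ω' _; funext n i; rw [hL0, hL0]
    | succ t ih =>
      intro ω ω' h
      rw [hL, hL, ih ω ω' (h.mono (Nat.le_succ t)), haA t ω ω' (h.mono (Nat.le_succ t)),
        haA _ ω ω' h]
  have hLC : ∀ t ω, T.Cons (L t ω) (a t ω) ∧ T.Bal (L t ω) := by
    intro t ω
    induction t with
    | zero =>
      have e : ∀ n, L 0 ω n = fun _ => T.root := fun n => funext (hL0 ω n)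
      refine ⟨fun v => ?_, fun v n n' => by rw [e, e]; exact Nat.le_succ _⟩
      by_cases hv : v = T.root
      · subst hv
        simp only [T.cnt_root, har, sum_const, card_univ, Fintype.card_fin, smul_eq_mul]
      · rw [ha0 ω v hv]
        refine sum_eq_zero fun n _ => ?_
        rw [e, Tr.cnt, filter_false_of_mem fun _ _ h => hv (T.root_sub_iff.1 h), card_empty]
    | succ t ih =>
      rw [hL]
      have := hF _ _ _ (hasa t ω) (hasa (t + 1) ω) (by rw [har, har]) ih.1 ih.2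
      exact ⟨this.2.1, this.2.2.1⟩
  -- one step
  set Ψ : ℕ → Ω → ℝ := fun t ω => ∑ v, T.park (fun u => (a t ω u : ℝ)) v * (T.w v * Vt.κ t ω v)
    with hΨ
  have hstep : ∀ t < Tm, ∀ ω,
      ∑ n, ∑ i, dist (Vt.pos t ω (L t ω n i)) (Vt.pos (t + 1) ω (L (t + 1) ω n i)) + Ψ (t + 1) ω ≤
        1326 * (N * ∑ v, T.w v * |H.ν (S (t + 1) ω) v - H.ν (S t ω) v| + ∑ v, T.w v) + Ψ t ω +
          N * Drag (t + 1) ω := by
    intro t ht ω
    obtain ⟨c1, c2, -, c4, c5⟩ :=
      hF _ _ _ (hasa t ω) (hasa (t + 1) ω) (by rw [har, har]) (hLC t ω).1 (hLC t ω).2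
    rw [← hL] at c2 c5
    have h1 := virt_step (pos := Vt.pos t ω) (pos' := Vt.pos (t + 1) ω) (κ := Vt.κ t ω)
      (κ' := Vt.κ (t + 1) ω) (inc := Vt.inc (t + 1) ω) (hasa t ω) (hasa (t + 1) ω) (hLC t ω).1 c1 c2
      c4 c5 (hedge t ht.le ω) (hedge (t + 1) ht ω) (fun v h1 h2 => by
        by_cases hv : v = T.root
        · rw [hv, Vt.pos_root t, Vt.pos_root (t + 1), dist_self]
          exact mul_nonneg (T.w_pos _).le (by linarith [Vt.κ_succ t ht ω T.root])
        · obtain ⟨y, hy⟩ := hocc t ω v hv h1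
          obtain ⟨y', hy'⟩ := hocc (t + 1) ω v hv h2
          exact (Vt.drift t ht ω y y' v hy hy').trans
            (mul_le_mul_of_nonneg_left (min_le_right _ _) (T.w_pos v).le))
      (Vt.κ_nonneg t ht.le ω) (Vt.κ_le_one t ht.le ω) (Vt.κ_nonneg (t + 1) ht ω)
      (Vt.κ_le_one (t + 1) ht ω)
    have h2 := hD t ht ω (fun u => ((min (a t ω u) (a (t + 1) ω u) : ℕ) : ℝ) / N)
      (fun v => by
        rw [← sum_div]
        exact div_le_div_of_nonneg_right (virt_sa_min (hasa t ω) (hasa (t + 1) ω) v) hNpos.le)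
      (fun v => by positivity)
      (by rw [har, har, min_self, Nat.cast_mul, mul_div_cancel_left₀ _ hNpos.ne'])
      (fun v hv => by
        refine le_trans ?_ (hνle t ω v hv)
        rw [div_le_iff₀' hNpos]
        exact (Nat.cast_le.2 (min_le_right _ _)).trans (hale _ ω v))
    have h3 : ∑ v, T.park (fun u => ((min (a t ω u) (a (t + 1) ω u) : ℕ) : ℝ)) v *
          (T.w v * Vt.inc (t + 1) ω v) =
        N * ∑ v, T.park (fun u => ((min (a t ω u) (a (t + 1) ω u) : ℕ) : ℝ) / N) v *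
          (T.w v * Vt.inc (t + 1) ω v) := by
      rw [mul_sum]
      refine sum_congr rfl fun v _ => ?_
      simp only [Tr.park, ← sum_div]
      field_simp
    have h4 := mul_le_mul_of_nonneg_left h2 hNpos.le
    have h5 := haD t ω
    simp only [hΨ]
    linarith
  have hw := T.w_pos T.root
  have htel : ∀ ω, ∀ m ≤ Tm, ∑ t ∈ range m,
      ∑ n, ∑ i, dist (Vt.pos t ω (L t ω n i)) (Vt.pos (t + 1) ω (L (t + 1) ω n i)) + Ψ m ω ≤
        1326 * (N * ∑ t ∈ range m, ∑ v, T.w v * |H.ν (S (t + 1) ω) v - H.ν (S t ω) v| +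
          m * ∑ v, T.w v) + N * (k * T.w T.root) + N * ∑ t ∈ range m, Drag (t + 1) ω := by
    intro ω m hm
    induction m with
    | zero =>
      simp only [range_zero, sum_empty, zero_add, mul_zero, Nat.cast_zero, zero_mul, add_zero, hΨ]
      rw [← (hLC 0 ω).1.sum_eq]
      simp only [hL0, sum_const, card_univ, Fintype.card_fin, nsmul_eq_mul]
      have := Vt.κ_le_one 0 (Nat.zero_le _) ω T.root
      gcongr
      exact mul_le_of_le_one_right hw.le this
    | succ m ih =>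
      have h1 := ih (Nat.le_of_succ_le hm)
      have h2 := hstep m hm ω
      simp only [sum_range_succ, Nat.cast_succ]
      linarith
  have hΨ0 : ∀ ω, 0 ≤ Ψ Tm ω := fun ω => sum_nonneg fun v _ =>
    mul_nonneg (sub_nonneg.2 (hasa Tm ω v)) (mul_nonneg (T.w_pos v).le (Vt.κ_nonneg Tm le_rfl ω v))
  -- the algorithms
  let pick : (Fin k → V) → V → Fin k := fun l v => if h : ∃ i, l i = v then h.choose else ⟨0, hk⟩
  have hpick : ∀ (l : Fin k → V) (v : V), (∃ i, l i = v) → l (pick l v) = v := by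
    intro l v h
    simp only [pick, dif_pos h]
    exact h.choose_spec
  let J : Fin N → ℕ → Ω → Fin k := fun n t ω =>
    if t = 0 then ⟨0, hk⟩ else pick (L t ω n) (Vt.node t ω (x t ω))
  have hJA : ∀ n t, Adapted x t (J n t) := by
    intro n t ω ω' h
    by_cases ht : t = 0
    · simp only [J, if_pos ht]
    · simp only [J, if_neg ht]
      rw [hLA t ω ω' h, Vt.node_ad t ω ω' h, h t (Nat.pos_of_ne_zero ht) le_rfl]
  choose A hAlg using fun n => exists_alg_of_adapted hk x (J n) (hJA n)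
  have hcost : ∀ n ω, dcost (A n) s (reqs (fun t => x t ω) Tm) ≤ 11 * (k * T.w T.root) +
      ∑ t ∈ range Tm, ∑ i, dist (Vt.pos t ω (L t ω n i)) (Vt.pos (t + 1) ω (L (t + 1) ω n i)) := by
    intro n ω
    rw [dcost, hAlg]
    refine (pathCost_le_shadow s _ _ Tm (fun t i => Vt.pos t ω (L t ω n i)) fun t _ => ?_).trans
      (add_le_add ?_ le_rfl)
    · simp only [J, if_neg (Nat.succ_ne_zero t)]
      rw [hpick _ _ (exists_token_of_bal T (hLC _ ω).1 (hLC _ ω).2 (Vt.leaf _ _ _) (hage t ω) n),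
        Vt.pos_leaf]
    · have h1 : ∀ i, dist (s i) (Vt.pos 0 ω (L 0 ω n i)) ≤ 11 * T.w T.root := by
        intro i
        rw [hL0, dist_comm]
        exact Vt.near 0 (Nat.zero_le _) ω _ _ (T.sub_root _)
      refine (sum_le_sum fun i _ => h1 i).trans (le_of_eq ?_)
      simp only [sum_const, card_univ, Fintype.card_fin, nsmul_eq_mul]
      ring
  have htot : ∀ ω, ∑ n, dcost (A n) s (reqs (fun t => x t ω) Tm) ≤
      N * (12 * (k * T.w T.root) + 1 +
        1326 * ∑ t ∈ range Tm, ∑ v, T.w v * |H.ν (S (t + 1) ω) v - H.ν (S t ω) v| +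
        ∑ t ∈ range Tm, Drag (t + 1) ω) := by
    intro ω
    have h1 := sum_le_sum fun n (_ : n ∈ (univ : Finset (Fin N))) => hcost n ω
    rw [sum_add_distrib, sum_comm (s := (univ : Finset (Fin N))) (t := range Tm)] at h1
    simp only [sum_const, card_univ, Fintype.card_fin, nsmul_eq_mul] at h1
    have h2 := htel ω Tm le_rfl
    have h3 := hΨ0 ω
    linarith
  have hne : (univ : Finset (Fin N)).Nonempty := ⟨⟨0, hNpos'⟩, mem_univ _⟩
  suffices h : ∑ n, ∑ ω, P ω * dcost (A n) s (reqs (fun t => x t ω) Tm) ≤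
      ∑ _n : Fin N, (3000 * Λ * (∑ t ∈ range Tm, ∑ ω, P ω *
          ∑ i, T.td (Vt.loc s j t ω i) (Vt.loc s j (t + 1) ω i) + k * T.w T.root) +
        ∑ t ∈ range Tm, ∑ ω, P ω * Drag (t + 1) ω + 1) by
    obtain ⟨n, -, hn⟩ := exists_le_of_sum_le hne h
    exact ⟨A n, hn⟩
  rw [sum_comm]
  simp only [← mul_sum]
  refine (sum_le_sum fun ω _ => mul_le_mul_of_nonneg_left (htot ω) (hP ω).le).trans ?_
  have e1 : ∑ ω, P ω * (N * (12 * (k * T.w T.root) + 1 +
        1326 * ∑ t ∈ range Tm, ∑ v, T.w v * |H.ν (S (t + 1) ω) v - H.ν (S t ω) v| +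
        ∑ t ∈ range Tm, Drag (t + 1) ω)) =
      N * ((∑ ω, P ω) * (12 * (k * T.w T.root) + 1) +
        1326 * ∑ t ∈ range Tm, ∑ ω, P ω * ∑ v, T.w v * |H.ν (S (t + 1) ω) v - H.ν (S t ω) v| +
        ∑ t ∈ range Tm, ∑ ω, P ω * Drag (t + 1) ω) := by
    rw [sum_comm (s := range Tm), sum_comm (s := range Tm), sum_mul, mul_sum, ← sum_add_distrib,
      ← sum_add_distrib, mul_sum]
    refine sum_congr rfl fun ω _ => ?_
    rw [← mul_sum, ← mul_sum]
    ring
  rw [e1, hP1, sum_const, card_univ, Fintype.card_fin, nsmul_eq_mul]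
  refine mul_le_mul_of_nonneg_left ?_ hNpos.le
  have h1 : 0 ≤ ∑ t ∈ range Tm, ∑ ω, P ω *
      ∑ i, T.td (Vt.loc s j t ω i) (Vt.loc s j (t + 1) ω i) :=
    sum_nonneg fun t _ => sum_nonneg fun ω _ =>
      mul_nonneg (hP ω).le (sum_nonneg fun i _ => T.td_nonneg _ _)
  have h2 : (0 : ℝ) ≤ k * T.w T.root := by positivity
  have h3 := mul_le_mul_of_nonneg_right hΛ h2
  have h4 := mul_nonneg (zero_le_one.trans hΛ) h1
  linarith

end

end Crest.Agent.R314
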