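import Crest.Agent.R314.Gamma
import Crest.Agent.R314.Virt

/-! Row 314: the tree of label lists and the virtual embedding built from all scales. -/

set_option autoImplicit false

open Finset Crest.LogicCS.KServer

namespace Crest.Agent.R314

noncomputable section
open Classical

/-- nodes: lists of at most `J + 1` labels, the head being the label of the lowest level -/
def LV (L : Type) (J : ℕ) : Type := {l : List L // l.length ≤ J + 1}

instance (L : Type) [Fintype L] (J : ℕ) : Fintype (LV L J) :=
  (List.finite_length_le L (J + 1)).fintype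

def labTree (L : Type) [Nonempty L] (J : ℕ) : Tr (LV L J) where
  par v := ⟨v.1.tail, by have := v.2; simp; omega⟩
  root := ⟨[], by simp⟩
  lvl v := J + 1 - v.1.length
  par_root := rfl
  lvl_par := by
    rintro ⟨l, hl⟩ h
    cases l with
    | nil => exact absurd rfl h
    | cons a l => simp at hl ⊢; omega
  lvl_lt := by
    rintro ⟨l, hl⟩ h
    cases l with
    | nil => exact absurd rfl h
    | cons a l => simp
  exists_child := by
    rintro ⟨l, hl⟩ h
    refine ⟨⟨Classical.arbitrary L :: l, by simp at h ⊢; omega⟩, ?_, rfl⟩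
    intro h'
    simpa using congrArg Subtype.val h'

/-- the leaf with the label `f l` at the level `l` -/
def leafOf {L : Type} (J : ℕ) (f : ℕ → L) : LV L J := ⟨(List.range (J + 1)).map f, by simp⟩

section
variable {L : Type} [Nonempty L] {J : ℕ}

theorem labTree_w_root : (labTree L J).w (labTree L J).root = 16 ^ (J + 1) := by
  simp [Tr.w, labTree]

theorem lvl_leafOf (f : ℕ → L) : (labTree L J).lvl (leafOf J f) = 0 := by
  simp [labTree, leafOf]

theorem lab_lvl (v : LV L J) : (labTree L J).lvl v = J + 1 - v.1.length := rfl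

theorem lab_iterate_par (u : LV L J) (n : ℕ) : ((labTree L J).par^[n] u).1 = u.1.drop n := by
  induction n with
  | zero => simp
  | succ n ih =>
    rw [Function.iterate_succ_apply']
    change ((labTree L J).par^[n] u).1.tail = _
    rw [ih, List.tail_drop]

theorem sub_leafOf {f : ℕ → L} {v : LV L J} :
    (labTree L J).Sub (leafOf J f) v ↔ v.1 = (leafOf J f).1.drop ((labTree L J).lvl v) := by
  constructor
  · rintro ⟨n, rfl⟩
    rw [lab_iterate_par]
    have h1 : (leafOf J f).1.length = J + 1 := by simp [leafOf]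
    have h2 : (labTree L J).lvl ((labTree L J).par^[n] (leafOf J f)) = J + 1 - (J + 1 - n) := by
      rw [lab_lvl, lab_iterate_par, List.length_drop, h1]
    rw [h2]
    rcases le_total n (J + 1) with h | h
    · rw [show J + 1 - (J + 1 - n) = n by omega]
    · rw [List.drop_eq_nil_of_le (by omega), List.drop_eq_nil_of_le (by omega)]
  · intro h
    exact ⟨(labTree L J).lvl v, Subtype.ext (by rw [lab_iterate_par, ← h])⟩

theorem head_of_sub {f : ℕ → L} {v : LV L J} (h : (labTree L J).Sub (leafOf J f) v)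
    (hv : v ≠ (labTree L J).root) : v.1.head? = some (f ((labTree L J).lvl v)) := by
  have h1 := (labTree L J).lvl_lt v hv
  have h2 : (labTree L J).lvl (labTree L J).root = J + 1 := by simp [labTree]
  rw [h2] at h1
  rw [sub_leafOf.1 h, List.head?_drop]
  simp [leafOf, List.getElem?_range h1]

theorem td_leafOf_le [Fintype L] (f g : ℕ → L) : (labTree L J).td (leafOf J f) (leafOf J g) ≤
    3 * ∑ l ∈ range (J + 1), (16 : ℝ) ^ l * (if f l = g l then 0 else 1) := by
  have hnn : ∀ l ∈ range (J + 1), 0 ≤ (16 : ℝ) ^ l * (if f l = g l then 0 else 1) := by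
    intro l _
    split_ifs <;> positivity
  by_cases hS : ((range (J + 1)).filter fun l => f l ≠ g l).Nonempty
  · obtain ⟨M, hM, hmax⟩ := exists_max_image _ id hS
    obtain ⟨hM1, hM2⟩ := mem_filter.1 hM
    have hMJ := mem_range.1 hM1
    have hlen : ∀ f : ℕ → L, (leafOf J f).1.length = J + 1 := fun f => by simp [leafOf]
    let v : LV L J := ⟨(leafOf J f).1.drop (M + 1), by rw [List.length_drop, hlen]; omega⟩
    have hv : (labTree L J).lvl v = M + 1 := by
      rw [lab_lvl]
      change J + 1 - ((leafOf J f).1.drop (M + 1)).length = _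
      rw [List.length_drop, hlen]
      omega
    have h1 : (labTree L J).Sub (leafOf J f) v := sub_leafOf.2 (by rw [hv])
    have h2 : (labTree L J).Sub (leafOf J g) v := by
      refine sub_leafOf.2 ?_
      rw [hv]
      change (leafOf J f).1.drop (M + 1) = _
      refine List.ext_getElem (by simp [hlen]) fun i hi hi' => ?_
      rw [List.length_drop, hlen] at hi
      simp only [leafOf, List.getElem_drop, List.getElem_map, List.getElem_range]
      by_contra hne
      have := hmax (M + 1 + i) (mem_filter.2 ⟨mem_range.2 (by omega), hne⟩)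
      simp only [id] at this
      omega
    have h3 := (labTree L J).td_le_of_sub h1 h2
    have h4 := single_le_sum hnn hM1
    rw [if_neg hM2] at h4
    rw [Tr.w, hv, pow_succ] at h3
    have h5 : (0 : ℝ) < 16 ^ M := by positivity
    linarith
  · have : leafOf J f = leafOf J g := by
      refine Subtype.ext (List.map_congr_left fun l hl => ?_)
      by_contra hne
      exact hS ⟨l, mem_filter.2 ⟨mem_range.2 (List.mem_range.1 hl), hne⟩⟩
    rw [this, Tr.td_self]
    exact mul_nonneg (by norm_num) (sum_nonneg hnn)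

end

variable {X : Type} [Fintype X] [MetricSpace X] {k Tm J : ℕ} {C ε : ℝ}

/-- the label of `y` at level `l` and time `t`; `E l` works at the scale `16 ^ (l+1)` -/
def mlab (E : (l : ℕ) → Emb1 X k (16 ^ (l + 1)) Tm C ε) (ξ : (l : ℕ) → (E l).Ξ) (dat : ℕ → Dat X)
    (t : ℕ) (y : X) : ℕ → X ⊕ Fin (Tm + 1)
  | 0 => Sum.inl y
  | l + 1 => (E l).lab (ξ l) dat t y

/-- a value at the root, a value at level `0` and a value at level `l + 1`, read off the head -/
def labSel {L : Type} {J : ℕ} {α : Type} (v : LV L J) (a₀ : α) (f₀ : L → α) (f : ℕ → L → α) : α :=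
  match v.1.head?, J + 1 - v.1.length with
  | none, _ => a₀
  | some a, 0 => f₀ a
  | some a, l + 1 => f l a

theorem labSel_root {L : Type} [Nonempty L] {J : ℕ} {α : Type} (a₀ : α) (f₀ : L → α)
    (f : ℕ → L → α) : labSel (labTree L J).root a₀ f₀ f = a₀ := rfl

theorem labSel_zero {L : Type} [Nonempty L] {J : ℕ} {α : Type} {v : LV L J} {a : L}
    (ha : v.1.head? = some a) (h : (labTree L J).lvl v = 0) (a₀ : α) (f₀ : L → α)
    (f : ℕ → L → α) : labSel v a₀ f₀ f = f₀ a := by
  rw [lab_lvl] at h
  unfold labSel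
  rw [ha, h]

theorem labSel_succ {L : Type} [Nonempty L] {J : ℕ} {α : Type} {v : LV L J} {a : L} {l : ℕ}
    (ha : v.1.head? = some a) (h : (labTree L J).lvl v = l + 1) (a₀ : α) (f₀ : L → α)
    (f : ℕ → L → α) : labSel v a₀ f₀ f = f l a := by
  rw [lab_lvl] at h
  unfold labSel
  rw [ha, h]

theorem labSel_cases {L : Type} [Nonempty L] {J : ℕ} (v : LV L J) :
    v = (labTree L J).root ∨ v ≠ (labTree L J).root ∧ ∃ a, v.1.head? = some a ∧
      ((labTree L J).lvl v = 0 ∨ ∃ l < J, (labTree L J).lvl v = l + 1) := by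
  by_cases hv : v = (labTree L J).root
  · exact Or.inl hv
  refine Or.inr ⟨hv, ?_⟩
  obtain ⟨l, hl⟩ := v
  cases l with
  | nil => exact absurd rfl hv
  | cons a l =>
    refine ⟨a, rfl, ?_⟩
    rw [lab_lvl]
    simp only [List.length_cons] at hl ⊢
    rcases Nat.eq_zero_or_pos (J + 1 - (l.length + 1)) with h | h
    · exact Or.inl h
    · exact Or.inr ⟨J + 1 - (l.length + 1) - 1, by omega, by omega⟩

/-- `pos t ω v` is `x₀` at the root, the point in the head label at level `0` and
`(E l).cpos (ξ l) (dat · ω) t (head v)` at level `l + 1 ≤ J`; `κ` and `inc` likewise, `0` at the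
root and at level `0`. -/
theorem exists_virt {Ω : Type} (x : ℕ → Ω → X) (x₀ : X) (hJ : ∀ a b : X, dist a b ≤ 16 ^ (J + 1))
    (E : (l : ℕ) → Emb1 X k (16 ^ (l + 1)) Tm C ε) (ξ : (l : ℕ) → (E l).Ξ) (dat : ℕ → Ω → Dat X)
    (hok : ∀ t ω, (dat t ω).OK k) (had : ∀ t, 1 ≤ t → Adapted x t (dat t)) :
    ∃ Vt : Virt (labTree (X ⊕ Fin (Tm + 1)) J) x Tm,
      (∀ t ω y, Vt.node t ω y = leafOf J (mlab E ξ (fun t => dat t ω) t y)) ∧
      ∀ t ω v, Vt.inc t ω v = 0 ∨ ∃ l < J, ∃ a, (labTree (X ⊕ Fin (Tm + 1)) J).lvl v = l + 1 ∧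
        v.1.head? = some a ∧ Vt.inc t ω v = (E l).inc (ξ l) (fun t => dat t ω) t a := by
  have hloc : ∀ t ω ω', Same x t ω ω' → ∀ s, 1 ≤ s → s ≤ t → dat s ω = dat s ω' :=
    fun t ω ω' h s h1 h2 => had s h1 ω ω' fun s' h3 h4 => h s' h3 (h4.trans h2)
  refine ⟨{
    node := fun t ω y => leafOf J (mlab E ξ (fun t => dat t ω) t y)
    pos := fun t ω v => labSel v x₀ (Sum.elim id fun _ => x₀)
      fun l a => (E l).cpos (ξ l) (fun t => dat t ω) t a
    κ := fun t ω v => labSel v 0 (fun _ => 0) fun l a => (E l).κ (ξ l) (fun t => dat t ω) t a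
    inc := fun t ω v => labSel v 0 (fun _ => 0) fun l a => (E l).inc (ξ l) (fun t => dat t ω) t a
    node_ad := ?_
    pos_ad := ?_
    leaf := fun t ω y => lvl_leafOf _
    pos_leaf := ?_
    near := ?_
    pos_root := fun t ω => rfl
    κ_nonneg := ?_
    κ_le_one := ?_
    inc_nonneg := ?_
    κ_succ := ?_
    drift := ?_ }, fun _ _ _ => rfl, ?_⟩
  · intro t ω ω' h
    funext y
    refine congrArg (leafOf J) (funext fun l => ?_)
    cases l with
    | zero => rfl
    | succ l => exact congrFun ((E l).loc (ξ l) _ _ t (hloc t ω ω' h)).1 y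
  · intro t ω ω' h
    funext v
    refine congrArg (labSel v x₀ (Sum.elim id fun _ => x₀)) (funext fun l => ?_)
    exact ((E l).loc (ξ l) _ _ t (hloc t ω ω' h)).2.1
  · intro t ω y
    have hne : leafOf J (mlab E ξ (fun t => dat t ω) t y) ≠
        (labTree (X ⊕ Fin (Tm + 1)) J).root := fun h => by
      simpa [leafOf, labTree] using congrArg (fun v => v.1.length) h
    have h1 := head_of_sub ((labTree (X ⊕ Fin (Tm + 1)) J).sub_refl _) hne
    rw [labSel_zero h1 (lvl_leafOf _), lvl_leafOf]
    rfl
  · intro t ht ω y v hv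
    have hw := (labTree (X ⊕ Fin (Tm + 1)) J).w_pos v
    rcases labSel_cases v with rfl | ⟨hne, a, ha, h0 | ⟨l, -, hl⟩⟩
    · rw [labSel_root, labTree_w_root] at *
      linarith [hJ x₀ y]
    · rw [head_of_sub hv hne, h0] at ha
      rw [labSel_zero (head_of_sub hv hne) h0, h0]
      simp only [mlab, Sum.elim_inl, id, dist_self]
      linarith
    · rw [labSel_succ (head_of_sub hv hne) hl, hl, Tr.w, hl]
      simpa [mlab] using (E l).near (ξ l) (fun t => dat t ω) (fun s => hok s ω) t ht y
  · intro t ht ω v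
    rcases labSel_cases v with rfl | ⟨hne, a, ha, h0 | ⟨l, -, hl⟩⟩
    · rw [labSel_root]
    · rw [labSel_zero ha h0]
    · rw [labSel_succ ha hl]
      exact (E l).κ_nonneg _ _ (fun s => hok s ω) t ht a
  · intro t ht ω v
    rcases labSel_cases v with rfl | ⟨hne, a, ha, h0 | ⟨l, -, hl⟩⟩
    · rw [labSel_root]; exact zero_le_one
    · rw [labSel_zero ha h0]; exact zero_le_one
    · rw [labSel_succ ha hl]
      exact (E l).κ_le_one _ _ (fun s => hok s ω) t ht a
  · intro t ω v
    rcases labSel_cases v with rfl | ⟨hne, a, ha, h0 | ⟨l, -, hl⟩⟩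
    · rw [labSel_root]
    · rw [labSel_zero ha h0]
    · rw [labSel_succ ha hl]
      exact (E l).inc_nonneg _ _ t a
  · intro t ht ω v
    rcases labSel_cases v with rfl | ⟨hne, a, ha, h0 | ⟨l, -, hl⟩⟩
    · simp [labSel_root]
    · simp [labSel_zero ha h0]
    · simp only [labSel_succ ha hl]
      exact (E l).κ_succ _ _ (fun s => hok s ω) t ht a
  · intro t ht ω y y' v hv hv'
    rcases labSel_cases v with rfl | ⟨hne, a, ha, h0 | ⟨l, -, hl⟩⟩
    · simp [labSel_root]
    · simp [labSel_zero ha h0]
    · simp only [labSel_succ ha hl]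
      rw [head_of_sub hv hne, hl] at ha
      rw [Tr.w, hl]
      simpa using (E l).drift (ξ l) (fun t => dat t ω) (fun s => hok s ω) t ht y a
        (Option.some.inj ha)
  · intro t ω v
    rcases labSel_cases v with rfl | ⟨hne, a, ha, h0 | ⟨l, hlJ, hl⟩⟩
    · exact Or.inl rfl
    · exact Or.inl (labSel_zero ha h0 _ _ _)
    · exact Or.inr ⟨l, hlJ, a, hl, ha, labSel_succ ha hl _ _ _⟩

theorem lab_sum_fiber {V Y : Type} [Fintype V] [Fintype Y] (T : Tr V) (node : Y → V) (g : Y → ℝ)
    (v : V) : ∑ u with T.Sub u v, ∑ y with node y = u, g y = ∑ y with T.Sub (node y) v, g y := by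
  rw [← sum_fiberwise_of_maps_to (s := univ.filter fun y => T.Sub (node y) v)
    (t := univ.filter fun u => T.Sub u v) (g := node) (fun y hy => by simpa using hy)]
  refine sum_congr rfl fun u hu => sum_congr ?_ fun _ _ => rfl
  ext y
  simp only [mem_filter, mem_univ, true_and, iff_and_self]
  rintro rfl
  exact (mem_filter.1 hu).2

/-- The drag. Call `v` marked if `inc v ≠ 0`, let `n l` be the mass parked at the marked nodes of
level `l + 1`. By `Tr.up_ind`, the mass parked at marked nodes of level `≤ m + 1` below `v` is at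
most `3 * ∑ y with Sub (node y) v ∧ dist y x ≤ 40 * 16 ^ (m+1), μ y` (if `v` itself is marked use
`Tr.sum_park`); then `abel_le` and `Dat.OK.mul_e1_le`. -/
theorem drag_le {V : Type} [Fintype V] (T : Tr V) {D : Dat X} (hD : D.OK k) (hk : 1 ≤ k)
    (hC : 0 ≤ C) (node : X → V) (inc : V → ℝ) (h0 : inc T.root = 0)
    (hinc : ∀ v, inc v = 0 ∨ ∃ l, T.lvl v = l + 1 ∧
      inc v ≤ C * D.e1 (16 ^ (l + 1)) / D.V (16 ^ (l + 1)) ∧
      ∀ y, T.Sub (node y) v → dist y D.x ≤ 40 * (16 ^ (l + 1) : ℕ))
    (f : V → ℝ) (hf : T.SA f) (hf0 : ∀ v, 0 ≤ f v)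
    (hfμ : ∀ v, v ≠ T.root → f v ≤ 3 * ∑ y with T.Sub (node y) v, D.μ y) :
    ∑ v, T.park f v * (T.w v * inc v) ≤
      C * (3 + 3 * Real.log k) * ∑ y, D.ρ y * dist y D.x := by
  set R := ∑ y, D.ρ y * dist y D.x with hR
  have hR0 : 0 ≤ R := sum_nonneg fun y _ => mul_nonneg (hD.ρ_nonneg y) dist_nonneg
  have hp : ∀ v, 0 ≤ T.park f v := fun v => sub_nonneg.2 (hf v)
  set n : ℕ → ℝ := fun l => ∑ v with inc v ≠ 0 ∧ T.lvl v = l + 1, T.park f v with hn
  set W : ℕ → ℝ := fun l => D.V (16 ^ (l + 1)) with hW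
  have hW1 : ∀ l, 1 ≤ W l := fun l => hD.one_le_V _
  -- the mass parked at the marked nodes of low level
  have key : ∀ m v, ∑ u with T.Sub u v, (if inc u ≠ 0 ∧ T.lvl u ≤ m + 1 then T.park f u else 0) ≤
      3 * ∑ u with T.Sub u v,
        ∑ y with node y = u, (if dist y D.x ≤ 40 * (16 ^ (m + 1) : ℕ) then D.μ y else 0) := by
    intro m v
    refine T.up_ind (p := fun v =>
      ∑ u with T.Sub u v, (if inc u ≠ 0 ∧ T.lvl u ≤ m + 1 then T.park f u else 0) ≤
      3 * ∑ u with T.Sub u v,
        ∑ y with node y = u, (if dist y D.x ≤ 40 * (16 ^ (m + 1) : ℕ) then D.μ y else 0))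
      (fun v ih => ?_) v
    by_cases hv : inc v ≠ 0 ∧ T.lvl v ≤ m + 1
    · obtain ⟨l, hl, -, hy⟩ := (hinc v).resolve_left hv.1
      have hr : v ≠ T.root := fun h => hv.1 (h ▸ h0)
      calc _ ≤ ∑ u with T.Sub u v, T.park f u := by
            refine sum_le_sum fun u _ => ?_
            split_ifs
            · exact le_rfl
            · exact hp u
        _ = f v := T.sum_park f v
        _ ≤ 3 * ∑ y with T.Sub (node y) v, D.μ y := hfμ v hr
        _ = _ := by
            rw [lab_sum_fiber T node]
            congr 1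
            refine sum_congr rfl fun y hy' => (if_pos ((hy y (mem_filter.1 hy').2).trans ?_)).symm
            have : (16 ^ (l + 1) : ℕ) ≤ 16 ^ (m + 1) :=
              Nat.pow_le_pow_right (by norm_num) (by omega)
            have : ((16 ^ (l + 1) : ℕ) : ℝ) ≤ (16 ^ (m + 1) : ℕ) := by exact_mod_cast this
            linarith
    · rw [T.sum_sub, T.sum_sub _ v, if_neg hv, zero_add, mul_add, mul_sum (T.ch v)]
      refine le_add_of_nonneg_of_le (mul_nonneg (by norm_num) (sum_nonneg fun y _ => ?_))
        (sum_le_sum ih)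
      split_ifs
      · exact hD.μ_nonneg y
      · exact le_rfl
  have hnW : ∀ m < T.lvl T.root, ∑ l ∈ range (m + 1), n l ≤ 3 * W m := by
    intro m _
    have h1 := key m T.root
    rw [lab_sum_fiber T node] at h1
    simp only [T.sub_root, filter_true] at h1
    rw [← sum_filter, ← sum_filter] at h1
    refine le_trans (le_of_eq ?_) h1
    rw [← sum_fiberwise_of_maps_to (s := univ.filter fun u => inc u ≠ 0 ∧ T.lvl u ≤ m + 1)
      (t := range (m + 1)) (g := fun u => T.lvl u - 1)]
    · refine sum_congr rfl fun l hl => sum_congr ?_ fun _ _ => rfl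
      have hl' := mem_range.1 hl
      ext u
      simp only [mem_filter, mem_univ, true_and]
      constructor
      · rintro ⟨h2, h3⟩
        exact ⟨⟨h2, by omega⟩, by omega⟩
      · rintro ⟨⟨h2, h3⟩, h4⟩
        obtain ⟨l', hl', -⟩ := (hinc u).resolve_left h2
        exact ⟨h2, by omega⟩
    · intro u hu
      have := (mem_filter.1 hu).2.2
      exact mem_range.2 (by omega)
  have habel := abel_le (n := n) (V := W) (K := k) (T.lvl T.root) (by exact_mod_cast hk)
    (fun l => sum_nonneg fun v _ => hp v) hW1 (fun l => hD.bm_le _ _)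
    (fun l => bm_mono hD.μ_nonneg _ (by
      have : (16 ^ (l + 1) : ℕ) ≤ 16 ^ (l + 1 + 1) := Nat.pow_le_pow_right (by norm_num) (by omega)
      have : ((16 ^ (l + 1) : ℕ) : ℝ) ≤ (16 ^ (l + 1 + 1) : ℕ) := by exact_mod_cast this
      linarith)) hnW
  calc ∑ v, T.park f v * (T.w v * inc v)
      = ∑ v with inc v ≠ 0, T.park f v * (T.w v * inc v) := by
        rw [sum_filter]
        refine sum_congr rfl fun v _ => ?_
        by_cases h : inc v = 0 <;> simp [h]
    _ = ∑ l ∈ range (T.lvl T.root), ∑ v with inc v ≠ 0 ∧ T.lvl v = l + 1,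
          T.park f v * (T.w v * inc v) := by
        rw [← sum_fiberwise_of_maps_to (s := univ.filter fun u => inc u ≠ 0)
          (t := range (T.lvl T.root)) (g := fun u => T.lvl u - 1)]
        · refine sum_congr rfl fun l _ => sum_congr ?_ fun _ _ => rfl
          ext u
          simp only [mem_filter, mem_univ, true_and]
          constructor
          · rintro ⟨h2, h4⟩
            obtain ⟨l', hl', -⟩ := (hinc u).resolve_left h2
            exact ⟨h2, by omega⟩
          · rintro ⟨h2, h3⟩
            exact ⟨h2, by omega⟩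
        · intro u hu
          have h2 := (mem_filter.1 hu).2
          obtain ⟨l', hl', -⟩ := (hinc u).resolve_left h2
          have := (T.sub_root u).lvl_le
          exact mem_range.2 (by omega)
    _ ≤ ∑ l ∈ range (T.lvl T.root), C * R * (n l / W l) := by
        refine sum_le_sum fun l _ => ?_
        rw [hn, sum_div, mul_sum]
        refine sum_le_sum fun v hv => ?_
        obtain ⟨h2, h3⟩ := (mem_filter.1 hv).2
        obtain ⟨l', hl', h4, -⟩ := (hinc v).resolve_left h2
        obtain rfl : l' = l := by omega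
        have h5 := hD.mul_e1_le (r := 16 ^ (l' + 1)) (by positivity)
        have h6 : 0 < W l' := lt_of_lt_of_le one_pos (hW1 l')
        have h7 : T.w v * inc v ≤ C * R / W l' := by
          rw [Tr.w, h3]
          calc (16 : ℝ) ^ (l' + 1) * inc v
              ≤ 16 ^ (l' + 1) * (C * D.e1 (16 ^ (l' + 1)) / W l') :=
                mul_le_mul_of_nonneg_left h4 (by positivity)
            _ = C * (((16 ^ (l' + 1) : ℕ) : ℝ) * D.e1 (16 ^ (l' + 1))) / W l' := by
                push_cast; ring
            _ ≤ C * R / W l' :=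
                div_le_div_of_nonneg_right (mul_le_mul_of_nonneg_left h5 hC) h6.le
        calc T.park f v * (T.w v * inc v) ≤ T.park f v * (C * R / W l') :=
              mul_le_mul_of_nonneg_left h7 (hp v)
          _ = C * R * (T.park f v / W l') := by ring
    _ ≤ C * R * (3 + 3 * Real.log k) := by
        rw [← mul_sum]
        exact mul_le_mul_of_nonneg_left habel (mul_nonneg hC hR0)
    _ = _ := by ring

end

end Crest.Agent.R314
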