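import Crest.Agent.R314.Det

/-! Row 314: removing the additive constant by repetition. -/

set_option autoImplicit false

open Finset Crest.LogicCS.KServer

namespace Crest.Agent.R314

noncomputable section
open Classical

section aux
variable {X : Type*} [MetricSpace X] {k : ℕ}

omit [MetricSpace X] in
theorem repeat_endCfg_append (c : Fin k → X) (u u' : List (X × Fin k)) :
    endCfg c (u ++ u') = endCfg (endCfg c u) u' := by
  induction u generalizing c with
  | nil => rfl
  | cons a u ih => exact ih _

omit [MetricSpace X] in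
theorem repeat_dch_map (A : List X → Fin k) (π : Fin k → Fin k) (pre σ : List X) :
    (dch A pre σ).map (fun a => (a.1, π a.2)) = dch (fun l => π (A l)) pre σ := by
  induction σ generalizing pre with
  | nil => rfl
  | cons r σ ih => rw [dch_cons, dch_cons, List.map_cons, ih]

theorem repeat_free (s : Fin k → X) (u : List (X × Fin k)) (h : ∀ a ∈ u, s a.2 = a.1) :
    pathCost s u = 0 := by
  induction u with
  | nil => rfl
  | cons a u ih =>
    obtain ⟨r, i⟩ := a
    have h1 : s i = r := h (r, i) List.mem_cons_self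
    subst h1
    rw [pathCost, dist_self, Function.update_eq_self, zero_add]
    exact ih fun a ha => h a (List.mem_cons_of_mem _ ha)

omit [MetricSpace X] in
theorem repeat_endCfg_eq (s : Fin k → X) (u : List (X × Fin k)) (h : ∀ a ∈ u, s a.2 = a.1)
    (c : Fin k → X) (hc : ∀ i, c i = s i ∨ ∃ a ∈ u, a.2 = i) : endCfg c u = s := by
  induction u generalizing c with
  | nil => exact funext fun i => (hc i).resolve_right (by simp)
  | cons a u ih =>
    obtain ⟨r, j⟩ := a
    have h1 : s j = r := h (r, j) List.mem_cons_self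
    refine ih (fun a ha => h a (List.mem_cons_of_mem _ ha)) _ fun i => ?_
    by_cases hij : i = j
    · subst hij
      left
      rw [Function.update_self, h1]
    · rcases hc i with h2 | ⟨a, ha, h2⟩
      · left
        rw [Function.update_of_ne hij, h2]
      · rcases List.mem_cons.1 ha with rfl | ha
        · exact absurd h2.symm hij
        · exact Or.inr ⟨a, ha, h2⟩

theorem repeat_cover (hX : ∀ a b : X, a ≠ b → 1 ≤ dist a b) (c : Fin k → X)
    (u : List (X × Fin k)) (h : pathCost c u < 1) : ∀ a ∈ u, ∃ i, c i = a.1 := by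
  induction u with
  | nil => simp
  | cons a u ih =>
    obtain ⟨r, i⟩ := a
    rw [pathCost] at h
    have h1 : c i = r := by
      by_contra hne
      linarith [hX _ _ hne, pathCost_nonneg (Function.update c i r) u]
    subst h1
    rw [dist_self, Function.update_eq_self, zero_add] at h
    intro a ha
    rcases List.mem_cons.1 ha with rfl | ha
    · exact ⟨i, rfl⟩
    · exact ih h a ha

/-- distance of a configuration to the relabellings of `s` -/
def repeat_del (s c : Fin k → X) : ℝ :=
  univ.inf' univ_nonempty fun π : Equiv.Perm (Fin k) => ∑ i, dist (c i) (s (π i))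

theorem repeat_del_le (s c : Fin k → X) (π : Equiv.Perm (Fin k)) :
    repeat_del s c ≤ ∑ i, dist (c i) (s (π i)) := inf'_le _ (mem_univ π)

theorem repeat_del_eq (s c : Fin k → X) :
    ∃ π : Equiv.Perm (Fin k), repeat_del s c = ∑ i, dist (c i) (s (π i)) := by
  obtain ⟨π, -, h⟩ := exists_mem_eq_inf' (univ_nonempty (α := Equiv.Perm (Fin k)))
    fun π : Equiv.Perm (Fin k) => ∑ i, dist (c i) (s (π i))
  exact ⟨π, h⟩

theorem repeat_del_nonneg (s c : Fin k → X) : 0 ≤ repeat_del s c := by
  obtain ⟨π, h⟩ := repeat_del_eq s c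
  rw [h]
  exact sum_nonneg fun _ _ => dist_nonneg

theorem repeat_reset (hX : ∀ a b : X, a ≠ b → 1 ≤ dist a b) {s : Fin k → X}
    (hs : Function.Injective s) (n : ℕ) (c : Fin k → X) (u : List (X × Fin k))
    (hu : u.map Prod.fst = (List.replicate n (List.ofFn s)).flatten) :
    (n : ℝ) ≤ pathCost c u ∨ repeat_del s (endCfg c u) ≤ pathCost c u := by
  induction n generalizing c u with
  | zero => exact Or.inl (by simpa using pathCost_nonneg c u)
  | succ n ih =>
    rw [List.replicate_succ, List.flatten_cons, List.map_eq_append_iff] at hu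
    obtain ⟨u₁, u₂, rfl, h1, h2⟩ := hu
    rcases le_or_gt 1 (pathCost c u₁) with h | h
    · rw [pathCost_append, repeat_endCfg_append]
      rcases ih (endCfg c u₁) u₂ h2 with h3 | h3
      · left
        push_cast
        linarith
      · right
        linarith
    · right
      have h3 : ∀ a, ∃ i, c i = s a := fun a => by
        have : s a ∈ u₁.map Prod.fst := by
          rw [h1, List.mem_ofFn]
          exact ⟨a, rfl⟩
        obtain ⟨b, hb, hb'⟩ := List.mem_map.1 this
        rw [← hb']
        exact repeat_cover hX c u₁ h b hb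
      choose g hg using h3
      have hinj : Function.Injective g := fun a b hab => hs (by rw [← hg, ← hg, hab])
      let e := Equiv.ofBijective g (Finite.injective_iff_bijective.1 hinj)
      refine (repeat_del_le s _ e.symm).trans (le_of_eq_of_le ?_ (sum_dist_endCfg_le c _))
      refine sum_congr rfl fun i _ => ?_
      rw [dist_comm, ← hg]
      congr 2
      exact e.apply_symm_apply i

theorem repeat_sum_cons {K : Type} [Fintype K] {m : ℕ} (f : (Fin (m + 1) → K) → ℝ) :
    ∑ ω, f ω = ∑ κ, ∑ ω : Fin m → K, f (Fin.cons κ ω) := by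
  rw [← (Fin.consEquiv fun _ => K).sum_comp, Fintype.sum_prod_type]
  rfl

theorem repeat_sum_prod {K : Type} [Fintype K] {p : K → ℝ} (h1 : ∑ κ, p κ = 1) (m : ℕ) :
    ∑ ω : Fin m → K, ∏ i, p (ω i) = 1 := by
  rw [← Fintype.piFinset_univ, ← prod_univ_sum]
  simp [h1]

theorem repeat_online {K : Type} [Fintype K] {p : K → ℝ} (hp : ∀ κ, 0 ≤ p κ) (h1 : ∑ κ, p κ = 1)
    (W : K → List X) (Δ : (Fin k → X) → ℝ) (hΔ : ∀ c, 0 ≤ Δ c) (c₀ : ℝ)
    (hW : ∀ (A : List X → Fin k) c, c₀ - Δ c ≤
      ∑ κ, p κ * (pathCost c (dch A [] (W κ)) - Δ (endCfg c (dch A [] (W κ)))))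
    (m : ℕ) (A : List X → Fin k) (c : Fin k → X) :
    m * c₀ - Δ c ≤ ∑ ω : Fin m → K,
      (∏ i, p (ω i)) * pathCost c (dch A [] (List.ofFn fun i => W (ω i)).flatten) := by
  induction m generalizing A c with
  | zero =>
    have : 0 ≤ ∑ ω : Fin 0 → K,
        (∏ i, p (ω i)) * pathCost c (dch A [] (List.ofFn fun i => W (ω i)).flatten) :=
      sum_nonneg fun ω _ => mul_nonneg (prod_nonneg fun _ _ => hp _) (pathCost_nonneg _ _)
    have := hΔ c
    push_cast
    linarith
  | succ m ih =>
    rw [repeat_sum_cons]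
    have h2 : ∀ κ, p κ * (pathCost c (dch A [] (W κ)) - Δ (endCfg c (dch A [] (W κ)))) +
        p κ * (m * c₀) ≤ ∑ ω : Fin m → K, (∏ i, p ((Fin.cons κ ω : Fin (m + 1) → K) i)) *
          pathCost c (dch A []
            (List.ofFn fun i => W ((Fin.cons κ ω : Fin (m + 1) → K) i)).flatten) := by
      intro κ
      have h3 := ih (fun l => A (W κ ++ l)) (endCfg c (dch A [] (W κ)))
      have h4 : ∀ σ, dch A ([] ++ W κ) σ = dch (fun l => A (W κ ++ l)) [] σ := fun σ => by
        rw [← dch_shift, List.nil_append, List.append_nil]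
      simp only [Fin.prod_univ_succ, List.ofFn_succ, Fin.cons_zero, Fin.cons_succ,
        List.flatten_cons, dch_append, pathCost_append, h4, mul_add, mul_assoc, sum_add_distrib,
        ← mul_sum, ← sum_mul, repeat_sum_prod h1, one_mul]
      nlinarith [mul_le_mul_of_nonneg_left h3 (hp κ)]
    have h3 := sum_le_sum fun κ (_ : κ ∈ univ) => h2 κ
    rw [sum_add_distrib, ← sum_mul, h1] at h3
    have h4 := hW A c
    push_cast
    linarith

theorem repeat_offline {K : Type} [Fintype K] {p : K → ℝ} (h1 : ∑ κ, p κ = 1)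
    (s : Fin k → X) (W : K → List (X × Fin k)) (hW : ∀ κ, endCfg s (W κ) = s) (m : ℕ) :
    (∀ ω : Fin m → K, endCfg s (List.ofFn fun i => W (ω i)).flatten = s) ∧
    ∑ ω : Fin m → K, (∏ i, p (ω i)) * pathCost s (List.ofFn fun i => W (ω i)).flatten =
      m * ∑ κ, p κ * pathCost s (W κ) := by
  induction m with
  | zero => exact ⟨fun ω => rfl, by simp [pathCost]⟩
  | succ m ih =>
    refine ⟨fun ω => ?_, ?_⟩
    · rw [List.ofFn_succ, List.flatten_cons, repeat_endCfg_append, hW]
      exact ih.1 fun i => ω i.succ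
    · rw [repeat_sum_cons]
      simp only [Fin.prod_univ_succ, List.ofFn_succ, Fin.cons_zero, Fin.cons_succ,
        List.flatten_cons, pathCost_append, hW, mul_add, mul_assoc, sum_add_distrib,
        ← mul_sum, ← sum_mul, repeat_sum_prod h1, one_mul, ih.2, h1]
      push_cast
      ring

theorem repeat_pad {α : Type*} (L : List α) (d : α) {T : ℕ} (h : L.length ≤ T) :
    (List.range T).map (fun t => L.getD t d) = L ++ List.replicate (T - L.length) d := by
  refine List.ext_getElem (by simp; omega) fun n h1 h2 => ?_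
  rw [List.getElem_map, List.getElem_range, List.getElem_append]
  split_ifs with h3
  · rw [List.getD_eq_getElem _ _ h3]
  · rw [List.getD_eq_default _ _ (not_lt.1 h3), List.getElem_replicate]

end aux

theorem repeat_main {C : ℝ} (hC : 0 ≤ C) (hB : Bayes C) {k : ℕ} (hk : 2 ≤ k) {X : Type}
    [Fintype X] [MetricSpace X] (hX : ∀ a b : X, a ≠ b → 1 ≤ dist a b) {s : Fin k → X}
    (hs : Function.Injective s) {K : Type} [Fintype K] (l : K → List (X × Fin k)) (p : K → ℝ)
    (hp : ∀ κ, 0 < p κ) (h1 : ∑ κ, p κ = 1) (c₀ : ℝ)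
    (hc : ∀ A : List X → Fin k, c₀ ≤ ∑ κ, p κ * dcost A s ((l κ).map Prod.fst)) :
    c₀ ≤ 2 * C * Real.log (k + 1) ^ 2 * ∑ κ, p κ * pathCost s (l κ) := by
  obtain ⟨B, hB⟩ := hB k hk X hX s
  obtain ⟨D, hD⟩ := (Set.finite_range (repeat_del s)).bddAbove
  obtain ⟨n, hn⟩ := exists_nat_ge D
  have hn' : ∀ c, repeat_del s c ≤ (n + 1 : ℕ) := fun c => by
    have := hD (Set.mem_range_self c)
    push_cast
    linarith
  set R : List (X × Fin k) := (List.replicate (n + 1) (List.ofFn fun a => (s a, a))).flatten
    with hR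
  have hR1 : ∀ a ∈ R, s a.2 = a.1 := by
    intro a ha
    obtain ⟨u, hu, ha⟩ := List.mem_flatten.1 ha
    rw [List.eq_of_mem_replicate hu, List.mem_ofFn] at ha
    obtain ⟨i, rfl⟩ := ha
    rfl
  have hR2 : ∀ i, ∃ a ∈ R, a.2 = i := fun i =>
    ⟨(s i, i), List.mem_flatten.2 ⟨_, List.mem_replicate.2 ⟨n.succ_ne_zero, rfl⟩,
      List.mem_ofFn.2 ⟨i, rfl⟩⟩, rfl⟩
  have hR3 : R.map Prod.fst = (List.replicate (n + 1) (List.ofFn s)).flatten := by
    rw [hR, List.map_flatten, List.map_replicate, List.map_ofFn]
    rfl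
  set W : K → List (X × Fin k) := fun κ => l κ ++ R with hW
  have hW1 : ∀ κ, endCfg s (W κ) = s := fun κ => by
    rw [hW, repeat_endCfg_append]
    exact repeat_endCfg_eq s R hR1 _ fun i => Or.inr (hR2 i)
  have hW2 : ∀ κ, pathCost s (W κ) ≤ 2 * pathCost s (l κ) := fun κ => by
    have a1 := pathCost_le_add (endCfg s (l κ)) s R
    have a2 := sum_dist_endCfg_le s (l κ)
    rw [repeat_free s R hR1] at a1
    simp only [dist_comm (endCfg s (l κ) _)] at a1
    rw [hW, pathCost_append]
    linarith
  have hW3 : ∀ (A : List X → Fin k) c, c₀ - repeat_del s c ≤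
      ∑ κ, p κ * (pathCost c (dch A [] ((W κ).map Prod.fst)) -
        repeat_del s (endCfg c (dch A [] ((W κ).map Prod.fst)))) := by
    intro A c
    obtain ⟨π, hπ⟩ := repeat_del_eq s c
    have a1 := hc fun l => π (A l)
    have a2 : ∀ κ, p κ * dcost (fun l => π (A l)) s ((l κ).map Prod.fst) ≤
        p κ * (pathCost c (dch A [] ((W κ).map Prod.fst)) -
          repeat_del s (endCfg c (dch A [] ((W κ).map Prod.fst)))) + p κ * repeat_del s c := by
      intro κ
      rw [← mul_add]
      refine mul_le_mul_of_nonneg_left ?_ (hp κ).le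
      have b1 := pathCost_le_add (s ∘ π) c (dch A [] ((l κ).map Prod.fst))
      rw [pathCost_perm, repeat_dch_map] at b1
      simp only [Function.comp_apply, dist_comm (s (π _))] at b1
      rw [← hπ] at b1
      have b2 := repeat_reset hX hs (n + 1) (endCfg c (dch A [] ((l κ).map Prod.fst)))
        (dch A ([] ++ (l κ).map Prod.fst) (R.map Prod.fst)) (by rw [map_fst_dch, hR3])
      have b3 := b2.elim (fun h => (hn' _).trans h) id
      rw [hW, List.map_append, dch_append, pathCost_append, repeat_endCfg_append, dcost]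
      linarith
    have a3 := sum_le_sum fun κ (_ : κ ∈ univ) => a2 κ
    rw [sum_add_distrib, ← sum_mul, h1] at a3
    linarith
  set ρ := C * Real.log (k + 1) ^ 2 with hρ
  have hρ0 : 0 ≤ ρ := mul_nonneg hC (sq_nonneg _)
  set O := ∑ κ, p κ * pathCost s (l κ) with hO
  have key : ∀ m : ℕ, m * c₀ - repeat_del s s ≤ ρ * (m * (2 * O)) + B := by
    intro m
    let M : (Fin m → K) → List (X × Fin k) := fun ω => (List.ofFn fun i => W (ω i)).flatten
    let d : X × Fin k := (s ⟨0, by omega⟩, ⟨0, by omega⟩)
    let T : ℕ := univ.sup fun ω => (M ω).length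
    have hT : ∀ ω, (M ω).length ≤ T := fun ω =>
      le_sup (f := fun ω => (M ω).length) (mem_univ ω)
    obtain ⟨A, hA⟩ := hB T (Fin m → K) (fun ω => ∏ i, p (ω i))
      (fun ω => prod_pos fun _ _ => hp _) (repeat_sum_prod h1 m)
      (fun t ω => ((M ω).getD (t - 1) d).1) (fun t ω => ((M ω).getD (t - 1) d).2)
    have e1 : ∀ ω, path (fun t => ((M ω).getD (t - 1) d).1) (fun t => ((M ω).getD (t - 1) d).2) T =
        M ω ++ List.replicate (T - (M ω).length) d := fun ω => repeat_pad (M ω) d (hT ω)
    have e2 : ∀ ω, reqs (fun t => ((M ω).getD (t - 1) d).1) T =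
        (List.ofFn fun i => (W (ω i)).map Prod.fst).flatten ++
          (List.replicate (T - (M ω).length) d).map Prod.fst := fun ω => by
      have := congrArg (List.map Prod.fst) (e1 ω)
      rw [List.map_append, path, List.map_map] at this
      refine this.trans ?_
      simp only [M, List.map_flatten, List.map_ofFn]
      rfl
    obtain ⟨o1, o2⟩ := repeat_offline h1 s W hW1 m
    have o3 := repeat_online (fun κ => (hp κ).le) h1 (fun κ => (W κ).map Prod.fst) (repeat_del s)
      (repeat_del_nonneg s) c₀ hW3 m A s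
    have o4 : ∑ ω : Fin m → K, (∏ i, p (ω i)) *
        pathCost s (dch A [] (List.ofFn fun i => (W (ω i)).map Prod.fst).flatten) ≤
        ∑ ω : Fin m → K, (∏ i, p (ω i)) *
          dcost A s (reqs (fun t => ((M ω).getD (t - 1) d).1) T) := by
      refine sum_le_sum fun ω _ => mul_le_mul_of_nonneg_left ?_ (prod_nonneg fun _ _ => (hp _).le)
      rw [e2, dcost, dch_append, pathCost_append]
      exact le_add_of_nonneg_right (pathCost_nonneg _ _)
    have o5 : ∑ ω : Fin m → K, (∏ i, p (ω i)) * pathCost s
        (path (fun t => ((M ω).getD (t - 1) d).1) (fun t => ((M ω).getD (t - 1) d).2) T) =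
        m * ∑ κ, p κ * pathCost s (W κ) := by
      rw [← o2]
      refine sum_congr rfl fun ω _ => ?_
      rw [e1, pathCost_append, o1 ω, repeat_free s (List.replicate _ d), add_zero]
      intro a ha
      rw [List.eq_of_mem_replicate ha]
    have o6 : ∑ κ, p κ * pathCost s (W κ) ≤ 2 * O := by
      rw [hO, mul_sum]
      refine sum_le_sum fun κ _ => ?_
      have := mul_le_mul_of_nonneg_left (hW2 κ) (hp κ).le
      linarith
    rw [o5] at hA
    have o7 := mul_le_mul_of_nonneg_left
      (mul_le_mul_of_nonneg_left o6 (Nat.cast_nonneg m : (0 : ℝ) ≤ m)) hρ0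
    linarith
  by_contra hlt
  have hpos : 0 < c₀ - 2 * ρ * O := by
    rw [not_le, mul_assoc 2 C] at hlt
    linarith
  obtain ⟨m, hm⟩ := exists_nat_gt ((B + repeat_del s s) / (c₀ - 2 * ρ * O))
  rw [div_lt_iff₀ hpos] at hm
  have := key m
  nlinarith

/-- Let `O = ∑ q κ * pathCost s (l κ)` and suppose every `A` has `∑ q κ * dcost A s (σ κ) ≥ c`
(normalise `q`, drop the `κ` with `q κ = 0`; the values `dcost A s (σ κ)` depend only on the
restriction of `A` to lists of bounded length, so the infimum over `A` is attained). Apply `Bayes`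
to `Ω = Fin m → K'` with product weights; round `i` requests `σ (ω i)` followed by the cyclic
sequence `s 0, s 1, …, s (k-1), s 0, …` up to a fixed round length `T₁ = T₀ + n₀ k`,
`n₀ ≥ k * diam`. The offline path serves `s a` by server `a`, pays at most
`2 * pathCost s (l (ω i))` (`sum_dist_endCfg_le`) and is back at `s`. Let `Δ c` be the least
`∑ i, dist (c i) (s (π i))` over permutations `π`. An online algorithm in configuration `c` at the
start of a round pays at least `c - Δ c` in conditional expectation on the `σ` part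
(`dch_shift`, `pathCost_le_add`, `pathCost_perm`), and at least `Δ` of its final configuration on
the reset part: either each of `n₀` passes through `s` costs at least `1`, or after a free pass the
configuration is a permutation of `s` (`s` injective) and the rest of the block costs at least `Δ`
of the final configuration (`sum_dist_endCfg_le`). Hence `m c ≤ 2 m ρ O + B` for all `m`. -/
theorem strict_of_bayes {C : ℝ} (hC : 0 ≤ C) (hB : Bayes C) {k : ℕ} (hk : 2 ≤ k) {X : Type}
    [Fintype X] [MetricSpace X] (hX : ∀ a b : X, a ≠ b → 1 ≤ dist a b) {s : Fin k → X}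
    (hs : Function.Injective s) {K : Type} [Fintype K] (l : K → List (X × Fin k)) (q : K → ℝ)
    (hq : ∀ κ, 0 ≤ q κ) :
    ∃ A : List X → Fin k, ∑ κ, q κ * (dcost A s ((l κ).map Prod.fst) -
      2 * C * Real.log (k + 1) ^ 2 * pathCost s (l κ)) ≤ 0 := by
  have hfin : (Set.range fun (A : List X → Fin k) κ => dch A [] ((l κ).map Prod.fst)).Finite := by
    refine (Set.Finite.pi' fun κ => List.finite_length_eq (X × Fin k) (l κ).length).subset ?_
    rintro _ ⟨A, rfl⟩ κ
    have := congrArg List.length (map_fst_dch A [] ((l κ).map Prod.fst))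
    simpa using this
  obtain ⟨_, ⟨A, rfl⟩, hA⟩ := Set.exists_min_image _ (fun u => ∑ κ, q κ * pathCost s (u κ)) hfin
    ⟨_, fun _ => ⟨0, by omega⟩, rfl⟩
  have hA' : ∀ A' : List X → Fin k, ∑ κ, q κ * dcost A s ((l κ).map Prod.fst) ≤
      ∑ κ, q κ * dcost A' s ((l κ).map Prod.fst) := fun A' => hA _ ⟨A', rfl⟩
  refine ⟨A, ?_⟩
  rcases (sum_nonneg fun κ (_ : κ ∈ univ) => hq κ).eq_or_lt with h0 | h0
  · have := (sum_eq_zero_iff_of_nonneg fun κ _ => hq κ).1 h0.symm
    rw [sum_eq_zero fun κ hκ => by rw [this κ hκ, zero_mul]]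
  set Q := ∑ κ, q κ with hQ
  have hsub : ∀ g : K → ℝ, ∑ κ : {κ // 0 < q κ}, q κ / Q * g κ = (∑ κ, q κ * g κ) / Q := by
    intro g
    rw [← sum_subtype (univ.filter fun κ => 0 < q κ) (by simp) fun κ => q κ / Q * g κ, sum_div,
      sum_filter]
    refine sum_congr rfl fun κ _ => ?_
    split_ifs with h
    · ring
    · rw [le_antisymm (not_lt.1 h) (hq κ)]
      simp
  have h1 := repeat_main hC hB hk hX hs (K := {κ // 0 < q κ}) (fun κ => l κ) (fun κ => q κ / Q)
    (fun κ => div_pos κ.2 h0) (by
      have := hsub fun _ => 1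
      simp only [mul_one] at this
      rw [this, div_self h0.ne']) ((∑ κ, q κ * dcost A s ((l κ).map Prod.fst)) / Q) fun A' => by
      rw [hsub fun κ => dcost A' s ((l κ).map Prod.fst)]
      exact div_le_div_of_nonneg_right (hA' A') h0.le
  rw [hsub fun κ => pathCost s (l κ), ← mul_div_assoc, div_le_div_iff_of_pos_right h0,
    mul_sum] at h1
  simp only [mul_sub, sum_sub_distrib, sub_nonpos]
  refine h1.trans_eq (sum_congr rfl fun κ _ => by ring)

end

end Crest.Agent.R314
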