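import Crest.Agent.R314.Kuhn
import Crest.Agent.R314.Repeat
import Crest.Agent.R052.EmbBasic

/-! Row 314: from the Bayesian statement to the theorem. -/

set_option autoImplicit false

open Finset Crest.LogicCS.KServer

namespace Crest.Agent.R314

noncomputable section
open Classical

/-- finite space with distances at least `1`: `Crest.Agent.R052.Emb.minimax` over the finitely many
restrictions of deterministic algorithms to short lists, `strict_of_bayes`, Kuhn. The conclusion
is a finite mixture so that it can be transported along embeddings. -/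
theorem exists_mixture_fin {C : ℝ} (hC : 0 ≤ C) (hB : Bayes C) {k : ℕ} (hk : 2 ≤ k) {X : Type}
    [Fintype X] [MetricSpace X] (hX : ∀ a b : X, a ≠ b → 1 ≤ dist a b) {s : Fin k → X}
    (hs : Function.Injective s) {K : Type} [Fintype K] (l : K → List (X × Fin k)) :
    ∃ (O : Type) (_ : Fintype O) (wt : O → ℝ) (A : O → List X → Fin k), (∀ o, 0 ≤ wt o) ∧
      ∑ o, wt o = 1 ∧ ∀ κ, ∑ o, wt o * dcost (A o) s ((l κ).map Prod.fst) ≤
        2 * C * Real.log (k + 1) ^ 2 * pathCost s (l κ) := by
  let Φ : (List X → Fin k) → K → List (X × Fin k) := fun A κ => dch A [] ((l κ).map Prod.fst)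
  have hfin : (Set.range Φ).Finite := by
    refine (Set.Finite.pi' fun κ => List.finite_length_eq (X × Fin k) (l κ).length).subset ?_
    rintro _ ⟨A, rfl⟩ κ
    have := congrArg List.length (map_fst_dch A [] ((l κ).map Prod.fst))
    simpa using this
  have : Fintype (Set.range Φ) := hfin.fintype
  have : Nonempty (Set.range Φ) := ⟨⟨_, fun _ => ⟨0, by omega⟩, rfl⟩⟩
  obtain ⟨w, h0, h1, h2⟩ := Crest.Agent.R052.Emb.minimax
    (fun (o : Set.range Φ) κ => pathCost s (o.1 κ) - 2 * C * Real.log (k + 1) ^ 2 * pathCost s (l κ))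
    fun q hq => by
      obtain ⟨A, hA⟩ := strict_of_bayes hC hB hk hX hs l q hq
      exact ⟨⟨Φ A, A, rfl⟩, hA⟩
  refine ⟨Set.range Φ, inferInstance, w, fun o => o.2.choose, h0, h1, fun κ => ?_⟩
  have h3 := h2 κ
  have h4 : ∀ o : Set.range Φ, dcost o.2.choose s ((l κ).map Prod.fst) = pathCost s (o.1 κ) :=
    fun o => congrArg (pathCost s) (congrFun o.2.choose_spec κ)
  simp only [mul_sub, Finset.sum_sub_distrib, ← Finset.sum_mul, h1, one_mul] at h3
  simp only [h4]
  linarith

theorem red_pathCost_map {X Z : Type*} [MetricSpace X] [MetricSpace Z] {k : ℕ} (ι : Z → X) {δ : ℝ}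
    (h : ∀ a b, dist (ι a) (ι b) = δ * dist a b) (c : Fin k → Z) (l : List (Z × Fin k)) :
    pathCost (ι ∘ c) (l.map (Prod.map ι id)) = δ * pathCost c l := by
  induction l generalizing c with
  | nil => simp [pathCost]
  | cons a l ih =>
    obtain ⟨r, i⟩ := a
    simp only [List.map_cons, Prod.map_apply, id, pathCost, Function.comp_apply]
    rw [← Function.comp_update, ih, h, mul_add]

theorem red_dch_map {X Z : Type*} {k : ℕ} {ι : Z → X} {ρ : X → Z} (h : ∀ a, ρ (ι a) = a)
    (A : List Z → Fin k) (pre σ : List Z) :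
    dch (fun τ => A (τ.map ρ)) (pre.map ι) (σ.map ι) = (dch A pre σ).map (Prod.map ι id) := by
  induction σ generalizing pre with
  | nil => rfl
  | cons r σ ih =>
    have h1 : pre.map ι ++ [ι r] = (pre ++ [r]).map ι := by simp
    have h2 : ρ ∘ ι = id := funext h
    rw [List.map_cons, dch_cons, dch_cons, h1, ih, List.map_map, h2, List.map_id]
    rfl

/-- any metric space, finitely many paths: restrict to the finite set of points that occur,
enumerate it by `Fin n`, rescale the metric by the least positive distance -/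
theorem exists_policy_finset {C : ℝ} (hC : 0 ≤ C) (hB : Bayes C) {k : ℕ} (hk : 2 ≤ k) {X : Type*}
    [MetricSpace X] {s : Fin k → X} (hs : Function.Injective s)
    (F : Finset (List (X × Fin k))) :
    ∃ Pol : Policy X k, ∀ l ∈ F,
      expCost Pol s (l.map Prod.fst) ≤ 2 * C * Real.log (k + 1) ^ 2 * pathCost s l := by
  let Y : Finset X := univ.image s ∪ F.biUnion fun l => (l.map Prod.fst).toFinset
  let ι : Fin Y.card → X := fun a => (Y.equivFin.symm a).1
  have hι : Function.Injective ι := Subtype.val_injective.comp Y.equivFin.symm.injective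
  have hsY : ∀ i, s i ∈ Y := fun i => mem_union_left _ (mem_image_of_mem s (mem_univ i))
  have : Nonempty (Fin Y.card) := ⟨Y.equivFin ⟨_, hsY ⟨0, by omega⟩⟩⟩
  let ρ : X → Fin Y.card := Function.invFun ι
  have hρι : ∀ a, ρ (ι a) = a := Function.leftInverse_invFun hι
  have hιρ : ∀ x ∈ Y, ι (ρ x) = x := fun x hx =>
    Function.invFun_eq ⟨Y.equivFin ⟨x, hx⟩, by simp [ι]⟩
  obtain ⟨δ, hδ, hδ'⟩ : ∃ δ : ℝ, 0 < δ ∧ ∀ a b, a ≠ b → δ ≤ dist (ι a) (ι b) := by
    obtain ⟨p, hp⟩ := Finite.exists_min fun p : Fin Y.card × Fin Y.card =>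
      if p.1 = p.2 then 1 else dist (ι p.1) (ι p.2)
    refine ⟨_, ?_, fun a b hab => (hp (a, b)).trans (if_neg hab).le⟩
    split_ifs with h
    · exact one_pos
    · exact dist_pos.2 (hι.ne h)
  let _ : MetricSpace (Fin Y.card) :=
    { dist := fun a b => dist (ι a) (ι b) / δ
      dist_self := fun a => by simp
      dist_comm := fun a b => by rw [dist_comm]
      dist_triangle := fun a b c => by
        rw [← add_div]
        exact div_le_div_of_nonneg_right (dist_triangle _ _ _) hδ.le
      eq_of_dist_eq_zero := fun {a b} h => hι (dist_eq_zero.1 ((div_eq_zero_iff.1 h).resolve_right hδ.ne')) }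
  have hd : ∀ a b : Fin Y.card, dist (ι a) (ι b) = δ * dist a b := fun a b =>
    (mul_div_cancel₀ _ hδ.ne').symm
  have hs' : ι ∘ (ρ ∘ s) = s := funext fun i => hιρ _ (hsY i)
  obtain ⟨O, _, wt, A, h0, h1, h2⟩ := exists_mixture_fin hC hB hk (X := Fin Y.card)
    (fun a b hab => (one_le_div hδ).2 (hδ' a b hab)) (s := ρ ∘ s)
    (Function.Injective.of_comp (f := ι) (hs'.symm ▸ hs))
    (fun κ : Fin F.card => (F.equivFin.symm κ).1.map (Prod.map ρ id))
  obtain ⟨Pol, hPol⟩ := exists_policy_of_mixture (X := X) (by omega : 0 < k) wt h0 h1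
    fun o τ => A o (τ.map ρ)
  refine ⟨Pol, fun l hl => ?_⟩
  have h3 := h2 (F.equivFin ⟨l, hl⟩)
  simp only [Equiv.symm_apply_apply] at h3
  obtain ⟨l', hl'⟩ : ∃ l', l' = l.map (Prod.map ρ id) := ⟨_, rfl⟩
  rw [← hl'] at h3
  have h4 : l = l'.map (Prod.map ι id) := by
    rw [hl', List.map_map]
    refine (List.map_id l).symm.trans (List.map_congr_left fun a ha => ?_)
    refine Prod.ext (hιρ a.1 ?_).symm rfl
    exact mem_union_right _ (mem_biUnion.2 ⟨l, hl, List.mem_toFinset.2 (List.mem_map_of_mem ha)⟩)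
  have h5 : l.map Prod.fst = (l'.map Prod.fst).map ι := by
    rw [h4, List.map_map, List.map_map]
    rfl
  have h6 : ∀ o, dcost (fun τ => A o (τ.map ρ)) s (l.map Prod.fst) =
      δ * dcost (A o) (ρ ∘ s) (l'.map Prod.fst) := fun o => by
    rw [dcost, dcost, ← red_pathCost_map ι hd, hs', ← red_dch_map hρι, h5]
    rfl
  have h7 : pathCost s l = δ * pathCost (ρ ∘ s) l' := by
    rw [← red_pathCost_map ι hd, hs', ← h4]
  rw [hPol, h7]
  simp only [h6, mul_left_comm _ δ, ← Finset.mul_sum]
  exact mul_le_mul_of_nonneg_left h3 hδ.le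

/-- the policy given by a family of probability vectors -/
def redPol {X : Type*} {k : ℕ} (y : List X → List (Fin k) → stdSimplex ℝ (Fin k)) : Policy X k :=
  ⟨fun a b => (y a b).1, fun a b => (y a b).2.1, fun a b => (y a b).2.2⟩

theorem red_continuous {X : Type*} {k : ℕ} (l : List (X × Fin k)) (a : List X) (b : List (Fin k)) :
    Continuous fun y : List X → List (Fin k) → stdSimplex ℝ (Fin k) => pathProb (redPol y) a b l := by
  induction l generalizing a b with
  | nil => exact continuous_const
  | cons c l ih =>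
    obtain ⟨r, i⟩ := c
    refine Continuous.mul ?_ (ih _ _)
    exact (continuous_apply i).comp (continuous_subtype_val.comp
      ((continuous_apply b).comp (continuous_apply (a ++ [r]))))

/-- compactness of `List X → List (Fin k) → stdSimplex ℝ (Fin k)`; `expCost` is continuous -/
theorem exists_policy_inj {C : ℝ} (hC : 0 ≤ C) (hB : Bayes C) {k : ℕ} (hk : 2 ≤ k) {X : Type*}
    [MetricSpace X] {s : Fin k → X} (hs : Function.Injective s) :
    ∃ Pol : Policy X k, ∀ l : List (X × Fin k),
      expCost Pol s (l.map Prod.fst) ≤ 2 * C * Real.log (k + 1) ^ 2 * pathCost s l := by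
  obtain ⟨y, -, hy⟩ := (isCompact_univ (X := List X → List (Fin k) → stdSimplex ℝ (Fin k))
      ).inter_iInter_nonempty (fun l : List (X × Fin k) => {y | expCost (redPol y) s (l.map Prod.fst)
        ≤ 2 * C * Real.log (k + 1) ^ 2 * pathCost s l})
    (fun l => isClosed_le (continuous_finsetSum _ fun j _ =>
      (red_continuous _ _ _).mul continuous_const) continuous_const) fun F => by
      obtain ⟨Pol, hPol⟩ := exists_policy_finset hC hB hk hs F
      refine ⟨fun a b => ⟨Pol.prob a b, Pol.prob_nonneg a b, Pol.prob_sum a b⟩, trivial, ?_⟩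
      exact Set.mem_iInter₂.2 hPol
  exact ⟨redPol y, Set.mem_iInter.1 hy⟩

theorem red_pathProb_nonneg {X : Type*} {k : ℕ} (A : Policy X k) (l : List (X × Fin k))
    (a : List X) (b : List (Fin k)) : 0 ≤ pathProb A a b l := by
  induction l generalizing a b with
  | nil => exact zero_le_one
  | cons c l ih => exact mul_nonneg (A.prob_nonneg _ _ _) (ih _ _)

theorem red_sum_pathProb {X : Type*} {k : ℕ} (A : Policy X k) (σ : List X) (a : List X)
    (b : List (Fin k)) :
    ∑ j : Fin σ.length → Fin k, pathProb A a b (σ.zip (List.ofFn j)) = 1 := by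
  induction σ generalizing a b with
  | nil => simp [pathProb]
  | cons r σ ih =>
    change ∑ j : Fin (σ.length + 1) → Fin k, pathProb A a b ((r :: σ).zip (List.ofFn j)) = 1
    rw [← (Fin.consEquiv fun _ : Fin (σ.length + 1) => Fin k).sum_comp, Fintype.sum_prod_type,
      ← A.prob_sum (a ++ [r]) b]
    refine Finset.sum_congr rfl fun i _ => ?_
    rw [← mul_one (A.prob _ _ _), ← ih (a ++ [r]) (b ++ [i]), Finset.mul_sum]
    refine Finset.sum_congr rfl fun j _ => ?_
    simp [List.ofFn_succ, pathProb, Fin.consEquiv]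

/-- a non-injective start is compared with an injective one (`pathCost_le_add`; the path
probabilities sum to one) -/
theorem result_of_bayes {C : ℝ} (hC : 0 ≤ C) (hB : Bayes C) (k : ℕ) (hk : 2 ≤ k) (X : Type*)
    [MetricSpace X] (hX : Nonempty (Fin (k + 1) ↪ X)) (s : Fin k → X) :
    ∃ (A : Policy X k) (B : ℝ), 0 ≤ B ∧ (Function.Injective s → B = 0) ∧
      ∀ (σ : List X) (j : Fin σ.length → Fin k), expCost A s σ ≤
        2 * C * Real.log (k + 1) ^ 2 * pathCost s (σ.zip (List.ofFn j)) + B := by
  obtain ⟨s', hs', hss⟩ : ∃ s' : Fin k → X, Function.Injective s' ∧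
      (Function.Injective s → s' = s) := by
    by_cases hs : Function.Injective s
    · exact ⟨s, hs, fun _ => rfl⟩
    · obtain ⟨e⟩ := hX
      exact ⟨e ∘ Fin.castSucc, e.injective.comp (Fin.castSucc_injective k), fun h => absurd h hs⟩
  obtain ⟨Pol, hPol⟩ := exists_policy_inj hC hB hk hs'
  have hc : 0 ≤ 2 * C * Real.log (k + 1) ^ 2 := by positivity
  have hD : 0 ≤ ∑ i, dist (s i) (s' i) := Finset.sum_nonneg fun _ _ => dist_nonneg
  refine ⟨Pol, (1 + 2 * C * Real.log (k + 1) ^ 2) * ∑ i, dist (s i) (s' i), by positivity,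
    fun hs => by simp [hss hs], fun σ j => ?_⟩
  have h1 := hPol (σ.zip (List.ofFn j))
  rw [List.map_fst_zip (by simp)] at h1
  have h2 : expCost Pol s σ ≤ expCost Pol s' σ + ∑ i, dist (s i) (s' i) := by
    rw [expCost, expCost, ← one_mul (∑ i, dist (s i) (s' i)), ← red_sum_pathProb Pol σ [] [],
      Finset.sum_mul, ← Finset.sum_add_distrib]
    refine Finset.sum_le_sum fun j' _ => ?_
    rw [← mul_add]
    exact mul_le_mul_of_nonneg_left (pathCost_le_add s s' _) (red_pathProb_nonneg _ _ _ _)
  have h3 := pathCost_le_add s' s (σ.zip (List.ofFn j))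
  simp only [dist_comm (s' _)] at h3
  have h4 := mul_le_mul_of_nonneg_left h3 hc
  linarith

end

end Crest.Agent.R314
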