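import Crest.Agent.R314.Defs

/-! Row 314: elementary facts on levelled trees. -/

set_option autoImplicit false

open Finset Crest.LogicCS.KServer

namespace Crest.Agent.R314

noncomputable section
open Classical

variable {V : Type} (T : Tr V)

theorem Tr.w_pos (v : V) : 0 < T.w v := by
  unfold Tr.w; positivity

theorem Tr.one_le_w (v : V) : 1 ≤ T.w v := by
  exact one_le_pow₀ (by norm_num)

theorem Tr.w_par {c : V} (hc : c ≠ T.root) : T.w (T.par c) = 16 * T.w c := by
  unfold Tr.w; rw [T.lvl_par c hc, pow_succ, mul_comm]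

theorem Tr.sub_refl (v : V) : T.Sub v v := by
  exact ⟨0, rfl⟩

theorem Tr.sub_par (v : V) : T.Sub v (T.par v) := by
  exact ⟨1, rfl⟩

theorem Tr.Sub.trans {T : Tr V} {a b c : V} (h : T.Sub a b) (h' : T.Sub b c) : T.Sub a c := by
  obtain ⟨n, rfl⟩ := h
  obtain ⟨m, rfl⟩ := h'
  exact ⟨m + n, Function.iterate_add_apply _ _ _ _⟩

theorem Tr.tree_down_ind {p : V → Prop} (h0 : p T.root)
    (h : ∀ c, c ≠ T.root → p (T.par c) → p c) (v : V) : p v := by
  induction hn : T.lvl T.root - T.lvl v using Nat.strong_induction_on generalizing v with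
  | _ n ih =>
    by_cases hv : v = T.root
    · rw [hv]; exact h0
    · refine h v hv (ih _ ?_ _ rfl)
      have := T.lvl_lt v hv
      rw [T.lvl_par v hv]
      omega

theorem Tr.tree_total {T : Tr V} {u a b : V} (h : T.Sub u a) (h' : T.Sub u b) :
    T.Sub a b ∨ T.Sub b a := by
  obtain ⟨n, rfl⟩ := h
  obtain ⟨m, rfl⟩ := h'
  rcases le_total n m with h | h
  · exact Or.inl ⟨m - n, by rw [← Function.iterate_add_apply, Nat.sub_add_cancel h]⟩
  · exact Or.inr ⟨n - m, by rw [← Function.iterate_add_apply, Nat.sub_add_cancel h]⟩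

theorem Tr.sub_root (v : V) : T.Sub v T.root := by
  exact T.tree_down_ind (p := fun v => T.Sub v T.root) (T.sub_refl _)
    (fun c _ h => (T.sub_par c).trans h) v

theorem Tr.Sub.lvl_le {T : Tr V} {a b : V} (h : T.Sub a b) : T.lvl a ≤ T.lvl b := by
  obtain ⟨n, rfl⟩ := h
  induction n with
  | zero => exact le_rfl
  | succ n ih =>
    rw [Function.iterate_succ_apply']
    refine ih.trans ?_
    by_cases h : T.par^[n] a = T.root
    · rw [h, T.par_root]
    · rw [T.lvl_par _ h]; omega

theorem Tr.Sub.eq_of_lvl_eq {T : Tr V} {a b : V} (h : T.Sub a b) (h' : T.lvl a = T.lvl b) :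
    a = b := by
  obtain ⟨n, rfl⟩ := h
  by_cases ha : a = T.root
  · rw [ha, Function.iterate_fixed T.par_root]
  cases n with
  | zero => rfl
  | succ n =>
    have h1 : T.Sub (T.par a) (T.par^[n + 1] a) := ⟨n, rfl⟩
    have h2 := h1.lvl_le
    rw [T.lvl_par _ ha] at h2
    omega

theorem Tr.root_sub_iff {v : V} : T.Sub T.root v ↔ v = T.root := by
  constructor
  · rintro ⟨n, rfl⟩
    exact Function.iterate_fixed T.par_root n
  · rintro rfl
    exact T.sub_refl _

/-- the ancestors of a node: itself and the ancestors of its parent -/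
theorem Tr.sub_iff_par {u v : V} : T.Sub u v ↔ u = v ∨ T.Sub (T.par u) v := by
  constructor
  · rintro ⟨n, rfl⟩
    cases n with
    | zero => exact Or.inl rfl
    | succ n => exact Or.inr ⟨n, rfl⟩
  · rintro (rfl | h)
    · exact T.sub_refl _
    · exact (T.sub_par u).trans h

theorem Tr.not_par_sub {c : V} (hc : c ≠ T.root) : ¬T.Sub (T.par c) c := by
  intro h
  have := h.lvl_le
  rw [T.lvl_par _ hc] at this
  omega

/-- two ancestors of the same level coincide -/
theorem Tr.Sub.unique {T : Tr V} {u a b : V} (h : T.Sub u a) (h' : T.Sub u b)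
    (hl : T.lvl a = T.lvl b) : a = b := by
  rcases Tr.tree_total h h' with h1 | h1
  · exact h1.eq_of_lvl_eq hl
  · exact (h1.eq_of_lvl_eq hl.symm).symm

theorem Tr.Sub.total {T : Tr V} {u a b : V} (h : T.Sub u a) (h' : T.Sub u b) :
    T.Sub a b ∨ T.Sub b a := by
  exact Tr.tree_total h h'

/-- induction from the root downwards -/
theorem Tr.down_ind {p : V → Prop} (h0 : p T.root) (h : ∀ c, c ≠ T.root → p (T.par c) → p c)
    (v : V) : p v := by
  exact T.tree_down_ind h0 h v

/-- recursion from the root downwards -/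
theorem Tr.exists_down_rec {α : Type*} (a : α) (f : V → α → α) :
    ∃ g : V → α, g T.root = a ∧ ∀ c, c ≠ T.root → g c = f c (g (T.par c)) := by
  let G : ℕ → V → α := fun n => Nat.rec (fun _ => a) (fun _ g c => f c (g (T.par c))) n
  refine ⟨fun c => G (T.lvl T.root - T.lvl c) c, by simp [G], fun c hc => ?_⟩
  have h1 := T.lvl_lt c hc
  have h2 : T.lvl T.root - T.lvl c = (T.lvl T.root - T.lvl (T.par c)) + 1 := by
    rw [T.lvl_par c hc]; omega
  simp only [h2, G]

theorem Tr.tree_sub_ind {v : V} {p : V → Prop} (h0 : p v)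
    (h : ∀ a, T.Sub a v → a ≠ v → a ≠ T.root → p (T.par a) → p a) {a : V} (ha : T.Sub a v) :
    p a := by
  revert ha
  refine T.down_ind (p := fun a => T.Sub a v → p a) (fun hr => ?_) (fun c hc ih hcv => ?_) a
  · rw [← T.root_sub_iff.1 hr]; exact h0
  · by_cases hne : c = v
    · rw [hne]; exact h0
    · exact h c hcv hne hc (ih ((T.sub_iff_par.1 hcv).resolve_left hne))

variable [Fintype V]

theorem Tr.mem_ch {c v : V} : c ∈ T.ch v ↔ c ≠ T.root ∧ T.par c = v := by
  simp [Tr.ch]

theorem Tr.ch_eq_empty {v : V} (h : T.lvl v = 0) : T.ch v = ∅ := by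
  refine eq_empty_of_forall_notMem fun c hc => ?_
  obtain ⟨h1, rfl⟩ := T.mem_ch.1 hc
  rw [T.lvl_par c h1] at h
  omega

/-- induction from the leaves upwards -/
theorem Tr.up_ind {p : V → Prop} (h : ∀ v, (∀ c ∈ T.ch v, p c) → p v) (v : V) : p v := by
  induction hn : T.lvl v using Nat.strong_induction_on generalizing v with
  | _ n ih =>
    refine h v fun c hc => ih (T.lvl c) ?_ c rfl
    obtain ⟨h1, rfl⟩ := T.mem_ch.1 hc
    rw [T.lvl_par c h1] at hn
    omega

/-- a node of the subtree of `v` is `v` or lies below exactly one child -/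
theorem Tr.sub_iff_ch {u v : V} : T.Sub u v ↔ u = v ∨ ∃ c ∈ T.ch v, T.Sub u c := by
  constructor
  · rintro ⟨n, rfl⟩
    induction n with
    | zero => exact Or.inl rfl
    | succ n ih =>
      rw [Function.iterate_succ_apply']
      by_cases h : T.par^[n] u = T.root
      · rw [h] at ih ⊢
        rwa [T.par_root]
      · exact Or.inr ⟨_, T.mem_ch.2 ⟨h, rfl⟩, n, rfl⟩
  · rintro (rfl | ⟨c, hc, h⟩)
    · exact T.sub_refl _
    · obtain ⟨-, rfl⟩ := T.mem_ch.1 hc
      exact h.trans (T.sub_par c)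

theorem Tr.sum_sub (f : V → ℝ) (v : V) :
    ∑ u with T.Sub u v, f u = f v + ∑ c ∈ T.ch v, ∑ u with T.Sub u c, f u := by
  have e : (univ.filter fun u => T.Sub u v) =
      insert v ((T.ch v).biUnion fun c => univ.filter fun u => T.Sub u c) := by
    ext u
    simp only [mem_filter, mem_univ, true_and, mem_insert, mem_biUnion]
    exact T.sub_iff_ch
  rw [e, sum_insert, sum_biUnion]
  · intro c hc c' hc' hne
    refine disjoint_left.2 fun u hu hu' => hne ?_
    obtain ⟨h1, h2⟩ := T.mem_ch.1 hc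
    obtain ⟨h3, h4⟩ := T.mem_ch.1 hc'
    have h5 := T.lvl_par c h1
    have h6 := T.lvl_par c' h3
    rw [h2] at h5
    rw [h4] at h6
    exact (mem_filter.1 hu).2.unique (mem_filter.1 hu').2 (by omega)
  · simp only [mem_biUnion, mem_filter, mem_univ, true_and, not_exists, not_and]
    intro c hc
    obtain ⟨h1, rfl⟩ := T.mem_ch.1 hc
    exact T.not_par_sub h1

theorem Tr.sum_anc (f : V → ℝ) {c : V} (hc : c ≠ T.root) :
    ∑ u with T.Sub c u, f u = f c + ∑ u with T.Sub (T.par c) u, f u := by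
  have e : (univ.filter fun u => T.Sub c u) =
      insert c (univ.filter fun u => T.Sub (T.par c) u) := by
    ext u
    simp only [mem_filter, mem_univ, true_and, mem_insert]
    rw [T.sub_iff_par, eq_comm]
  rw [e, sum_insert]
  simp [T.not_par_sub hc]

theorem Tr.sum_ch (f : V → ℝ) : ∑ v, ∑ c ∈ T.ch v, f c = ∑ c with c ≠ T.root, f c := by
  rw [← sum_fiberwise (univ.filter fun c => c ≠ T.root) T.par f]
  refine sum_congr rfl fun v _ => ?_
  rw [filter_filter]
  rfl

theorem Tr.SA.mono {T : Tr V} {f : V → ℝ} (h : T.SA f) (h0 : ∀ v, 0 ≤ f v) {u v : V}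
    (huv : T.Sub u v) : f u ≤ f v := by
  obtain ⟨n, rfl⟩ := huv
  induction n with
  | zero => exact le_rfl
  | succ n ih =>
    rw [Function.iterate_succ_apply']
    refine ih.trans ?_
    by_cases hr : T.par^[n] u = T.root
    · rw [hr, T.par_root]
    · exact (single_le_sum (fun c _ => h0 c) (T.mem_ch.2 ⟨hr, rfl⟩)).trans (h _)

theorem Tr.sum_park (f : V → ℝ) (v : V) : ∑ u with T.Sub u v, T.park f u = f v := by
  refine T.up_ind (p := fun v => ∑ u with T.Sub u v, T.park f u = f v) (fun v ih => ?_) v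
  rw [T.sum_sub, sum_congr rfl ih, Tr.park]
  ring

/-- geometric weights -/
theorem Tr.SA.sum_w_le {T : Tr V} {f : V → ℝ} (h : T.SA f) (h0 : ∀ v, 0 ≤ f v) (v : V) :
    ∑ u with T.Sub u v, T.w u * f u ≤ 2 * T.w v * f v := by
  refine T.up_ind (p := fun v => ∑ u with T.Sub u v, T.w u * f u ≤ 2 * T.w v * f v)
    (fun v ih => ?_) v
  rw [T.sum_sub]
  have h1 : ∑ c ∈ T.ch v, ∑ u with T.Sub u c, T.w u * f u ≤ ∑ c ∈ T.ch v, T.w v / 8 * f c := by
    refine sum_le_sum fun c hc => (ih c hc).trans (le_of_eq ?_)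
    obtain ⟨h1, rfl⟩ := T.mem_ch.1 hc
    rw [T.w_par h1]
    ring
  rw [← mul_sum] at h1
  have h2 := h v
  have h3 := T.w_pos v
  have h4 := h0 v
  nlinarith

theorem Tr.td_nonneg (u u' : V) : 0 ≤ T.td u u' := by
  refine sum_nonneg fun v _ => ?_
  split_ifs
  · exact le_rfl
  · exact (T.w_pos v).le

theorem Tr.td_self (u : V) : T.td u u = 0 := by
  simp [Tr.td]

theorem Tr.td_comm (u u' : V) : T.td u u' = T.td u' u := by
  refine sum_congr rfl fun v _ => ?_
  simp only [iff_comm (a := T.Sub u v)]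

theorem Tr.td_triangle (a b c : V) : T.td a c ≤ T.td a b + T.td b c := by
  unfold Tr.td
  rw [← sum_add_distrib]
  refine sum_le_sum fun v _ => ?_
  have := T.w_pos v
  by_cases h1 : T.Sub a v <;> by_cases h2 : T.Sub b v <;> by_cases h3 : T.Sub c v <;>
    simp [h1, h2, h3] <;> linarith

theorem Tr.td_par {c : V} (hc : c ≠ T.root) : T.td c (T.par c) = T.w c := by
  unfold Tr.td
  rw [sum_eq_single c]
  · simp [T.sub_refl, T.not_par_sub hc]
  · intro v _ hv
    rw [if_pos]
    rw [T.sub_iff_par, or_iff_right hv.symm]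
  · simp

/-- length of the path from `a` up to `v` -/
def Tr.treeUp (a v : V) : ℝ := ∑ u with T.Sub a u, if T.Sub v u then 0 else T.w u

theorem Tr.treeUp_self (v : V) : T.treeUp v v = 0 :=
  sum_eq_zero fun _ hu => if_pos (mem_filter.1 hu).2

theorem Tr.treeUp_step {a v : V} (ha : T.Sub a v) (hne : a ≠ v) (hr : a ≠ T.root) :
    T.treeUp a v = T.w a + T.treeUp (T.par a) v := by
  unfold Tr.treeUp
  rw [T.sum_anc _ hr, if_neg]
  exact fun h => hne (ha.eq_of_lvl_eq (le_antisymm ha.lvl_le h.lvl_le))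

/-- two nodes below a common node -/
theorem Tr.td_le_of_sub {a b v : V} (ha : T.Sub a v) (hb : T.Sub b v) : T.td a b ≤ T.w v / 7 := by
  have h1 : ∀ a, T.Sub a v → T.treeUp a v ≤ (T.w v - T.w a) / 15 := fun a ha => by
    refine T.tree_sub_ind (p := fun a => T.treeUp a v ≤ (T.w v - T.w a) / 15) ?_ ?_ ha
    · simp [T.treeUp_self]
    · intro a ha hne hr ih
      rw [T.treeUp_step ha hne hr]
      rw [T.w_par hr] at ih
      linarith
  have h2 : T.td a b ≤ T.treeUp a v + T.treeUp b v := by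
    unfold Tr.td Tr.treeUp
    rw [sum_filter, sum_filter, ← sum_add_distrib]
    refine sum_le_sum fun u _ => ?_
    have := T.w_pos u
    by_cases h3 : T.Sub v u
    · simp [h3, ha.trans h3, hb.trans h3]
    · by_cases h1 : T.Sub a u <;> by_cases h2 : T.Sub b u <;> simp [h1, h2, h3]
      linarith
  have h3 := h1 a ha
  have h4 := h1 b hb
  have h5 := T.w_pos a
  have h6 := T.w_pos b
  have h7 := T.w_pos v
  linarith

/-- positions of nodes whose edges up to the root are short -/
theorem Tr.dist_le_td {X : Type*} [MetricSpace X] (pos : V → X) {D : ℝ} (hD : 0 ≤ D) {a b : V}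
    (ha : ∀ c, T.Sub a c → c ≠ T.root → dist (pos c) (pos (T.par c)) ≤ D * T.w c)
    (hb : ∀ c, T.Sub b c → c ≠ T.root → dist (pos c) (pos (T.par c)) ≤ D * T.w c) :
    dist (pos a) (pos b) ≤ D * T.td a b := by
  obtain ⟨v, hv, hmin⟩ := exists_min_image (univ.filter fun u => T.Sub a u ∧ T.Sub b u) T.lvl
    ⟨T.root, by simp [T.sub_root]⟩
  obtain ⟨hav, hbv⟩ := (mem_filter.1 hv).2
  have h1 : ∀ a, (∀ c, T.Sub a c → c ≠ T.root → dist (pos c) (pos (T.par c)) ≤ D * T.w c) →
      T.Sub a v → dist (pos a) (pos v) ≤ D * T.treeUp a v := fun a h ha => by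
    revert h
    refine T.tree_sub_ind (p := fun a => (∀ c, T.Sub a c → c ≠ T.root →
      dist (pos c) (pos (T.par c)) ≤ D * T.w c) → dist (pos a) (pos v) ≤ D * T.treeUp a v)
      ?_ ?_ ha
    · intro _
      simp [T.treeUp_self]
    · intro a ha hne hr ih h
      rw [T.treeUp_step ha hne hr, mul_add]
      exact (dist_triangle _ (pos (T.par a)) _).trans (add_le_add (h a (T.sub_refl a) hr)
        (ih fun c hc => h c ((T.sub_par a).trans hc)))
  have h2 : T.treeUp a v + T.treeUp b v ≤ T.td a b := by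
    unfold Tr.td Tr.treeUp
    rw [sum_filter, sum_filter, ← sum_add_distrib]
    refine sum_le_sum fun u _ => ?_
    by_cases h3 : T.Sub v u
    · simp [h3, hav.trans h3, hbv.trans h3]
    · by_cases h1 : T.Sub a u <;> by_cases h2 : T.Sub b u <;> simp [h1, h2, h3]
      refine absurd ?_ h3
      rcases hav.total h1 with h4 | h4
      · exact h4
      · rw [h4.eq_of_lvl_eq (le_antisymm h4.lvl_le (hmin u (by simp [h1, h2])))]
        exact T.sub_refl v
  calc dist (pos a) (pos b) ≤ dist (pos a) (pos v) + dist (pos b) (pos v) := dist_triangle_right _ _ _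
    _ ≤ D * T.treeUp a v + D * T.treeUp b v := add_le_add (h1 a ha hav) (h1 b hb hbv)
    _ ≤ D * T.td a b := by rw [← mul_add]; exact mul_le_mul_of_nonneg_left h2 hD

theorem Tr.cnt_le {k : ℕ} (loc : Fin k → V) (v : V) : T.cnt loc v ≤ k := by
  exact (card_filter_le _ _).trans (by simp)

theorem Tr.cnt_root {k : ℕ} (loc : Fin k → V) : T.cnt loc T.root = k := by
  simp [Tr.cnt, T.sub_root]

theorem Tr.cnt_eq {k : ℕ} (loc : Fin k → V) (v : V) :
    T.cnt loc v = #{i | loc i = v} + ∑ c ∈ T.ch v, T.cnt loc c := by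
  have h : ∀ v, (T.cnt loc v : ℝ) = ∑ u with T.Sub u v, (#{i | loc i = u} : ℝ) := fun v => by
    rw [Tr.cnt, card_eq_sum_card_fiberwise (f := loc) (t := univ.filter fun u => T.Sub u v)
      (fun i hi => by simpa using hi), Nat.cast_sum]
    refine sum_congr rfl fun u hu => ?_
    congr 2
    ext i
    simp only [mem_filter, mem_univ, true_and, and_iff_right_iff_imp]
    rintro rfl
    exact (mem_filter.1 hu).2
  have h2 := T.sum_sub (fun u => (#{i | loc i = u} : ℝ)) v
  simp only [← h] at h2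
  exact_mod_cast h2

theorem Tr.sum_w_cnt_le {k : ℕ} (loc loc' : Fin k → V) :
    ∑ v, T.w v * |(T.cnt loc v : ℝ) - T.cnt loc' v| ≤ ∑ i, T.td (loc i) (loc' i) := by
  unfold Tr.td
  rw [sum_comm]
  refine sum_le_sum fun v _ => ?_
  simp only [Tr.cnt, card_filter, Nat.cast_sum]
  rw [← sum_sub_distrib]
  refine (mul_le_mul_of_nonneg_left (abs_sum_le_sum_abs _ _) (T.w_pos v).le).trans ?_
  rw [mul_sum]
  refine sum_le_sum fun i _ => ?_
  by_cases h1 : T.Sub (loc i) v <;> by_cases h2 : T.Sub (loc' i) v <;> simp [h1, h2]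

end

end Crest.Agent.R314
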